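import Crest.Agent.R40.T1Defs

-- ▼ part R40/T1BField
section

/-!
# R40 / T1 : the constructible field `K ⊂ ℝ` and `F = K(i) ⊂ ℂ`
-/

namespace Crest.Agent.R40.T1B

open Complex Crest.Agent.R40.T1

lemma sqrt_mem_K' {r : ℝ} (hr : r ∈ K) : Real.sqrt r ∈ K := by
  rcases le_or_gt 0 r with h0 | h0
  · exact sqrt_mem_K hr h0
  · rw [Real.sqrt_eq_zero_of_nonpos h0.le]; exact zero_mem _

lemma K_countable : (K : Set ℝ).Countable :=
  (Algebraic.countable ℚ ℝ).mono fun _ hr => K_algebraic hr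

lemma I_mem_F : I ∈ F := ⟨by simp [zero_mem], by simp [one_mem]⟩

lemma ofReal_mem_F {r : ℝ} : (r : ℂ) ∈ F ↔ r ∈ K := by
  simp [mem_F, zero_mem]


lemma normSq_mem_K {z : ℂ} (hz : z ∈ F) : normSq z ∈ K := by
  rw [normSq_apply]; exact add_mem (mul_mem hz.1 hz.1) (mul_mem hz.2 hz.2)

lemma norm_mem_K {z : ℂ} (hz : z ∈ F) : ‖z‖ ∈ K := by
  rw [Complex.norm_def]; exact sqrt_mem_K' (normSq_mem_K hz)

lemma F_countable : (F : Set ℂ).Countable := by
  have h : ((fun p : ℝ × ℝ => (⟨p.1, p.2⟩ : ℂ)) '' ((K : Set ℝ) ×ˢ (K : Set ℝ))).Countable :=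
    (K_countable.prod K_countable).image _
  refine h.mono ?_
  intro z hz
  exact ⟨(z.re, z.im), ⟨hz.1, hz.2⟩, rfl⟩

instance : Countable F := F_countable.to_subtype

lemma F_algebraic {z : ℂ} (hz : z ∈ F) : IsAlgebraic ℚ z := by
  have h1 : IsAlgebraic ℚ ((z.re : ℝ) : ℂ) := (K_algebraic hz.1).algebraMap
  have h2 : IsAlgebraic ℚ ((z.im : ℝ) : ℂ) := (K_algebraic hz.2).algebraMap
  have hI : IsAlgebraic ℚ I := by
    refine ⟨Polynomial.X ^ 2 + 1, ?_, ?_⟩
    · intro h
      have := congrArg (Polynomial.eval 0) h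
      simp at this
    · simp
  have := h1.add (h2.mul hI)
  rwa [re_add_im] at this

/-- The isosceles lemma: a vector of length at most `2` is a sum of two unit vectors of `F`. -/
lemma exists_unit_add_unit {w : ℂ} (hw : w ∈ F) (hw2 : ‖w‖ ≤ 2) :
    ∃ u ∈ F, ∃ v ∈ F, ‖u‖ = 1 ∧ ‖v‖ = 1 ∧ w = u + v := by
  rcases eq_or_ne w 0 with rfl | h0
  · exact ⟨1, one_mem _, -1, neg_mem (one_mem _), by simp, by simp, by ring⟩
  have hn0 : 0 < ‖w‖ := norm_pos_iff.2 h0
  set n : ℝ := ‖w‖ with hn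
  have hnK : n ∈ K := norm_mem_K hw
  set s : ℝ := Real.sqrt (1 - n ^ 2 / 4) with hs
  have h4 : (4 : ℝ) ∈ K := by
    have := natCast_mem K 4
    simp
  have h2 : (2 : ℂ) ∈ F := by
    have := natCast_mem F 2
    simp
  have hsK : s ∈ K := sqrt_mem_K' (sub_mem (one_mem _) (div_mem (pow_mem hnK 2) h4))
  have hs2 : s ^ 2 = 1 - n ^ 2 / 4 := by
    rw [hs]; apply Real.sq_sqrt; nlinarith
  have hcF : (s / n : ℝ) * I ∈ F := mul_mem (ofReal_mem_F.2 (div_mem hsK hnK)) I_mem_F
  have key : ∀ ε : ℝ, ε ^ 2 = 1 → ‖w / 2 + ε * ((s / n : ℝ) * I) * w‖ = 1 := by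
    intro ε hε
    have e1 : w / 2 + ε * ((s / n : ℝ) * I) * w = w * ((1 / 2 : ℝ) + ((ε * (s / n) : ℝ)) * I) := by
      push_cast; ring
    rw [e1, norm_mul, ← hn]
    have e2 : ‖((1 / 2 : ℝ) : ℂ) + ((ε * (s / n) : ℝ) : ℂ) * I‖ = 1 / n := by
      rw [Complex.norm_def, normSq_apply]
      have e3 : ((((1 / 2 : ℝ) : ℂ) + ((ε * (s / n) : ℝ) : ℂ) * I)).re = 1 / 2 := by simp
      have e4 : ((((1 / 2 : ℝ) : ℂ) + ((ε * (s / n) : ℝ) : ℂ) * I)).im = ε * (s / n) := by simp
      rw [e3, e4]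
      have e5 : (1 / 2 : ℝ) * (1 / 2) + ε * (s / n) * (ε * (s / n)) = (1 / n) ^ 2 := by
        have : ε * (s / n) * (ε * (s / n)) = ε ^ 2 * s ^ 2 / n ^ 2 := by
          field_simp
        rw [this, hε, hs2]
        field_simp
        ring
      rw [e5, Real.sqrt_sq (by positivity)]
    rw [e2]; field_simp
  refine ⟨w / 2 + (1 : ℝ) * ((s / n : ℝ) * I) * w, ?_, w / 2 + (-1 : ℝ) * ((s / n : ℝ) * I) * w, ?_,
    key 1 (by norm_num), key (-1) (by norm_num), ?_⟩
  · exact add_mem (div_mem hw h2) (mul_mem (mul_mem (by simpa using one_mem F) hcF) hw)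
  · refine add_mem (div_mem hw h2) (mul_mem (mul_mem ?_ hcF) hw)
    simpa using neg_mem (one_mem F)
  · push_cast; ring

/-- `exists_unit_add_unit` in scaled form. -/
lemma exists_unit_comb {y z : ℂ} (hy : y ∈ F) (hz : z ∈ F) (hy0 : y ≠ 0) (hzy : ‖z‖ ≤ 2 * ‖y‖) :
    ∃ u ∈ F, ∃ v ∈ F, ‖u‖ = 1 ∧ ‖v‖ = 1 ∧ z = u * y + v * y := by
  obtain ⟨u, hu, v, hv, hu1, hv1, h⟩ := exists_unit_add_unit (w := z / y) (div_mem hz hy) (by
    rw [norm_div, div_le_iff₀ (norm_pos_iff.2 hy0)]; exact hzy)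
  refine ⟨u, hu, v, hv, hu1, hv1, ?_⟩
  rw [← add_mul, ← h, div_mul_cancel₀ _ hy0]

/-- A subfield of `ℂ` (given by its membership predicate) containing `i` and all `u ∈ F` of modulus
one whose real part it contains contains all of `F`. -/
lemma F_le_of_unit {A : Subfield ℂ} (hI : I ∈ A)
    (hu : ∀ u ∈ F, ‖u‖ = 1 → ((u.re : ℝ) : ℂ) ∈ A → u ∈ A) (z : ℂ) (hz : z ∈ F) : z ∈ A := by
  have hK : K ≤ (A ⊓ F).comap (Complex.ofRealHom) := by
    refine K_le ?_
    intro r hr h0
    rw [Subfield.mem_comap] at hr ⊢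
    have hrA : ((r : ℝ) : ℂ) ∈ A := hr.1
    have hrF : ((r : ℝ) : ℂ) ∈ F := hr.2
    have hrK : r ∈ K := ofReal_mem_F.1 hrF
    have hsK : Real.sqrt r ∈ K := sqrt_mem_K' hrK
    have h1r : (0 : ℝ) < 1 + r := by linarith
    have h1rK : (1 + r : ℝ) ∈ K := add_mem (one_mem _) hrK
    have h2K : (2 : ℝ) ∈ K := by simpa using natCast_mem K 2
    set u : ℂ := ⟨(1 - r) / (1 + r), 2 * Real.sqrt r / (1 + r)⟩ with hudef
    have huF : u ∈ F := ⟨div_mem (sub_mem (one_mem _) hrK) h1rK, div_mem (mul_mem h2K hsK) h1rK⟩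
    have hu1 : ‖u‖ = 1 := by
      rw [Complex.norm_def, normSq_apply, hudef]
      simp only
      have : (1 - r) / (1 + r) * ((1 - r) / (1 + r)) +
          2 * Real.sqrt r / (1 + r) * (2 * Real.sqrt r / (1 + r)) = 1 := by
        have hs : Real.sqrt r * Real.sqrt r = r := Real.mul_self_sqrt h0
        field_simp
        nlinarith [hs]
      rw [this, Real.sqrt_one]
    have hre : ((u.re : ℝ) : ℂ) ∈ A := by
      have : ((u.re : ℝ) : ℂ) = (1 - (r : ℂ)) / (1 + (r : ℂ)) := by
        rw [hudef]; push_cast; rfl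
      rw [this]
      exact div_mem (sub_mem (one_mem _) hrA) (add_mem (one_mem _) hrA)
    have huA := hu u huF hu1 hre
    have him : ((Real.sqrt r : ℝ) : ℂ) = (u - (u.re : ℝ)) / I * (1 + (r : ℂ)) / 2 := by
      have e1 : u - (u.re : ℝ) = ((u.im : ℝ) : ℂ) * I := by
        nth_rewrite 1 [← re_add_im u]; ring
      rw [e1, mul_div_cancel_right₀ _ I_ne_zero]
      have : u.im = 2 * Real.sqrt r / (1 + r) := rfl
      rw [this]
      have h1r' : (1 + (r : ℂ)) ≠ 0 := by
        intro h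
        have := congrArg Complex.re h
        simp at this
        linarith
      push_cast
      field_simp
    refine ⟨?_, ofReal_mem_F.2 hsK⟩
    show ((Real.sqrt r : ℝ) : ℂ) ∈ A
    rw [him]
    have h2A : (2 : ℂ) ∈ A := by simpa using natCast_mem A 2
    exact div_mem (mul_mem (div_mem (sub_mem huA hre) hI) (add_mem (one_mem _) hrA)) h2A
  have h1 := hK hz.1
  have h2 := hK hz.2
  rw [Subfield.mem_comap] at h1 h2
  have := add_mem h1.1 (mul_mem h2.1 hI)
  have e : Complex.ofRealHom z.re + Complex.ofRealHom z.im * I = z := re_add_im z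
  rwa [e] at this

end Crest.Agent.R40.T1B
end

-- ▼ part R40/T1B
section

/-!
# R40 / T1, block M5: bootstrap from `E = ℚ(i)` to `F`
-/

set_option autoImplicit false

namespace Crest.Agent.R40.T1B

open Complex MeasureTheory Filter Topology Crest.Agent.R40.T1

/-- inclusion `E → F` -/
noncomputable abbrev ι : E →+* F := Subfield.inclusion E_le_F

/-- characters of `E` which tend to one along `y n * a`. -/
def LimSet (y : ℕ → E) : Set (Dual E) :=
  {χ | ∀ a : E, Tendsto (fun n => (χ (y n * a) : ℂ)) atTop (𝓝 1)}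

/-- `x ∈ W_χ` -/
def InW (y : ℕ → E) (χ : Dual F) (x : F) : Prop := line x χ ∈ LimSet y

lemma inW_iff {y : ℕ → E} {χ : Dual F} {x : F} :
    InW y χ x ↔ ∀ a : E, Tendsto (fun n => (χ (ι (y n * a) * x) : ℂ)) atTop (𝓝 1) := Iff.rfl

instance : Countable E := by
  have : (E : Set ℂ).Countable := F_countable.mono E_le_F
  exact this.to_subtype

variable {y : ℕ → E}

lemma InW.add {χ : Dual F} {x x' : F} (h : InW y χ x) (h' : InW y χ x') : InW y χ (x + x') := by
  rw [inW_iff] at *
  intro a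
  have := (h a).mul (h' a)
  rw [one_mul] at this
  refine this.congr fun n => ?_
  rw [mul_add, AddChar.map_add_eq_mul, Circle.coe_mul]

lemma InW.smul {χ : Dual F} {x : F} (h : InW y χ x) (b : E) : InW y χ (ι b * x) := by
  rw [inW_iff] at *
  intro a
  refine (h (a * b)).congr fun n => ?_
  have : ι (y n * (a * b)) * x = ι (y n * a) * (ι b * x) := by
    simp only [map_mul]; ring
  rw [this]

lemma InW.neg {χ : Dual F} {x : F} (h : InW y χ x) : InW y χ (-x) := by
  have := h.smul (-1)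
  rwa [map_neg, map_one, neg_one_mul] at this

lemma InW.sub {χ : Dual F} {x x' : F} (h : InW y χ x) (h' : InW y χ x') : InW y χ (x - x') := by
  rw [sub_eq_add_neg]; exact h.add h'.neg


lemma inW_rot {χ : Dual F} {u x : F} : InW y (rot u χ) x ↔ InW y χ (u * x) := by
  simp only [inW_iff, rot_apply]
  constructor
  · intro h a
    refine (h a).congr fun n => ?_
    rw [mul_left_comm]
  · intro h a
    refine (h a).congr fun n => ?_
    rw [mul_left_comm]

lemma measurableSet_inW (x : F) : MeasurableSet {χ : Dual F | InW y χ x} := by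
  have : {χ : Dual F | InW y χ x} =
      ⋂ a : E, {χ : Dual F | Tendsto (fun n => (χ (ι (y n * a) * x) : ℂ)) atTop (𝓝 1)} := by
    ext χ; simp [inW_iff]
  rw [this]
  exact MeasurableSet.iInter fun a => measurableSet_tendsto _ fun n => measurable_eval _

lemma measurableSet_limSet : MeasurableSet (LimSet y) := by
  have : LimSet y =
      ⋂ a : E, {χ : Dual E | Tendsto (fun n => (χ (y n * a) : ℂ)) atTop (𝓝 1)} := by
    ext χ; simp [LimSet]
  rw [this]
  exact MeasurableSet.iInter fun a => measurableSet_tendsto _ fun n => measurable_eval _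

section B1

variable {ν : Measure (Dual F)} [IsFiniteMeasure ν]
set_option linter.unusedSectionVars false

lemma rotInv_ae {P : Dual F → Prop} (hν : RotInv ν) {u : F} (hu : ‖(u : ℂ)‖ = 1)
    (hP : MeasurableSet {χ | P χ}) : ν {χ | P (rot u χ)} = ν {χ | P χ} := by
  have h := hν u hu
  conv_rhs => rw [← h]
  rw [Measure.map_apply (measurable_rot u) hP]
  rfl

lemma measurePreserving_rot (hν : RotInv ν) {u : F} (hu : ‖(u : ℂ)‖ = 1) :
    MeasurePreserving (rot u) ν ν := ⟨measurable_rot u, hν u hu⟩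

/-- `a` acts on `W_χ` almost surely. -/
def Acts (y : ℕ → E) (ν : Measure (Dual F)) (a : ℂ) : Prop :=
  ∃ h : a ∈ F, ∀ x : F, ∀ᵐ χ ∂ν, InW y χ x → InW y χ (⟨a, h⟩ * x)

lemma acts_E {a : ℂ} (ha : a ∈ E) : Acts y ν a := by
  refine ⟨E_le_F ha, fun x => ae_of_all _ fun χ h => ?_⟩
  exact h.smul ⟨a, ha⟩

lemma Acts.add {a b : ℂ} (ha : Acts y ν a) (hb : Acts y ν b) : Acts y ν (a + b) := by
  obtain ⟨ha, ha'⟩ := ha
  obtain ⟨hb, hb'⟩ := hb
  refine ⟨add_mem ha hb, fun x => ?_⟩
  filter_upwards [ha' x, hb' x] with χ h1 h2 h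
  have := (h1 h).add (h2 h)
  rw [← add_mul] at this
  exact this

lemma Acts.mul {a b : ℂ} (ha : Acts y ν a) (hb : Acts y ν b) : Acts y ν (a * b) := by
  obtain ⟨ha, ha'⟩ := ha
  obtain ⟨hb, hb'⟩ := hb
  refine ⟨mul_mem ha hb, fun x => ?_⟩
  filter_upwards [ha' (⟨b, hb⟩ * x), hb' x] with χ h1 h2 h
  have := h1 (h2 h)
  rw [← mul_assoc] at this
  exact this

/-- the field of all `a` acting on `W_χ` almost surely -/
noncomputable def actField (y : ℕ → E) (ν : Measure (Dual F)) [IsFiniteMeasure ν] : Subfield ℂ where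
  carrier := {a | Acts y ν a}
  mul_mem' := Acts.mul
  one_mem' := acts_E (one_mem _)
  add_mem' := Acts.add
  zero_mem' := acts_E (zero_mem _)
  neg_mem' := by
    intro a ha
    have := (acts_E (ν := ν) (y := y) (neg_mem (one_mem E))).mul ha
    rwa [neg_one_mul] at this
  inv_mem' := by
    intro a ha
    let A : Subalgebra ℚ ℂ :=
      { carrier := {a | Acts y ν a}
        mul_mem' := Acts.mul
        one_mem' := acts_E (one_mem _)
        add_mem' := Acts.add
        zero_mem' := acts_E (zero_mem _)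
        algebraMap_mem' := fun r => acts_E ⟨⟨r, by simp⟩, 0, by simp⟩ }
    have halg : IsAlgebraic ℚ a := F_algebraic ha.1
    have := A.inv_mem_of_algebraic (x := ⟨a, ha⟩) halg
    exact this

lemma mem_actField {a : ℂ} : a ∈ actField y ν ↔ Acts y ν a := Iff.rfl

lemma ae_module (y : ℕ → E) (ν : Measure (Dual F)) [IsFiniteMeasure ν] :
    ∀ᵐ χ ∂ν, ∀ a : F, (a : ℂ) ∈ actField y ν → ∀ x : F, InW y χ x → InW y χ (a * x) := by
  rw [ae_all_iff]; intro a
  by_cases h : (a : ℂ) ∈ actField y ν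
  · have := (mem_actField.1 h)
    obtain ⟨h1, h2⟩ := this
    have h3 := ae_all_iff.2 h2
    filter_upwards [h3] with χ hχ _ x hx
    exact hχ x hx
  · exact ae_of_all _ fun χ h' => absurd h' h

/-- the family `v_n = (n + u) / (n + ū)` -/
lemma unit_acts (hν : RotInv ν) (u : ℂ) (huF : u ∈ F) (hu : ‖u‖ = 1)
    (hre : ((u.re : ℝ) : ℂ) ∈ actField y ν) : u ∈ actField y ν := by
  classical
  set a : ℝ := u.re with ha
  have hsq : u.re ^ 2 + u.im ^ 2 = 1 := by
    have := Complex.normSq_apply u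
    have h2 : normSq u = 1 := by rw [Complex.normSq_eq_norm_sq, hu]; norm_num
    rw [h2] at this; nlinarith
  by_cases ha1 : a ^ 2 = 1
  · have him : u.im = 0 := by
      have : u.im ^ 2 = 0 := by rw [← ha] at hsq; linarith
      exact pow_eq_zero_iff (two_ne_zero) |>.1 this
    have : u = ((u.re : ℝ) : ℂ) := by
      apply Complex.ext <;> simp [him]
    rw [this]; exact hre
  have ha2 : a ^ 2 < 1 := lt_of_le_of_ne (by rw [ha]; nlinarith [sq_nonneg u.im]) ha1
  have haabs : |a| < 1 := by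
    rw [← sq_lt_one_iff_abs_lt_one]; exact ha2
  have ha_lt := (abs_lt.1 haabs).2
  have ha_gt := (abs_lt.1 haabs).1
  -- the algebraic relation
  have hquad : u * u = 2 * (a : ℂ) * u - 1 := by
    apply Complex.ext
    · simp [Complex.mul_re]; nlinarith
    · simp [Complex.mul_re]; nlinarith
  -- elements of `F`
  let U : F := ⟨u, huF⟩
  have haF : (a : ℂ) ∈ F := (mem_actField.1 hre).1
  let AA : F := ⟨(a : ℂ), haF⟩
  let D : ℕ → ℝ := fun n => (n : ℝ) ^ 2 + 2 * n * a + 1
  have hDpos : ∀ n, 0 < D n := by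
    intro n
    have : D n = ((n : ℝ) + a) ^ 2 + (1 - a ^ 2) := by simp only [D]; ring
    rw [this]
    have : 0 < 1 - a ^ 2 := by linarith
    positivity
  have hDA : ∀ n, ((D n : ℝ) : ℂ) ∈ actField y ν := by
    intro n
    have : ((D n : ℝ) : ℂ) = (n : ℂ) ^ 2 + ((2 * n : ℕ) : ℂ) * a + 1 := by
      simp only [D]; push_cast; ring
    rw [this]
    exact add_mem (add_mem (pow_mem (natCast_mem _ n) 2) (mul_mem (natCast_mem _ _) hre)) (one_mem _)
  let p : ℕ → ℂ := fun n => ((n : ℂ) ^ 2 - 1) / (D n : ℝ)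
  let q : ℕ → ℂ := fun n => ((2 : ℕ) : ℂ) * ((n : ℂ) + a) / (D n : ℝ)
  have hpA : ∀ n, p n ∈ actField y ν := fun n =>
    div_mem (sub_mem (pow_mem (natCast_mem _ n) 2) (one_mem _)) (hDA n)
  have hqA : ∀ n, q n ∈ actField y ν := fun n =>
    div_mem (mul_mem (natCast_mem _ 2) (add_mem (natCast_mem _ n) hre)) (hDA n)
  have hpF : ∀ n, p n ∈ F := fun n => (mem_actField.1 (hpA n)).1
  have hqF : ∀ n, q n ∈ F := fun n => (mem_actField.1 (hqA n)).1
  let P : ℕ → F := fun n => ⟨p n, hpF n⟩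
  let Q : ℕ → F := fun n => ⟨q n, hqF n⟩
  let v : ℕ → F := fun n => P n + Q n * U
  have hvval : ∀ n, ((v n : F) : ℂ) = ((n : ℂ) + u) ^ 2 / (D n : ℝ) := by
    intro n
    have hD0 : ((D n : ℝ) : ℂ) ≠ 0 := by exact_mod_cast (hDpos n).ne'
    show p n + q n * u = _
    simp only [p, q]
    field_simp
    have : u ^ 2 = 2 * (a : ℂ) * u - 1 := by rw [sq]; exact hquad
    push_cast
    linear_combination (-1 : ℂ) * this
  have hvnorm : ∀ n, ‖((v n : F) : ℂ)‖ = 1 := by
    intro n
    rw [hvval, norm_div, norm_pow]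
    have h1 : ‖(n : ℂ) + u‖ ^ 2 = D n := by
      rw [← Complex.normSq_eq_norm_sq, normSq_apply]
      simp only [add_re, add_im, natCast_re, natCast_im, zero_add, D, ← ha]
      nlinarith [hsq]
    rw [h1, Complex.norm_real, Real.norm_of_nonneg (hDpos n).le, div_self (hDpos n).ne']
  -- determinant
  have hdet : ∀ n m : ℕ, n ≠ m → 1 ≤ n → 1 ≤ m → p n * q m - p m * q n ≠ 0 := by
    intro n m hnm hn hm
    have hDn : ((D n : ℝ) : ℂ) ≠ 0 := by exact_mod_cast (hDpos n).ne'
    have hDm : ((D m : ℝ) : ℂ) ≠ 0 := by exact_mod_cast (hDpos m).ne'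
    have e1 : p n * q m - p m * q n =
        ((2 * ((n : ℝ) - m) * (n * m + 1 + a * (n + m)) / (D n * D m) : ℝ) : ℂ) := by
      simp only [p, q]
      push_cast
      field_simp
      ring
    rw [e1]
    refine Complex.ofReal_ne_zero.2 ?_
    have hn' : (1 : ℝ) ≤ n := by exact_mod_cast hn
    have hm' : (1 : ℝ) ≤ m := by exact_mod_cast hm
    have h2 : (0 : ℝ) < n * m + 1 + a * (n + m) := by nlinarith
    have h3 : ((n : ℝ) - m) ≠ 0 := sub_ne_zero.2 (by exact_mod_cast hnm)
    exact div_ne_zero (mul_ne_zero (mul_ne_zero two_ne_zero h3) h2.ne')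
      (mul_ne_zero (hDpos n).ne' (hDpos m).ne')
  -- the two facts holding almost surely
  have hmod := ae_module y ν
  refine mem_actField.2 ⟨huF, fun x => ?_⟩
  have hsub : ∀ n, ∀ᵐ χ ∂ν, (InW y χ x ∧ InW y χ (U * x)) → InW y χ (v n * x) := by
    intro n
    filter_upwards [hmod] with χ hχ h
    have h1 := hχ (P n) (hpA n) x h.1
    have h2 := hχ (Q n) (hqA n) (U * x) h.2
    have h3 := h1.add h2
    have : P n * x + Q n * (U * x) = v n * x := by simp only [v]; ring
    rwa [this] at h3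
  have hspan : ∀ n m : ℕ, n ≠ m → 1 ≤ n → 1 ≤ m → ∀ᵐ χ ∂ν,
      (InW y χ (v n * x) ∧ InW y χ (v m * x)) → (InW y χ x ∧ InW y χ (U * x)) := by
    intro n m hnm hn hm
    have hd := hdet n m hnm hn hm
    set d : ℂ := p n * q m - p m * q n with hddef
    have hdA : d ∈ actField y ν := sub_mem (mul_mem (hpA n) (hqA m)) (mul_mem (hpA m) (hqA n))
    have mkmem : ∀ c : ℂ, c ∈ actField y ν → c ∈ F := fun c hc => (mem_actField.1 hc).1
    have c1 : q m / d ∈ actField y ν := div_mem (hqA m) hdA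
    have c2 : q n / d ∈ actField y ν := div_mem (hqA n) hdA
    have c3 : p m / d ∈ actField y ν := div_mem (hpA m) hdA
    have c4 : p n / d ∈ actField y ν := div_mem (hpA n) hdA
    let C1 : F := ⟨_, mkmem _ c1⟩
    let C2 : F := ⟨_, mkmem _ c2⟩
    let C3 : F := ⟨_, mkmem _ c3⟩
    let C4 : F := ⟨_, mkmem _ c4⟩
    filter_upwards [hmod] with χ hχ h
    have r1 := (hχ C1 c1 _ h.1).sub (hχ C2 c2 _ h.2)
    have r2 := (hχ C4 c4 _ h.2).sub (hχ C3 c3 _ h.1)
    constructor
    · have : C1 * (v n * x) - C2 * (v m * x) = x := by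
        have hc : C1 * v n - C2 * v m = 1 := by
          apply Subtype.ext
          show q m / d * (p n + q n * u) - q n / d * (p m + q m * u) = 1
          field_simp
          rw [hddef]; ring
        calc C1 * (v n * x) - C2 * (v m * x) = (C1 * v n - C2 * v m) * x := by ring
          _ = x := by rw [hc, one_mul]
      rwa [this] at r1
    · have : C4 * (v m * x) - C3 * (v n * x) = U * x := by
        have hc : C4 * v m - C3 * v n = U := by
          apply Subtype.ext
          show p n / d * (p m + q m * u) - p m / d * (p n + q n * u) = u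
          field_simp
          rw [hddef]; ring
        calc C4 * (v m * x) - C3 * (v n * x) = (C4 * v m - C3 * v n) * x := by ring
          _ = U * x := by rw [hc]
      rwa [this] at r2
  -- the events
  let G : Set (Dual F) := {χ | InW y χ x ∧ InW y χ (U * x)}
  have hG : MeasurableSet G := (measurableSet_inW x).inter (measurableSet_inW (U * x))
  let W : ℕ → Set (Dual F) := fun n => {χ | InW y χ (v (n + 1) * x)}
  have hW : ∀ n, MeasurableSet (W n) := fun n => measurableSet_inW _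
  have hWν : ∀ n, ν (W n) = ν {χ | InW y χ x} := by
    intro n
    have := rotInv_ae (P := fun χ => InW y χ x) hν (hvnorm (n + 1)) (measurableSet_inW x)
    rw [← this]
    congr 1
    ext χ
    exact inW_rot.symm
  have hGW : ∀ n, G ≤ᵐ[ν] W n := fun n => hsub (n + 1)
  have hEν : ∀ n, ν (W n \ G) = ν {χ | InW y χ x} - ν G := by
    intro n
    have h1 : ν (W n \ G) = ν (W n \ (G ∩ W n)) := by
      congr 1; ext χ; simp only [Set.mem_sdiff, Set.mem_inter_iff]; tauto
    have h2 : ν (G ∩ W n) = ν G := by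
      apply measure_congr
      filter_upwards [hGW n] with χ hχ
      apply propext
      exact ⟨fun h => h.1, fun h => ⟨h, hχ h⟩⟩
    rw [h1, measure_sdiff Set.inter_subset_right (hG.inter (hW n)).nullMeasurableSet
      (measure_ne_top _ _), h2, hWν]
  have hdisj : Pairwise (Function.onFun (AEDisjoint ν) (fun n => W n \ G)) := by
    intro n m hnm
    show ν ((W n \ G) ∩ (W m \ G)) = 0
    have h := hspan (n + 1) (m + 1) (by omega) (by omega) (by omega)
    rw [← nonpos_iff_eq_zero, ← (show ν ∅ = 0 from measure_empty)]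
    apply measure_mono_ae
    filter_upwards [h] with χ hχ h'
    exact absurd (hχ ⟨h'.1.1, h'.2.1⟩) h'.1.2
  have hzero : ν {χ | InW y χ x} - ν G = 0 := by
    by_contra hne
    have h1 := measure_iUnion₀ hdisj (fun n => ((hW n).diff hG).nullMeasurableSet)
    have h2 : ∑' n, ν (W n \ G) = ⊤ := by
      simp_rw [hEν]
      exact ENNReal.tsum_const_eq_top_of_ne_zero hne
    rw [h2] at h1
    exact measure_ne_top ν _ h1
  have hfin : ν ({χ | InW y χ x} \ G) = 0 := by
    have hGsub : G ⊆ {χ | InW y χ x} := fun χ h => h.1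
    rw [measure_sdiff hGsub hG.nullMeasurableSet (measure_ne_top _ _), hzero]
  have := measure_eq_zero_iff_ae_notMem.1 hfin
  filter_upwards [this] with χ hχ h
  by_contra hc
  exact hχ ⟨h, fun h' => hc h'.2⟩

/-- **B1**: almost surely `W_χ` is stable under all of `F`. -/
theorem ae_full (hν : RotInv ν) :
    ∀ᵐ χ ∂ν, ∀ a x : F, InW y χ x → InW y χ (a * x) := by
  have hall : ∀ z ∈ F, z ∈ actField y ν := fun z hz =>
    F_le_of_unit (A := actField y ν)
      (mem_actField.2 (acts_E ⟨⟨0, by simp⟩, 1, by simp⟩))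
      (fun u huF hu1 hre => unit_acts hν u huF hu1 hre) z hz
  filter_upwards [ae_module y ν] with χ hχ a x hx
  exact hχ a (hall _ a.2) x hx

end B1

end Crest.Agent.R40.T1B
end

-- ▼ part R40/T1BMain

/-!
# R40 / T1, block M5: continuity of the structured part
-/

set_option autoImplicit false

namespace Crest.Agent.R40.T1B

open Complex MeasureTheory Filter Topology Crest.Agent.R40.T1

variable {y : ℕ → E} {ν : Measure (Dual F)} [IsFiniteMeasure ν]

/-- The statement on the base field which is bootstrapped. -/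
def EHyp (y : ℕ → E) : Prop :=
  ∀ μ : Measure (Dual E), IsFiniteMeasure μ → RotInv μ → μ (LimSet y) = 0 →
    ∀ x : E, x ≠ 0 → ∫ χ, (χ x : ℂ) ∂μ = 0

/-- `{χ | x ∈ W_χ}` -/
def SW (y : ℕ → E) (x : F) : Set (Dual F) := {χ | InW y χ x}

lemma measurableSet_SW (x : F) : MeasurableSet (SW y x) := measurableSet_inW x

lemma norm_eval (χ : Dual F) (x : F) : ‖(χ x : ℂ)‖ = 1 := Circle.norm_coe _

lemma integrable_eval (μ : Measure (Dual F)) [IsFiniteMeasure μ] (x : F) :
    Integrable (fun χ : Dual F => (χ x : ℂ)) μ :=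
  Integrable.of_bound (measurable_eval x).aestronglyMeasurable 1
    (ae_of_all _ fun χ => (norm_eval χ x).le)

lemma SW_rot_E {v : E} (hv : v ≠ 0) (x : F) : rot (ι v) ⁻¹' (SW y x) = SW y x := by
  ext χ
  show InW y (rot (ι v) χ) x ↔ InW y χ x
  rw [inW_rot]
  constructor
  · intro h
    have := h.smul v⁻¹
    have e : ι v⁻¹ * (ι v * x) = x := by
      rw [← mul_assoc, ← map_mul, inv_mul_cancel₀ hv, map_one, one_mul]
    rwa [e] at this
  · intro h; exact h.smul v

lemma rot_line (v : E) (x : F) (χ : Dual F) : rot v (line x χ) = line x (rot (ι v) χ) := by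
  ext a
  simp only [rot_apply, line_apply, map_mul, mul_assoc]

/-- on `{x ∉ W}` the `x`-th coefficient vanishes -/
lemma integral_compl_SW (hE : EHyp y) (hν : RotInv ν) {x : F} (_hx : x ≠ 0) :
    ∫ χ in (SW y x)ᶜ, (χ x : ℂ) ∂ν = 0 := by
  set ν' : Measure (Dual F) := ν.restrict (SW y x)ᶜ with hν'
  set μ : Measure (Dual E) := ν'.map (line x) with hμ
  have hfin : IsFiniteMeasure μ := by rw [hμ]; infer_instance
  have hinv : RotInv μ := by
    intro v hv
    have hv0 : v ≠ 0 := by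
      rintro rfl; simp at hv
    have hmp : MeasurePreserving (rot (ι v)) ν' ν' := by
      have h1 := (measurePreserving_rot hν (u := ι v) hv).restrict_preimage
        (measurableSet_SW (y := y) x).compl
      rwa [Set.preimage_compl, SW_rot_E hv0] at h1
    rw [hμ, Measure.map_map (measurable_rot v) (measurable_line x)]
    have : rot v ∘ line x = line x ∘ rot (ι v) := by
      funext χ; exact rot_line v x χ
    rw [this, ← Measure.map_map (measurable_line x) (measurable_rot _), hmp.map_eq]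
  have hnull : μ (LimSet y) = 0 := by
    rw [hμ, Measure.map_apply (measurable_line x) measurableSet_limSet, hν',
      Measure.restrict_apply ((measurable_line x) measurableSet_limSet)]
    have : line x ⁻¹' LimSet y ∩ (SW y x)ᶜ = ∅ := by
      ext χ; simp only [Set.mem_inter_iff, Set.mem_preimage, Set.mem_compl_iff, Set.mem_empty_iff_false,
        iff_false, not_and, not_not]
      exact fun h => h
    rw [this, measure_empty]
  have := hE μ hfin hinv hnull 1 one_ne_zero
  rw [hμ, integral_map (measurable_line x).aemeasurable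
    (measurable_eval 1).aestronglyMeasurable] at this
  rw [← this]
  congr 1
  funext χ
  rw [line_apply, map_one, one_mul]

/-- the set on which `W = F` -/
def Z (y : ℕ → E) : Set (Dual F) := SW y 1

lemma measurableSet_Z : MeasurableSet (Z y) := measurableSet_SW 1

lemma ae_SW_iff (hν : RotInv ν) {x : F} (hx : x ≠ 0) : ∀ᵐ χ ∂ν, χ ∈ SW y x ↔ χ ∈ Z y := by
  filter_upwards [ae_full (y := y) hν] with χ hχ
  constructor
  · intro h
    have := hχ x⁻¹ x h
    rwa [inv_mul_cancel₀ hx] at this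
  · intro h
    have := hχ x 1 h
    rwa [mul_one] at this

/-- the structured part of the Fourier coefficients -/
noncomputable def psi (y : ℕ → E) (ν : Measure (Dual F)) (x : F) : ℂ := ∫ χ in Z y, (χ x : ℂ) ∂ν

lemma integral_eq_psi (hE : EHyp y) (hν : RotInv ν) {x : F} (hx : x ≠ 0) :
    ∫ χ, (χ x : ℂ) ∂ν = psi y ν x := by
  rw [← integral_add_compl (measurableSet_SW (y := y) x) (integrable_eval ν x),
    integral_compl_SW hE hν hx, add_zero, psi]
  congr 1
  apply Measure.restrict_congr_set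
  filter_upwards [ae_SW_iff (y := y) hν hx] with χ hχ
  exact propext hχ

/-- `D x = ∫_Z |χ(x) - 1|²` -/
noncomputable def DD (y : ℕ → E) (ν : Measure (Dual F)) (x : F) : ℝ :=
  ∫ χ in Z y, ‖(χ x : ℂ) - 1‖ ^ 2 ∂ν

lemma integrable_sq (μ : Measure (Dual F)) [IsFiniteMeasure μ] (x : F) :
    Integrable (fun χ : Dual F => ‖(χ x : ℂ) - 1‖ ^ 2) μ := by
  refine Integrable.of_bound (C := 4) ?_ (ae_of_all _ fun χ => ?_)
  · exact (((measurable_eval x).sub_const 1).norm.pow_const 2).aestronglyMeasurable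
  · rw [Real.norm_of_nonneg (by positivity)]
    have : ‖(χ x : ℂ) - 1‖ ≤ 2 := by
      refine (norm_sub_le _ _).trans ?_
      rw [norm_eval, norm_one]; norm_num
    nlinarith [norm_nonneg ((χ x : ℂ) - 1)]

lemma restrict_Z_rot (hν : RotInv ν) {u : F} (hu : ‖(u : ℂ)‖ = 1) :
    MeasurePreserving (rot u) (ν.restrict (Z y)) (ν.restrict (Z y)) := by
  have h1 := (measurePreserving_rot hν hu).restrict_preimage (measurableSet_Z (y := y))
  have hu0 : u ≠ 0 := by rintro rfl; simp at hu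
  have h2 : ν.restrict (rot u ⁻¹' Z y) = ν.restrict (Z y) := by
    apply Measure.restrict_congr_set
    filter_upwards [ae_SW_iff (y := y) hν hu0] with χ hχ
    apply propext
    show InW y (rot u χ) 1 ↔ χ ∈ Z y
    rw [inW_rot, mul_one]
    exact hχ
  rwa [h2] at h1

lemma DD_rot (hν : RotInv ν) {u : F} (hu : ‖(u : ℂ)‖ = 1) (x : F) :
    DD y ν (u * x) = DD y ν x := by
  have h := restrict_Z_rot (y := y) hν hu
  unfold DD
  conv_rhs => rw [← h.map_eq]
  rw [integral_map (measurable_rot u).aemeasurable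
    (((measurable_eval x).sub_const 1).norm.pow_const 2).aestronglyMeasurable]
  rfl

lemma norm_mul_sub_one_sq (z w : ℂ) (hz : ‖z‖ = 1) :
    ‖z * w - 1‖ ^ 2 ≤ 2 * ‖z - 1‖ ^ 2 + 2 * ‖w - 1‖ ^ 2 := by
  have h1 : ‖z * w - 1‖ ≤ ‖z - 1‖ + ‖w - 1‖ := by
    have : z * w - 1 = (z - 1) + z * (w - 1) := by ring
    rw [this]
    refine (norm_add_le _ _).trans ?_
    rw [norm_mul, hz, one_mul]
  nlinarith [norm_nonneg (z * w - 1), norm_nonneg (z - 1), norm_nonneg (w - 1),
    sq_nonneg (‖z - 1‖ - ‖w - 1‖)]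

lemma DD_add (x x' : F) : DD y ν (x + x') ≤ 2 * DD y ν x + 2 * DD y ν x' := by
  unfold DD
  rw [← integral_const_mul, ← integral_const_mul, ← integral_add
    ((integrable_sq _ x).const_mul 2) ((integrable_sq _ x').const_mul 2)]
  refine integral_mono (integrable_sq _ _)
    (((integrable_sq _ x).const_mul 2).add ((integrable_sq _ x').const_mul 2)) fun χ => ?_
  simp only [AddChar.map_add_eq_mul, Circle.coe_mul]
  exact norm_mul_sub_one_sq _ _ (norm_eval χ x)

lemma DD_doubling (hν : RotInv ν) {x z : F} (hz : z ≠ 0) (h : ‖(x : ℂ)‖ ≤ 2 * ‖(z : ℂ)‖) :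
    DD y ν x ≤ 4 * DD y ν z := by
  obtain ⟨u, hu, v, hv, hu1, hv1, e⟩ := exists_unit_comb z.2 x.2
    (by simpa using hz) h
  have e' : x = (⟨u, hu⟩ : F) * z + (⟨v, hv⟩ : F) * z := Subtype.ext e
  rw [e']
  refine (DD_add _ _).trans ?_
  rw [DD_rot (u := ⟨u, hu⟩) hν hu1, DD_rot (u := ⟨v, hv⟩) hν hv1]
  linarith


lemma DD_tendsto : Tendsto (fun n => DD y ν (ι (y n))) atTop (𝓝 0) := by
  unfold DD
  have : (0 : ℝ) = ∫ χ in Z y, (0 : ℝ) ∂ν := by simp
  rw [this]
  refine tendsto_integral_of_dominated_convergence (fun _ => 4) ?_ (integrable_const _) ?_ ?_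
  · intro n
    exact (((measurable_eval _).sub_const 1).norm.pow_const 2).aestronglyMeasurable
  · intro n
    refine ae_of_all _ fun χ => ?_
    rw [Real.norm_of_nonneg (by positivity)]
    have : ‖(χ (ι (y n)) : ℂ) - 1‖ ≤ 2 := by
      refine (norm_sub_le _ _).trans ?_
      rw [norm_eval, norm_one]; norm_num
    nlinarith [norm_nonneg ((χ (ι (y n)) : ℂ) - 1)]
  · rw [ae_restrict_iff' measurableSet_Z]
    refine ae_of_all _ fun χ hχ => ?_
    have h1 := (inW_iff.1 hχ) 1
    have h2 : Tendsto (fun n => (χ (ι (y n)) : ℂ)) atTop (𝓝 1) := by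
      refine h1.congr fun n => ?_
      rw [mul_one, mul_one]
    have h3 := ((h2.sub_const 1).norm.pow 2)
    simpa using h3

lemma DD_small (hν : RotInv ν) (hy0 : ∀ n, y n ≠ 0) {ε : ℝ} (hε : 0 < ε) :
    ∃ δ > 0, ∀ x : F, ‖(x : ℂ)‖ ≤ δ → DD y ν x < ε := by
  have h := (DD_tendsto (y := y) (ν := ν)).eventually (gt_mem_nhds (show (0 : ℝ) < ε / 4 by positivity))
  obtain ⟨n, hn⟩ := h.exists
  have hyn : ι (y n) ≠ 0 := by
    simpa using hy0 n
  have hyn' : 0 < ‖((ι (y n) : F) : ℂ)‖ := by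
    rw [norm_pos_iff]
    simpa using hyn
  refine ⟨2 * ‖((ι (y n) : F) : ℂ)‖, by positivity, fun x hx => ?_⟩
  have := DD_doubling (y := y) hν hyn hx
  linarith

lemma psi_sub_le (x x' : F) {ε : ℝ} (hε : 0 < ε) :
    ‖psi y ν x - psi y ν x'‖ ≤ ε * (ν.real (Z y)) + DD y ν (x - x') / (4 * ε) := by
  unfold psi
  rw [← integral_sub (integrable_eval _ x) (integrable_eval _ x')]
  refine (norm_integral_le_integral_norm _).trans ?_
  have h1 : ∀ χ : Dual F, ‖(χ x : ℂ) - (χ x' : ℂ)‖ ≤ ε + ‖(χ (x - x') : ℂ) - 1‖ ^ 2 / (4 * ε) := by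
    intro χ
    have e1 : (χ x : ℂ) - (χ x' : ℂ) = (χ x' : ℂ) * ((χ (x - x') : ℂ) - 1) := by
      have : χ x = χ x' * χ (x - x') := by
        rw [← AddChar.map_add_eq_mul]; congr 1; ring
      rw [this, Circle.coe_mul]; ring
    rw [e1, norm_mul, norm_eval, one_mul]
    set t := ‖(χ (x - x') : ℂ) - 1‖
    have : t ^ 2 / (4 * ε) + ε - t = (t - 2 * ε) ^ 2 / (4 * ε) := by
      field_simp; ring
    have h0 : 0 ≤ (t - 2 * ε) ^ 2 / (4 * ε) := by positivity
    linarith
  have hint : Integrable (fun χ : Dual F => ε + ‖(χ (x - x') : ℂ) - 1‖ ^ 2 / (4 * ε))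
      (ν.restrict (Z y)) :=
    (integrable_const ε).add ((integrable_sq _ _).div_const _)
  refine (integral_mono ((integrable_eval _ x).sub (integrable_eval _ x')).norm hint h1).trans ?_
  rw [integral_add (integrable_const ε) ((integrable_sq _ _).div_const _), integral_const,
    integral_div]
  apply le_of_eq
  simp [DD, Measure.real, mul_comm]

lemma psi_uniformContinuous (hν : RotInv ν) (hy0 : ∀ n, y n ≠ 0) :
    UniformContinuous (psi y ν) := by
  rw [Metric.uniformContinuous_iff]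
  intro ε hε
  set M := ν.real (Z y) + 1 with hM
  have hM0 : 0 < M := by
    have : 0 ≤ ν.real (Z y) := measureReal_nonneg
    linarith
  obtain ⟨δ, hδ, h⟩ := DD_small (y := y) hν hy0 (ε := ε ^ 2 / M) (by positivity)
  refine ⟨δ, hδ, fun {a b} hab => ?_⟩
  have hd : ‖((a - b : F) : ℂ)‖ ≤ δ := by
    have : dist a b = ‖((a - b : F) : ℂ)‖ := by
      rw [Subtype.dist_eq, dist_eq_norm]; rfl
    rw [← this]; exact hab.le
  have h1 := psi_sub_le (y := y) (ν := ν) a b (ε := ε / (2 * M)) (by positivity)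
  have h2 := h _ hd
  rw [dist_eq_norm]
  refine lt_of_le_of_lt h1 ?_
  have h3 : ε / (2 * M) * ν.real (Z y) < ε / 2 := by
    have : ε / (2 * M) * M = ε / 2 := by field_simp
    rw [← this]
    apply mul_lt_mul_of_pos_left _ (by positivity)
    rw [hM]; linarith
  have h4 : DD y ν (a - b) / (4 * (ε / (2 * M))) ≤ ε / 2 := by
    rw [div_le_iff₀ (by positivity)]
    have : ε / 2 * (4 * (ε / (2 * M))) = ε ^ 2 / M := by field_simp; ring
    rw [this]; exact h2.le
  linarith

lemma K_dense : Dense (K : Set ℝ) := by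
  have h : DenseRange ((↑) : ℚ → ℝ) := Rat.denseRange_cast
  refine Dense.mono ?_ h
  rintro _ ⟨r, rfl⟩
  exact SubfieldClass.ratCast_mem K r

lemma F_dense : Dense (F : Set ℂ) := by
  have h := (K_dense.prod K_dense).preimage
    (f := Complex.equivRealProdCLM.toHomeomorph) (Homeomorph.isOpenMap _)
  exact h

/-- **M5.** -/
theorem main (hE : EHyp y) (hy0 : ∀ n, y n ≠ 0) (hν : RotInv ν) :
    ∃ q : ℂ → ℂ, UniformContinuous q ∧ ∀ x : F, x ≠ 0 → ∫ χ, (χ x : ℂ) ∂ν = q x := by
  have hu := psi_uniformContinuous (y := y) hν hy0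
  refine ⟨F_dense.extend (psi y ν), F_dense.uniformContinuous_extend hu, fun x hx => ?_⟩
  rw [integral_eq_psi hE hν hx]
  exact (F_dense.extend_of_ind hu x).symm

end Crest.Agent.R40.T1B
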