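import Mathlib
import Crest.Agent.R40.T1R2Defs

/-!
R40 / T1 / (R2), part P2: pigeonhole by volume, constancy of the frequency `η`, finite order.
-/

set_option autoImplicit false

namespace Crest.Agent.R40.T1R2P2

open MeasureTheory

variable {E : Type*} [Field E] (σ : E →+* ℂ) (I : E)

/-- the continuous character `x ↦ e(Re(η x))`. -/
noncomputable def ec (η : ℂ) : AddChar E Circle where
  toFun x := Real.fourierChar ((η * σ x).re)
  map_zero_eq_one' := by simp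
  map_add_eq_mul' x y := by
    rw [map_add, mul_add, Complex.add_re, AddChar.map_add_eq_mul]

@[simp] lemma ec_apply (η : ℂ) (x : E) : ec σ η x = Real.fourierChar ((η * σ x).re) := rfl



lemma ec_add (η η' : ℂ) (x : E) : ec σ (η + η') x = ec σ η x * ec σ η' x := by
  simp only [ec_apply]
  rw [add_mul, Complex.add_re, AddChar.map_add_eq_mul]

lemma ec_sub (η η' : ℂ) (x : E) : ec σ (η - η') x = ec σ η x / ec σ η' x := by
  have h := ec_add σ (η - η') η' x
  rw [sub_add_cancel] at h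
  rw [h, mul_div_cancel_right]

lemma fourierChar_eq_one_iff (x : ℝ) : Real.fourierChar x = 1 ↔ ∃ n : ℤ, x = n := by
  rw [Real.fourierChar_apply', Circle.exp_eq_one]
  constructor
  · rintro ⟨n, hn⟩
    refine ⟨n, ?_⟩
    have h2 : (2 * Real.pi) ≠ 0 := by positivity
    have : 2 * Real.pi * x = 2 * Real.pi * n := by rw [hn]; ring
    exact mul_left_cancel₀ h2 this
  · rintro ⟨n, hn⟩
    exact ⟨n, by rw [hn]; ring⟩

section pigeonhole

variable [MeasurableSpace (AddChar E Circle)]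

lemma exists_pair (μ : Measure (AddChar E Circle)) [IsFiniteMeasure μ]
    (hI : σ I = Complex.I)
    (hinv : ∀ u : E, ‖σ u‖ = 1 → MeasurePreserving (fun χ : AddChar E Circle => χ.mulShift u) μ μ)
    (S : Set (AddChar E Circle)) (hS : MeasurableSet S) (A : ℕ)
    (hA : μ.real Set.univ < A * μ.real S) :
    ∃ a b : ℕ, b < a ∧ a < A ∧ ∃ ψ : AddChar E Circle,
      ψ.mulShift ((a + I) / (a - I)) ∈ S ∧ ψ.mulShift ((b + I) / (b - I)) ∈ S := by
  have hnorm : ∀ a : ℕ, ‖σ (((a : E) + I) / ((a : E) - I))‖ = 1 := by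
    intro a
    rw [map_div₀, map_add, map_sub, hI, map_natCast, norm_div]
    have h1 : ‖(a : ℂ) + Complex.I‖ = ‖(a : ℂ) - Complex.I‖ := by
      have : (a : ℂ) - Complex.I = (starRingEnd ℂ) ((a : ℂ) + Complex.I) := by
        simp [sub_eq_add_neg]
      rw [this, Complex.norm_conj]
    rw [h1]
    apply div_self
    intro h0
    rw [norm_eq_zero] at h0
    have := congrArg Complex.im h0
    simp at this
  have key := exists_nonempty_inter_of_measure_univ_lt_sum_measure μ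
    (s := Finset.range A)
    (t := fun a : ℕ => (fun χ : AddChar E Circle => χ.mulShift (((a : E) + I) / ((a : E) - I))) ⁻¹' S)
    (fun a _ => ((hinv _ (hnorm a)).measurable hS).nullMeasurableSet) ?_
  · obtain ⟨a, ha, b, hb, hab, ψ, h1, h2⟩ := key
    rw [Finset.mem_range] at ha hb
    rcases lt_or_gt_of_ne hab with h | h
    · exact ⟨b, a, h, hb, ψ, h2, h1⟩
    · exact ⟨a, b, h, ha, ψ, h1, h2⟩
  · have h2 : ∀ a ∈ Finset.range A,
        μ ((fun χ : AddChar E Circle => χ.mulShift (((a : E) + I) / ((a : E) - I))) ⁻¹' S) = μ S := by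
      intro a _
      exact (hinv _ (hnorm a)).measure_preimage hS.nullMeasurableSet
    rw [Finset.sum_congr rfl h2, Finset.sum_const, Finset.card_range, nsmul_eq_mul]
    have h3 : μ Set.univ = ENNReal.ofReal (μ.real Set.univ) := by
      rw [ofReal_measureReal]
    have h4 : (A : ENNReal) * μ S = ENNReal.ofReal (A * μ.real S) := by
      rw [ENNReal.ofReal_mul (by positivity), ofReal_measureReal, ENNReal.ofReal_natCast]
    rw [h3, h4]
    exact (ENNReal.ofReal_lt_ofReal_iff_of_nonneg (by positivity)).2 hA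

end pigeonhole

lemma data (hI : σ I = Complex.I) (M : AddSubgroup E) (hIM : ∀ x ∈ M, I * x ∈ M)
    (n : ℕ) (χ : AddChar E Circle) (S : Set (AddChar E Circle))
    (hrel : ∀ ψ ∈ S, ∃ s : ℂ, ‖s‖ ≤ 1 ∧ ∀ x, (2 + I) ^ n * x ∈ M → ψ x = χ x * ec σ s x)
    (a b : ℕ) (hba : b < a) (ψ : AddChar E Circle)
    (h1 : ψ.mulShift ((a + I) / (a - I)) ∈ S) (h2 : ψ.mulShift ((b + I) / (b - I)) ∈ S) :
    ∃ η : ℂ, ‖η‖ ≤ (a + 1) ^ 2 ∧ ∀ x, (2 + I) ^ n * x ∈ M →
      χ (((2 * (a - b) : ℕ) : E) * x) = ec σ η (((2 * (a - b) : ℕ) : E) * x) := by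
  obtain ⟨s1, hs1, hs1'⟩ := hrel _ h1
  obtain ⟨s2, hs2, hs2'⟩ := hrel _ h2
  have hI2 : I * I = -1 := by
    apply σ.injective
    rw [map_mul, hI, Complex.I_mul_I, map_neg, map_one]
  have hne : ∀ a : ℕ, (a : E) - I ≠ 0 := by
    intro a h0
    have := congrArg (fun z => (σ z).im) h0
    simp [hI] at this
  have hdpos : 0 < a - b := Nat.sub_pos_of_lt hba
  set d : ℕ := a - b with hd
  have hab : a = b + d := by omega
  have hdE : (d : E) = (a : E) - b := by rw [hab]; push_cast; ring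
  have hdC : (d : ℂ) = (a : ℂ) - b := by rw [hab]; push_cast; ring
  have hd0 : (d : ℂ) ≠ 0 := by exact_mod_cast hdpos.ne'
  refine ⟨(s2 * ((b - Complex.I) * (a + Complex.I)) - s1 * ((a - Complex.I) * (b + Complex.I)))
      * (-Complex.I) / (2 * d), ?_, ?_⟩
  · have hn1 : ∀ a : ℕ, ‖(a : ℂ) + Complex.I‖ ≤ a + 1 := fun a => by
      refine (norm_add_le _ _).trans ?_
      simp
    have hn2 : ∀ a : ℕ, ‖(a : ℂ) - Complex.I‖ ≤ a + 1 := fun a => by
      refine (norm_sub_le _ _).trans ?_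
      simp
    rw [norm_div, norm_mul, norm_neg, Complex.norm_I, mul_one, norm_mul, Complex.norm_natCast,
      Complex.norm_ofNat]
    have hd1 : (1 : ℝ) ≤ d := by exact_mod_cast hdpos
    rw [div_le_iff₀ (by positivity)]
    have hb : (b : ℝ) ≤ a := by exact_mod_cast hba.le
    have e1 : ‖s2 * (((b : ℂ) - Complex.I) * (a + Complex.I))‖ ≤ (a + 1) ^ 2 := by
      rw [norm_mul, norm_mul]
      calc ‖s2‖ * (‖(b : ℂ) - Complex.I‖ * ‖(a : ℂ) + Complex.I‖) ≤ 1 * ((b + 1) * (a + 1)) := by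
            gcongr
            · exact hn2 b
            · exact hn1 a
        _ ≤ (a + 1) ^ 2 := by nlinarith
    have e2 : ‖s1 * (((a : ℂ) - Complex.I) * (b + Complex.I))‖ ≤ (a + 1) ^ 2 := by
      rw [norm_mul, norm_mul]
      calc ‖s1‖ * (‖(a : ℂ) - Complex.I‖ * ‖(b : ℂ) + Complex.I‖) ≤ 1 * ((a + 1) * (b + 1)) := by
            gcongr
            · exact hn2 a
            · exact hn1 b
        _ ≤ (a + 1) ^ 2 := by nlinarith
    calc _ ≤ ‖s2 * (((b : ℂ) - Complex.I) * (a + Complex.I))‖ +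
          ‖s1 * (((a : ℂ) - Complex.I) * (b + Complex.I))‖ := norm_sub_le _ _
      _ ≤ (a + 1) ^ 2 + (a + 1) ^ 2 := add_le_add e1 e2
      _ ≤ (a + 1) ^ 2 * (2 * d) := by nlinarith [sq_nonneg ((a : ℝ) + 1)]
  · intro x hx
    have hnat : ∀ (k : ℕ) (y : E), y ∈ M → (k : E) * y ∈ M := by
      intro k y hy
      rw [← nsmul_eq_mul]
      exact M.nsmul_mem hy k
    set y : E := -(I * x) with hy
    have hyM : (2 + I) ^ n * y ∈ M := by
      have : (2 + I) ^ n * y = -(I * ((2 + I) ^ n * x)) := by rw [hy]; ring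
      rw [this]
      exact M.neg_mem (hIM _ hx)
    have hmul : ∀ (k : ℕ) (z : E), (2 + I) ^ n * z ∈ M → (2 + I) ^ n * (((k : E) + I) * z) ∈ M := by
      intro k z hz
      have : (2 + I) ^ n * (((k : E) + I) * z) = (k : E) * ((2 + I) ^ n * z) +
        I * ((2 + I) ^ n * z) := by ring
      rw [this]
      exact M.add_mem (hnat _ _ hz) (hIM _ hz)
    have hmul' : ∀ (k : ℕ) (z : E), (2 + I) ^ n * z ∈ M → (2 + I) ^ n * (((k : E) - I) * z) ∈ M := by
      intro k z hz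
      have : (2 + I) ^ n * (((k : E) - I) * z) = (k : E) * ((2 + I) ^ n * z) -
        I * ((2 + I) ^ n * z) := by ring
      rw [this]
      exact M.sub_mem (hnat _ _ hz) (hIM _ hz)
    have hx1 := hmul' a _ (hmul b _ hyM)
    have hx2 := hmul' b _ (hmul a _ hyM)
    set x1 : E := ((a : E) - I) * (((b : E) + I) * y) with hx1d
    set x2 : E := ((b : E) - I) * (((a : E) + I) * y) with hx2d
    have r1 := hs1' x1 hx1
    have r2 := hs2' x2 hx2
    rw [AddChar.mulShift_apply] at r1 r2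
    have w1 : ((a : E) + I) / ((a : E) - I) * x1 = ((a : E) + I) * (((b : E) + I) * y) := by
      rw [hx1d]; field_simp [hne a]
    have w2 : ((b : E) + I) / ((b : E) - I) * x2 = ((a : E) + I) * (((b : E) + I) * y) := by
      rw [hx2d]; field_simp [hne b]
    rw [w1] at r1
    rw [w2, r1] at r2
    -- r2 : χ x1 * ec s1 x1 = χ x2 * ec s2 x2
    have hxx : (((2 * d : ℕ) : E)) * x = x1 - x2 := by
      rw [hx1d, hx2d, hy]
      push_cast
      rw [hdE]
      linear_combination (2 * ((a : E) - b) * x) * hI2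
    have hχ : χ (x1 - x2) = ec σ s2 x2 / ec σ s1 x1 := by
      rw [AddChar.map_sub_eq_div, div_eq_div_iff_mul_eq_mul, r2, mul_comm]
    rw [hxx, hχ]
    simp only [ec_apply]
    rw [← AddChar.map_sub_eq_div, ← Complex.sub_re]
    congr 2
    rw [hx1d, hx2d, hy]
    simp only [map_mul, map_sub, map_add, map_neg, map_natCast, hI]
    field_simp
    rw [hdC]
    linear_combination (-2 * ((a : ℂ) - b) * (s2 * ((b : ℂ) - Complex.I) * ((a : ℂ) + Complex.I)
      - s1 * ((a : ℂ) - Complex.I) * ((b : ℂ) + Complex.I)) * σ x ) * Complex.I_sq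

lemma I_mul_I (hI : σ I = Complex.I) : I * I = -1 := by
  apply σ.injective
  rw [map_mul, hI, Complex.I_mul_I, map_neg, map_one]

lemma norm_pi_sq (hI : σ I = Complex.I) : ‖σ (2 + I)‖ ^ 2 = 5 := by
  rw [map_add, hI, map_ofNat, ← Complex.normSq_eq_norm_sq, Complex.normSq_apply]
  simp
  norm_num

lemma pi_ne_zero (hI : σ I = Complex.I) : (2 + I : E) ≠ 0 := by
  intro h
  have := norm_pi_sq σ I hI
  rw [h, map_zero, norm_zero] at this
  norm_num at this

lemma eta_eq (hI : σ I = Complex.I) (M : AddSubgroup E) (hIM : ∀ x ∈ M, I * x ∈ M)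
    (h1 : (1 : E) ∈ M) (n : ℕ) (χ : AddChar E Circle) (d d' : ℕ) (hd : 0 < d) (hd' : 0 < d')
    (η η' : ℂ)
    (h : ∀ x, (2 + I) ^ n * x ∈ M → χ ((d : E) * x) = ec σ η ((d : E) * x))
    (h' : ∀ x, (2 + I) ^ n * x ∈ M → χ ((d' : E) * x) = ec σ η' ((d' : E) * x))
    (hs : ((d : ℝ) * d' * ‖η - η'‖) ^ 2 < 5 ^ n) : η = η' := by
  have hp : (2 + I : E) ≠ 0 := pi_ne_zero σ I hI
  have hnat : ∀ (k : ℕ) (y : E), y ∈ M → (k : E) * y ∈ M := by
    intro k y hy
    rw [← nsmul_eq_mul]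
    exact M.nsmul_mem hy k
  have key : ∀ x, (2 + I) ^ n * x ∈ M → ∃ k : ℤ, ((η - η') * (d * d' * σ x)).re = k := by
    intro x hx
    rw [← fourierChar_eq_one_iff]
    have hx1 : (2 + I) ^ n * ((d' : E) * x) ∈ M := by
      have := hnat d' _ hx
      rwa [show (2 + I) ^ n * ((d' : E) * x) = (d' : E) * ((2 + I) ^ n * x) by ring]
    have hx2 : (2 + I) ^ n * ((d : E) * x) ∈ M := by
      have := hnat d _ hx
      rwa [show (2 + I) ^ n * ((d : E) * x) = (d : E) * ((2 + I) ^ n * x) by ring]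
    have e1 := h _ hx1
    have e2 := h' _ hx2
    rw [show (d' : E) * ((d : E) * x) = (d : E) * ((d' : E) * x) by ring, e1] at e2
    have e3 := ec_sub σ η η' ((d : E) * ((d' : E) * x))
    rw [e2, div_self'] at e3
    rw [ec_apply, map_mul, map_mul, map_natCast, map_natCast] at e3
    rw [← e3]
    congr 3
    ring
  have hz0 : ∃ z0 : ℂ, z0 = (η - η') * (d * d' * σ ((2 + I) ^ n)⁻¹) := ⟨_, rfl⟩
  obtain ⟨z0, hz0⟩ := hz0
  obtain ⟨k1, hk1⟩ := key (((2 + I) ^ n)⁻¹) (by rw [mul_inv_cancel₀ (pow_ne_zero n hp)]; exact h1)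
  obtain ⟨k2, hk2⟩ := key (I * ((2 + I) ^ n)⁻¹) (by
    rw [show (2 + I) ^ n * (I * ((2 + I) ^ n)⁻¹) = I * ((2 + I) ^ n * ((2 + I) ^ n)⁻¹) by ring,
      mul_inv_cancel₀ (pow_ne_zero n hp)]
    exact hIM _ h1)
  rw [← hz0] at hk1
  have hk2' : z0.im = -k2 := by
    rw [map_mul, hI, show (η - η') * (d * d' * (Complex.I * σ ((2 + I) ^ n)⁻¹)) =
      z0 * Complex.I by rw [hz0]; ring] at hk2
    simp at hk2
    rw [← hk2]; ring
  have hn : ‖z0‖ ^ 2 < 1 := by
    rw [hz0, map_inv₀, map_pow]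
    rw [norm_mul, norm_mul, norm_mul, norm_inv, norm_pow, Complex.norm_natCast,
      Complex.norm_natCast]
    have h5 := norm_pi_sq σ I hI
    have : (‖η - η'‖ * ((d : ℝ) * d' * (‖σ (2 + I)‖ ^ n)⁻¹)) ^ 2 =
        ((d : ℝ) * d' * ‖η - η'‖) ^ 2 / 5 ^ n := by
      rw [← h5, ← pow_mul, mul_comm 2 n, pow_mul]
      field_simp
    rw [this, div_lt_one (by positivity)]
    exact hs
  rw [← Complex.normSq_eq_norm_sq, Complex.normSq_apply, hk1, hk2'] at hn
  have hk : k1 * k1 + k2 * k2 < 1 := by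
    have : ((k1 * k1 + k2 * k2 : ℤ) : ℝ) < 1 := by push_cast; nlinarith
    exact_mod_cast this
  have hk1z : k1 = 0 := by nlinarith [mul_self_nonneg k1, mul_self_nonneg k2]
  have hk2z : k2 = 0 := by nlinarith [mul_self_nonneg k1, mul_self_nonneg k2]
  have hz : z0 = 0 := by
    apply Complex.ext
    · rw [hk1, hk1z]; simp
    · rw [hk2', hk2z]; simp
  rw [hz0] at hz
  have h3 : (d : ℂ) * d' * σ ((2 + I) ^ n)⁻¹ ≠ 0 := by
    refine mul_ne_zero (mul_ne_zero ?_ ?_) ?_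
    · exact_mod_cast hd.ne'
    · exact_mod_cast hd'.ne'
    · exact (map_ne_zero σ).2 (inv_ne_zero (pow_ne_zero n hp))
  have := (mul_eq_zero.1 hz).resolve_right h3
  exact sub_eq_zero.1 this

/-- multiplier ring of `M`. -/
def mulRing (M : AddSubgroup E) : Subring E where
  carrier := {x | ∀ y ∈ M, x * y ∈ M}
  mul_mem' := by
    intro a b ha hb y hy
    rw [mul_assoc]
    exact ha _ (hb _ hy)
  one_mem' := by intro y hy; rwa [one_mul]
  add_mem' := by
    intro a b ha hb y hy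
    rw [add_mul]
    exact M.add_mem (ha _ hy) (hb _ hy)
  zero_mem' := by intro y hy; rw [zero_mul]; exact M.zero_mem
  neg_mem' := by
    intro a ha y hy
    rw [neg_mul]
    exact M.neg_mem (ha _ hy)

lemma coprime_pow (hI2 : I * I = -1) (M : AddSubgroup E) (hIM : ∀ x ∈ M, I * x ∈ M) (n : ℕ) :
    ∃ α ∈ mulRing M, ∃ β ∈ mulRing M, α * (2 + I) ^ n + β * (2 - I) ^ n = 1 := by
  have hIS : I ∈ mulRing M := hIM
  have h2S : (2 : E) ∈ mulRing M := ofNat_mem (mulRing M) 2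
  have hc : IsCoprime (⟨2 + I, (mulRing M).add_mem h2S hIS⟩ : mulRing M)
      ⟨2 - I, (mulRing M).sub_mem h2S hIS⟩ := by
    refine ⟨⟨1 - I, (mulRing M).sub_mem (mulRing M).one_mem hIS⟩, -1, ?_⟩
    apply Subtype.ext
    push_cast
    linear_combination -hI2
  obtain ⟨α, β, h⟩ := hc.pow (m := n) (n := n)
  refine ⟨α, α.2, β, β.2, ?_⟩
  have := congrArg Subtype.val h
  simpa using this

lemma finite_order (hI2 : I * I = -1) (M : AddSubgroup E) (hIM : ∀ x ∈ M, I * x ∈ M)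
    (hp : (2 + I : E) ≠ 0)
    (f : AddChar E Circle) (K0 : ℕ) (hK : ∀ x ∈ M, f ((K0 : E) * x) = 1)
    (D : ℕ → ℕ) (n0 : ℕ) (hD : ∀ n ≥ n0, 0 < D n)
    (hkill : ∀ n ≥ n0, ∀ x, (2 + I) ^ n * x ∈ M → f ((D n : E) * x) = 1)
    (hgrow : ∀ᶠ n in Filter.atTop, D (2 * n) < 5 ^ (n + 1)) :
    ∀ k x, (2 + I) ^ k * x ∈ M → f ((K0 : E) * x) = 1 := by
  intro k x hx
  obtain ⟨n, hn1, hn2, hn3⟩ : ∃ n, D (2 * n) < 5 ^ (n + 1) ∧ k ≤ n ∧ n0 ≤ n := by
    obtain ⟨n, h⟩ := (hgrow.and ((Filter.eventually_ge_atTop k).and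
      (Filter.eventually_ge_atTop n0))).exists
    exact ⟨n, h.1, h.2.1, h.2.2⟩
  have hfpow : ∀ (m : ℕ) (y : E), f ((m : E) * y) = f y ^ m := by
    intro m y
    rw [← nsmul_eq_mul, AddChar.map_nsmul_eq_pow]
  have h5 : (2 - I) * (2 + I) = 5 := by linear_combination -hI2
  obtain ⟨α, hα, β, hβ, hαβ⟩ := coprime_pow I hI2 M hIM n
  have hS : ∀ a ∈ mulRing M, ∀ y ∈ M, a * y ∈ M := fun a ha y hy => ha y hy
  have hpS : (2 + I : E) ∈ mulRing M :=
    (mulRing M).add_mem (ofNat_mem (mulRing M) 2) hIM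
  have hqS : (2 - I : E) ∈ mulRing M :=
    (mulRing M).sub_mem (ofNat_mem (mulRing M) 2) hIM
  -- π^n x ∈ M
  have hxn : (2 + I) ^ n * x ∈ M := by
    obtain ⟨j, rfl⟩ := Nat.exists_eq_add_of_le hn2
    rw [show (2 + I) ^ (k + j) * x = (2 + I) ^ j * ((2 + I) ^ k * x) by ring]
    exact hS _ ((mulRing M).pow_mem hpS j) _ hx
  -- the deep element
  have hdeep : ∀ y, (2 + I) ^ (2 * n) * y ∈ M → f y ^ (5 ^ n * K0) = 1 := by
    intro y hy
    have e1 : f y ^ (D (2 * n)) = 1 := by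
      rw [← hfpow]
      exact hkill _ (by omega) y hy
    have e2 : f y ^ (5 ^ (2 * n) * K0) = 1 := by
      rw [← hfpow]
      have : ((5 ^ (2 * n) * K0 : ℕ) : E) * y =
          (K0 : E) * ((2 - I) ^ (2 * n) * ((2 + I) ^ (2 * n) * y)) := by
        push_cast
        rw [← h5, mul_pow]
        ring
      rw [this]
      exact hK _ (hS _ ((mulRing M).pow_mem hqS _) _ hy)
    have e3 := pow_gcd_eq_one.2 ⟨e1, e2⟩
    have hDpos := hD (2 * n) (by omega)
    obtain ⟨v, r, hr, hvr⟩ := Nat.exists_eq_pow_mul_and_not_dvd hDpos.ne' 5 (by norm_num)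
    have hv : v ≤ n := by
      have h1 : 5 ^ v ≤ D (2 * n) := by
        rw [hvr]
        exact Nat.le_mul_of_pos_right _ (Nat.pos_of_ne_zero (by rintro rfl; simp at hr))
      have h2 : 5 ^ v < 5 ^ (n + 1) := h1.trans_lt hn1
      have := (Nat.pow_lt_pow_iff_right (by norm_num : 1 < 5)).1 h2
      omega
    have hdvd : Nat.gcd (D (2 * n)) (5 ^ (2 * n) * K0) ∣ 5 ^ n * K0 := by
      have h1 : Nat.gcd (D (2 * n)) (5 ^ (2 * n) * K0) ∣
          Nat.gcd (5 ^ v * r) (5 ^ v * (5 ^ (2 * n) * K0)) := by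
        rw [← hvr]
        exact Nat.gcd_dvd_gcd_of_dvd_right _ (Dvd.intro_left _ rfl)
      rw [Nat.gcd_mul_left] at h1
      have hcop : Nat.Coprime r (5 ^ (2 * n)) :=
        ((Nat.Prime.coprime_iff_not_dvd (by norm_num)).2 hr).symm.pow_right _
      rw [hcop.symm.gcd_mul_left_cancel_right] at h1
      refine h1.trans (Nat.mul_dvd_mul (pow_dvd_pow 5 hv) (Nat.gcd_dvd_right _ _))
    obtain ⟨t, ht⟩ := hdvd
    rw [ht, pow_mul, e3, one_pow]
  have hxsplit : (K0 : E) * x = (K0 : E) * (α * ((2 + I) ^ n * x)) +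
      ((5 ^ n * K0 : ℕ) : E) * (β * (x / (2 + I) ^ n)) := by
    have hpn := pow_ne_zero n hp
    have h5n : ((5 : E)) ^ n = (2 - I) ^ n * (2 + I) ^ n := by rw [← mul_pow, h5]
    push_cast
    rw [h5n]
    field_simp
    linear_combination (-(K0 : E) * x) * hαβ
  rw [hxsplit, AddChar.map_add_eq_mul, hK _ (hS _ hα _ hxn), one_mul, hfpow]
  apply hdeep
  have hpn := pow_ne_zero n hp
  have : (2 + I) ^ (2 * n) * (β * (x / (2 + I) ^ n)) = β * ((2 + I) ^ n * x) := by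
    rw [two_mul, pow_add]
    field_simp
  rw [this]
  exact hS _ hβ _ hxn

lemma growth_aux (q C : ℝ) (n : ℕ) :
    ((2 * C * q ^ n) * (2 * C * q ^ (n + 1)) * (2 * C ^ 2 * (q ^ (n + 1)) ^ 2)) ^ 2 =
      ((64 * C ^ 8 * q ^ 6) * ((q ^ 8 / 5) ^ n)) * 5 ^ n := by
  rw [div_pow, pow_right_comm q 8 n, pow_succ]
  field_simp
  ring

section main

variable [MeasurableSpace (AddChar E Circle)]

/-- **P2**: from lower bounds `μ(N_n) ≥ c (5/6)^n` for the classes of `χ` to the structure of `χ`. -/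
theorem structured_of_volume (μ : Measure (AddChar E Circle)) [IsFiniteMeasure μ]
    (hI : σ I = Complex.I)
    (hinv : ∀ u : E, ‖σ u‖ = 1 → MeasurePreserving (fun χ : AddChar E Circle => χ.mulShift u) μ μ)
    (M : AddSubgroup E) (hIM : ∀ x ∈ M, I * x ∈ M) (h1M : (1 : E) ∈ M)
    (χ : AddChar E Circle) (N : ℕ → Set (AddChar E Circle)) (hN : ∀ n, MeasurableSet (N n))
    (n0 : ℕ) (c : ℝ) (hc : 0 < c)
    (hrel : ∀ n ≥ n0, ∀ ψ ∈ N n, ∃ s : ℂ, ‖s‖ ≤ 1 ∧
      ∀ x, (2 + I) ^ n * x ∈ M → ψ x = χ x * ec σ s x)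
    (hvol : ∀ n ≥ n0, c * (5 / 6) ^ n ≤ μ.real (N n)) :
    ∃ η : ℂ, ∃ K : ℕ, 0 < K ∧ ∀ (k : ℕ) (x : E), (2 + I) ^ k * x ∈ M →
      χ ((K : E) * x) = Real.fourierChar ((η * σ ((K : E) * x)).re) := by
  classical
  have hI2 := I_mul_I σ I hI
  have hp := pi_ne_zero σ I hI
  set V : ℝ := μ.real Set.univ with hV
  have hV0 : 0 ≤ V := measureReal_nonneg
  set C : ℝ := V / c + 1 with hC
  have hC1 : 1 ≤ C := by
    have : 0 ≤ V / c := by positivity
    linarith
  -- data at every level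
  have hdata : ∀ n ≥ n0, ∃ (d : ℕ) (η : ℂ), 0 < d ∧ (d : ℝ) ≤ 2 * C * (6 / 5) ^ n ∧
      ‖η‖ ≤ C ^ 2 * ((6 / 5) ^ n) ^ 2 ∧
      ∀ x, (2 + I) ^ n * x ∈ M → χ ((d : E) * x) = ec σ η ((d : E) * x) := by
    intro n hn
    have hq : (1 : ℝ) ≤ (6 / 5) ^ n := one_le_pow₀ (by norm_num)
    have hmul : ((5 : ℝ) / 6) ^ n * (6 / 5) ^ n = 1 := by
      rw [← mul_pow]; norm_num
    set A : ℕ := ⌊V / c * (6 / 5) ^ n⌋₊ + 1 with hA
    have hA1 : V < A * μ.real (N n) := by
      have h1 : V / c * (6 / 5) ^ n < A := by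
        rw [hA]; push_cast; exact Nat.lt_floor_add_one _
      have h2 : (A : ℝ) * (c * (5 / 6) ^ n) ≤ A * μ.real (N n) := by
        gcongr
        exact hvol n hn
      refine lt_of_lt_of_le ?_ h2
      have h3 : V / c * (6 / 5) ^ n * (c * (5 / 6) ^ n) < A * (c * (5 / 6) ^ n) := by
        gcongr
      refine lt_of_le_of_lt (le_of_eq ?_) h3
      rw [show V / c * (6 / 5) ^ n * (c * (5 / 6) ^ n) =
        V * (c / c) * (((5 : ℝ) / 6) ^ n * (6 / 5) ^ n) by ring, hmul, div_self hc.ne']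
      ring
    obtain ⟨a, b, hba, haA, ψ, hψ1, hψ2⟩ := exists_pair σ I μ hI hinv (N n) (hN n) A hA1
    obtain ⟨η, hη, hη'⟩ := data σ I hI M hIM n χ (N n) (hrel n hn) a b hba ψ hψ1 hψ2
    have ha : (a : ℝ) ≤ V / c * (6 / 5) ^ n := by
      have h1 : a ≤ ⌊V / c * (6 / 5) ^ n⌋₊ := by omega
      exact (Nat.cast_le.2 h1).trans (Nat.floor_le (by positivity))
    have ha1 : (a : ℝ) + 1 ≤ C * (6 / 5) ^ n := by
      rw [hC, add_mul, one_mul]
      exact add_le_add ha hq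
    refine ⟨2 * (a - b), η, by omega, ?_, ?_, hη'⟩
    · have : ((2 * (a - b) : ℕ) : ℝ) ≤ 2 * a := by
        have : 2 * (a - b) ≤ 2 * a := by omega
        exact_mod_cast this
      have h2 : (a : ℝ) ≤ C * (6 / 5) ^ n := by linarith
      linarith
    · refine hη.trans ?_
      rw [← mul_pow]
      gcongr
  choose! d η hd hdle hηle hχ using hdata
  -- constancy
  have hq8 : Filter.Tendsto (fun n : ℕ => (64 * C ^ 8 * (6 / 5) ^ 6) * (((6 / 5 : ℝ) ^ 8 / 5) ^ n))
      Filter.atTop (nhds 0) := by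
    have := (tendsto_pow_atTop_nhds_zero_of_lt_one (r := ((6 / 5 : ℝ) ^ 8 / 5)) (by positivity)
      (by norm_num)).const_mul (64 * C ^ 8 * (6 / 5) ^ 6)
    simpa using this
  have hev : ∀ᶠ n : ℕ in Filter.atTop,
      (64 * C ^ 8 * (6 / 5) ^ 6) * (((6 / 5 : ℝ) ^ 8 / 5) ^ n) < 1 :=
    hq8.eventually (gt_mem_nhds (by norm_num))
  obtain ⟨n1, hn1⟩ := Filter.eventually_atTop.1 hev
  have hconst : ∀ n ≥ max n0 n1, η (n + 1) = η n := by
    intro n hn
    have hn0 : n0 ≤ n := (le_max_left _ _).trans hn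
    have hn1' : n1 ≤ n := (le_max_right _ _).trans hn
    refine (eta_eq σ I hI M hIM h1M n χ (d n) (d (n + 1)) (hd n hn0) (hd (n + 1) (by omega))
      (η n) (η (n + 1)) (hχ n hn0) ?_ ?_).symm
    · intro x hx
      apply hχ (n + 1) (by omega)
      have hpS : (2 + I : E) ∈ mulRing M := (mulRing M).add_mem (ofNat_mem (mulRing M) 2) hIM
      rw [pow_succ', mul_assoc]
      exact hpS _ hx
    · have hb1 := hdle n hn0
      have hb2 := hdle (n + 1) (by omega)
      have hb3 : ‖η n - η (n + 1)‖ ≤ 2 * C ^ 2 * ((6 / 5) ^ (n + 1)) ^ 2 := by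
        refine (norm_sub_le _ _).trans ?_
        have e1 := hηle n hn0
        have e2 := hηle (n + 1) (by omega)
        have e3 : C ^ 2 * (((6 : ℝ) / 5) ^ n) ^ 2 ≤ C ^ 2 * ((6 / 5) ^ (n + 1)) ^ 2 := by
          gcongr
          · norm_num
          · omega
        linarith
      have hb4 : (d n : ℝ) * d (n + 1) * ‖η n - η (n + 1)‖ ≤
          (2 * C * (6 / 5) ^ n) * (2 * C * (6 / 5) ^ (n + 1)) *
          (2 * C ^ 2 * ((6 / 5) ^ (n + 1)) ^ 2) := by
        gcongr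
      have hb5 : ((d n : ℝ) * d (n + 1) * ‖η n - η (n + 1)‖) ^ 2 ≤
          ((2 * C * (6 / 5) ^ n) * (2 * C * (6 / 5) ^ (n + 1)) *
          (2 * C ^ 2 * ((6 / 5) ^ (n + 1)) ^ 2)) ^ 2 := by
        gcongr
      refine lt_of_le_of_lt hb5 ?_
      have hb6 := hn1 n hn1'
      have h5 : (0 : ℝ) < 5 ^ n := by positivity
      have : ((2 * C * (6 / 5) ^ n) * (2 * C * (6 / 5) ^ (n + 1)) *
          (2 * C ^ 2 * ((6 / 5) ^ (n + 1)) ^ 2)) ^ 2 =
          ((64 * C ^ 8 * (6 / 5) ^ 6) * (((6 / 5 : ℝ) ^ 8 / 5) ^ n)) * 5 ^ n := growth_aux _ _ _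
      rw [this]
      calc _ < 1 * (5 : ℝ) ^ n := by gcongr
        _ = 5 ^ n := one_mul _
  set n2 : ℕ := max n0 n1 with hn2
  have hall : ∀ n ≥ n2, η n = η n2 := by
    intro n hn
    induction n, hn using Nat.le_induction with
    | base => rfl
    | succ n hn ih => rw [hconst n hn, ih]
  -- finite order
  set f : AddChar E Circle := χ / ec σ (η n2) with hf
  have hf1 : ∀ x, f x = 1 → χ x = ec σ (η n2) x := by
    intro x hx
    rw [hf, AddChar.div_apply', div_eq_one] at hx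
    exact hx
  have hkill : ∀ n ≥ n2, ∀ x, (2 + I) ^ n * x ∈ M → f ((d n : E) * x) = 1 := by
    intro n hn x hx
    have := hχ n ((le_max_left _ _).trans hn) x hx
    rw [hall n hn] at this
    rw [hf, AddChar.div_apply', div_eq_one]
    exact this
  have hK : ∀ x ∈ M, f ((d n2 : E) * x) = 1 := by
    intro x hx
    apply hkill n2 le_rfl
    have hpS : (2 + I : E) ∈ mulRing M := (mulRing M).add_mem (ofNat_mem (mulRing M) 2) hIM
    exact (mulRing M).pow_mem hpS n2 _ hx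
  have hgrow : ∀ᶠ n in Filter.atTop, d (2 * n) < 5 ^ (n + 1) := by
    have ht : Filter.Tendsto (fun n : ℕ => (2 * C) * (((36 / 25 : ℝ) / 5) ^ n))
        Filter.atTop (nhds 0) := by
      have := (tendsto_pow_atTop_nhds_zero_of_lt_one (r := ((36 / 25 : ℝ) / 5)) (by positivity)
        (by norm_num)).const_mul (2 * C)
      simpa using this
    have hev2 : ∀ᶠ n : ℕ in Filter.atTop, (2 * C) * (((36 / 25 : ℝ) / 5) ^ n) < 1 :=
      ht.eventually (gt_mem_nhds (by norm_num))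
    filter_upwards [hev2, Filter.eventually_ge_atTop n0] with n h1 h2
    have h3 := hdle (2 * n) (by omega)
    have h4 : (2 * C) * (6 / 5) ^ (2 * n) = (2 * C) * (((36 / 25 : ℝ) / 5) ^ n) * 5 ^ n := by
      rw [pow_mul, div_pow (36 / 25 : ℝ) 5 n]
      norm_num
      field_simp
    have h5 : (0 : ℝ) < 5 ^ n := by positivity
    have h6 : (d (2 * n) : ℝ) < 5 ^ (n + 1) := by
      calc (d (2 * n) : ℝ) ≤ (2 * C) * (((36 / 25 : ℝ) / 5) ^ n) * 5 ^ n := by rw [← h4]; exact h3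
        _ < 1 * 5 ^ n := by gcongr
        _ ≤ 5 ^ (n + 1) := by rw [one_mul, pow_succ]; linarith
    exact_mod_cast h6
  have hfin := finite_order I hI2 M hIM hp f (d n2) hK d n2
    (fun n hn => hd n ((le_max_left _ _).trans hn)) hkill hgrow
  refine ⟨η n2, d n2, hd n2 (le_max_left _ _), fun k x hx => ?_⟩
  exact hf1 _ (hfin k x hx)

end main

open Crest.Agent.R40.T1R2 in
/-- **Target P2** of `T1R2Defs`. -/
theorem targetP2 {E : Type*} [Field E] (S : Emb E) {ν : Measure (AddChar E Circle)}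
    [IsFiniteMeasure ν] (hν : S.Invariant ν) : S.TargetP2 ν := by
  intro m hm c0 hc0 χ hχ
  have hI : S.σ S.I = Complex.I := by
    have := S.compat ⟨0, 1⟩
    rw [Emb.I, this, GaussianInt.toComplex_def]
    simp
  have hP : S.ι P = 2 + S.I := by
    have : (P : GaussianInt) = 2 + ⟨0, 1⟩ := by
      apply Zsqrtd.ext
      · simp [P]
      · simp [P]
    rw [this, map_add, map_ofNat]
    rfl
  let M : AddSubgroup E :=
    { carrier := {x | S.InLat m x}
      add_mem' := by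
        rintro a b ⟨c, hc⟩ ⟨d, hd⟩
        exact ⟨c + d, by rw [mul_add, hc, hd, map_add]⟩
      zero_mem' := ⟨0, by simp⟩
      neg_mem' := by
        rintro a ⟨c, hc⟩
        exact ⟨-c, by rw [mul_neg, hc, map_neg]⟩ }
  have hM : ∀ x, x ∈ M ↔ S.InLat m x := fun x => Iff.rfl
  have hIM : ∀ x ∈ M, S.I * x ∈ M := by
    rintro x ⟨b, hb⟩
    exact ⟨⟨0, 1⟩ * b, by rw [map_mul S.ι ⟨0, 1⟩ b, ← hb]; simp only [Emb.I]; ring⟩
  have h1M : (1 : E) ∈ M := ⟨m, by rw [mul_one]⟩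
  have hlat : ∀ (n : ℕ) (x : E), S.InLat (P ^ n * m) x ↔ (2 + S.I) ^ n * x ∈ M := by
    intro n x
    rw [hM]
    unfold Emb.InLat
    have : S.ι (P ^ n * m) * x = S.ι m * ((2 + S.I) ^ n * x) := by
      rw [map_mul, map_pow, hP]; ring
    rw [this]
  obtain ⟨n0, hn0⟩ := Filter.eventually_atTop.1 hχ
  choose! C hC1 hC2 hC3 hC4 using hn0
  obtain ⟨η, N, hN, h⟩ := structured_of_volume S.σ S.I ν hI
    (fun u hu => ⟨measurable_mulShift u, hν u hu⟩) M hIM h1M χ
    (fun n => if n0 ≤ n then C n else ∅)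
    (fun n => by
      by_cases h : n0 ≤ n
      · simp only [h, if_true]; exact hC1 n h
      · simp only [h, if_false]; exact MeasurableSet.empty)
    n0 c0 hc0
    (by
      intro n hn ψ hψ
      have hn' : n0 ≤ n := hn
      simp only [hn', if_true] at hψ
      obtain ⟨s, hs, hrel⟩ := hC4 n hn χ (hC2 n hn) ψ hψ
      exact ⟨s, hs, fun x hx => hrel x ((hlat n x).2 hx)⟩)
    (by
      intro n hn
      have hn' : n0 ≤ n := hn
      simp only [hn', if_true]
      exact hC3 n hn)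
  exact ⟨η, N, hN, fun n a ha => h n a ((hlat n a).1 ha)⟩

end Crest.Agent.R40.T1R2P2
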