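import Crest.Agent.R40.T1Host3
import Crest.Agent.R40.T1BMain
import Crest.Agent.R40.T1R2P2
import Mathlib
import Crest.Agent.R40.T1R2P1b
import Crest.Agent.R40.T1R2Defs

-- ▼ part R40/T1Host4
section

/-!
# R40 / T1 / Host part 4: assembly
-/

set_option autoImplicit false

open MeasureTheory Filter Topology Set
open scoped ENNReal

namespace Crest.Agent.R40.T1Host

open Crest.Agent.R40.T1 Crest.Agent.R40.T1R2

open Classical in
/-- label of a point of the circle: which fifth root of its fifth power it is -/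
noncomputable def lab (z : ℂ) : Fin 5 :=
  if z = zeta 5 (z ^ 5) 0 then 0 else if z = zeta 5 (z ^ 5) 1 then 1 else
  if z = zeta 5 (z ^ 5) 2 then 2 else if z = zeta 5 (z ^ 5) 3 then 3 else 4

theorem measurable_lab : Measurable lab := by
  have h : ∀ k, MeasurableSet {z : ℂ | z = zeta 5 (z ^ 5) k} := fun k =>
    measurableSet_eq_fun measurable_id ((measurable_zeta 5 k).comp (measurable_id.pow_const 5))
  unfold lab
  exact Measurable.ite (h 0) measurable_const (Measurable.ite (h 1) measurable_const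
    (Measurable.ite (h 2) measurable_const (Measurable.ite (h 3) measurable_const measurable_const)))

theorem lab_spec {z : ℂ} (hz : ‖z‖ = 1) : z = zeta 5 (z ^ 5) (lab z : ℕ) := by
  obtain ⟨k, hk, hk'⟩ := exists_zeta (N := 5) (by norm_num) hz
  unfold lab
  split_ifs with h0 h1 h2 h3
  · exact h0
  · exact h1
  · exact h2
  · exact h3
  · interval_cases k
    · exact absurd hk' h0
    · exact absurd hk' h1
    · exact absurd hk' h2
    · exact absurd hk' h3
    · exact hk'

theorem measurable_zpow_const (c : ℤ) : Measurable (fun z : ℂ => z ^ c) := by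
  cases c with
  | ofNat m =>
    have h : Measurable (fun z : ℂ => z ^ m) := measurable_id.pow_const m
    simpa using h
  | negSucc m =>
    have h : Measurable (fun z : ℂ => (z ^ (m + 1))⁻¹) := (measurable_id.pow_const (m + 1)).inv
    simpa [zpow_negSucc] using h

variable {E : Type*} [Field E] (S : Emb E)

/-- the set `R` -/
def InR (a : E) : Prop := ∃ m : GaussianInt, ¬ (P ∣ m) ∧ S.InLat m a

theorem measurable_eval_R {a : E} (ha : InR S a) :
    Measurable[S.sigmaR] (fun χ : AddChar E Circle => ((χ a : Circle) : ℂ)) := by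
  refine Measurable.mono (comap_measurable _) ?_ le_rfl
  exact le_iSup₂_of_le a ha le_rfl

theorem sigmaR_le : S.sigmaR ≤ (instMeasurableSpaceDual E) := by
  refine iSup₂_le fun a _ => ?_
  exact (measurable_eval a).comap_le

theorem u0_ne_zero : S.u0 ≠ 0 := div_ne_zero (S.ι_ne_zero Emb.Pb_ne_zero) (S.ι_ne_zero Emb.P_ne_zero)

theorem InR.shift {a : E} (ha : InR S a) : InR S (S.u0⁻¹ * a) := by
  obtain ⟨m, hm, b, hb⟩ := ha
  refine ⟨Pb ^ 1 * m, not_P_dvd_Pb_pow_mul hm 1, P * b, ?_⟩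
  have h1 : S.ι P ≠ 0 := S.ι_ne_zero Emb.P_ne_zero
  have h2 : S.ι Pb ≠ 0 := S.ι_ne_zero Emb.Pb_ne_zero
  rw [map_mul S.ι P b, ← hb, pow_one, map_mul, Emb.u0, inv_div]
  field_simp

theorem InR_gauss (b : GaussianInt) : InR S (S.ι b) := ⟨1, not_P_dvd_one, b, by simp⟩

theorem InR_theta : InR S (S.u0⁻¹ * S.θ) := by
  refine ⟨Pb ^ 1 * 1, not_P_dvd_Pb_pow_mul not_P_dvd_one 1, 1, ?_⟩
  have h1 : S.ι P ≠ 0 := S.ι_ne_zero Emb.P_ne_zero
  have h2 : S.ι Pb ≠ 0 := S.ι_ne_zero Emb.Pb_ne_zero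
  rw [pow_one, mul_one, Emb.u0, Emb.θ, map_one, inv_div]
  field_simp

/-- the shift -/
noncomputable def TT (χ : AddChar E Circle) : AddChar E Circle := χ.mulShift S.u0

theorem TT_apply (χ : AddChar E Circle) (a : E) : TT S χ a = χ (S.u0 * a) := rfl

theorem TT_iterate (χ : AddChar E Circle) (j : ℕ) (a : E) : (TT S)^[j] χ a = χ (S.u0 ^ j * a) := by
  induction j generalizing χ a with
  | zero => simp
  | succ j ih => rw [Function.iterate_succ_apply, ih, TT_apply, pow_succ']; congr 1; ring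

theorem sigmaR_le_comap : S.sigmaR ≤ S.sigmaR.comap (TT S) := by
  refine iSup₂_le fun a ha => ?_
  have h1 : (fun χ : AddChar E Circle => ((χ a : Circle) : ℂ))
      = (fun χ : AddChar E Circle => ((χ (S.u0⁻¹ * a) : Circle) : ℂ)) ∘ TT S := by
    funext χ
    simp only [Function.comp, TT_apply]
    rw [mul_inv_cancel_left₀ (u0_ne_zero S)]
  rw [h1, ← MeasurableSpace.comap_comp]
  refine MeasurableSpace.comap_mono ?_
  exact le_iSup₂_of_le (S.u0⁻¹ * a) (InR.shift S ha) le_rfl

theorem measurable_label :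
    Measurable[S.sigmaR.comap (TT S)] (fun χ : AddChar E Circle => lab ((χ S.θ : Circle) : ℂ)) := by
  have h1 : (fun χ : AddChar E Circle => lab ((χ S.θ : Circle) : ℂ))
      = (fun χ : AddChar E Circle => lab ((χ (S.u0⁻¹ * S.θ) : Circle) : ℂ)) ∘ TT S := by
    funext χ
    simp only [Function.comp, TT_apply]
    rw [mul_inv_cancel_left₀ (u0_ne_zero S)]
  rw [h1]
  exact (measurable_lab.comp (measurable_eval_R S (InR_theta S))).comp (comap_measurable _)

theorem norm_u0 : ‖S.σ S.u0‖ = 1 := by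
  have hn : ∀ w : GaussianInt, ‖S.σ (S.ι (star w))‖ = ‖S.σ (S.ι w)‖ := by
    intro w
    rw [S.compat, S.compat, GaussianInt.toComplex_star, Complex.norm_conj]
  rw [Emb.u0, map_div₀, norm_div, ← star_P, hn]
  exact div_self (norm_ne_zero_iff.2 ((map_ne_zero S.σ).2 (S.ι_ne_zero Emb.P_ne_zero)))

variable {ν : Measure (AddChar E Circle)}

theorem measurePreserving_TT (hν : S.Invariant ν) : MeasurePreserving (TT S) ν ν :=
  ⟨measurable_mulShift S.u0, hν S.u0 (norm_u0 S)⟩

/-- the system -/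
noncomputable def sys [IsFiniteMeasure ν] (hν : S.Invariant ν) : Sys (AddChar E Circle) ν 5 where
  T := TT S
  hT := measurePreserving_TT S hν
  L := fun χ => lab ((χ S.θ : Circle) : ℂ)
  q := (exists_q ν S.sigmaR (sigmaR_le S) (fun χ => lab ((χ S.θ : Circle) : ℂ))).choose
  B := S.sigmaR
  hB := sigmaR_le S
  hBT := sigmaR_le_comap S
  hL := measurable_label S
  hq := (exists_q ν S.sigmaR (sigmaR_le S) (fun χ => lab ((χ S.θ : Circle) : ℂ))).choose_spec.1
  hqint := (exists_q ν S.sigmaR (sigmaR_le S) (fun χ => lab ((χ S.θ : Circle) : ℂ))).choose_spec.2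

theorem eval_add (χ : AddChar E Circle) (a b : E) :
    ((χ (a + b) : Circle) : ℂ) = ((χ a : Circle) : ℂ) * ((χ b : Circle) : ℂ) := by
  rw [AddChar.map_add_eq_mul]; simp

theorem eval_nsmul (χ : AddChar E Circle) (k : ℕ) (a : E) :
    ((χ ((k : E) * a) : Circle) : ℂ) = ((χ a : Circle) : ℂ) ^ k := by
  rw [← nsmul_eq_mul, AddChar.map_nsmul_eq_pow]; simp

theorem eval_zsmul (χ : AddChar E Circle) (k : ℤ) (a : E) :
    ((χ ((k : E) * a) : Circle) : ℂ) = ((χ a : Circle) : ℂ) ^ k := by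
  rw [← zsmul_eq_mul, AddChar.map_zsmul_eq_zpow]; simp

theorem norm_eval (χ : AddChar E Circle) (a : E) : ‖((χ a : Circle) : ℂ)‖ = 1 := Circle.norm_coe _

theorem addr_eq [IsFiniteMeasure ν] (hν : S.Invariant ν) (n : ℕ) (χ : AddChar E Circle) (j : Fin n) :
    (sys S hν).addr n χ j = lab ((χ (S.u0 ^ (j : ℕ) * S.θ) : Circle) : ℂ) := by
  rw [Sys.addr_apply]
  show lab (((TT S)^[j] χ S.θ : Circle) : ℂ) = _
  rw [TT_iterate]

theorem enorm_sq_sum {N : ℕ} (f : ℕ → ℂ) (c : ℝ)
    (h : ∑ k ∈ Finset.range N, ‖f k‖ ^ 2 = c) :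
    ∑ k ∈ Finset.range N, ‖f k‖ₑ ^ 2 = ENNReal.ofReal c := by
  rw [← h, ENNReal.ofReal_sum_of_nonneg (fun _ _ => by positivity)]
  refine Finset.sum_congr rfl fun k _ => ?_
  rw [ENNReal.ofReal_pow (norm_nonneg _), ofReal_norm]

/-- Host's estimate at level `n` -/
theorem level [IsFiniteMeasure ν] (hν : S.Invariant ν) (n : ℕ) :
    ∃ h : AddChar E Circle → ℂ, (∫⁻ χ, (sys S hν).W n χ * ‖h χ‖ₑ ^ 2 ∂ν ≤ ν univ) ∧
      ‖∫ χ, ((χ 1 : Circle) : ℂ) ∂ν‖ₑ ≤ ∫⁻ χ, ‖h χ‖ₑ ∂ν := by
  classical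
  set N : ℕ := 5 ^ n with hN
  have hN0 : N ≠ 0 := pow_ne_zero _ (by norm_num)
  have hNC : (N : ℂ) ≠ 0 := Nat.cast_ne_zero.2 hN0
  choose y ρ hy hρ hyρ using exists_unit S n
  choose! c ρ' hρ' hc using fun j (hj : j < n) => label_coeff S n j hj
  set ω : E := (S.ι P)⁻¹ ^ n with hω
  have hNω : (N : E) * ω = S.ι (Pb ^ n) := by
    have h1 : S.ι P ≠ 0 := S.ι_ne_zero Emb.P_ne_zero
    have h5 : ((5 : ℕ) : E) = S.ι P * S.ι Pb := by
      rw [← map_mul, Emb.P_mul_Pb]
      push_cast
      rw [map_ofNat]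
    rw [hN, hω, Nat.cast_pow, h5, mul_pow, map_pow, inv_pow]
    have h2 : S.ι P ^ n ≠ 0 := pow_ne_zero _ h1
    field_simp
  set base : AddChar E Circle → ℂ := fun χ => ((χ ((N : E) * ω) : Circle) : ℂ) with hbase
  have hbase_m : Measurable[S.sigmaR] base := by
    refine measurable_eval_R S ?_
    rw [hNω]; exact InR_gauss S _
  set h : AddChar E Circle → ℂ := fun χ => (N : ℂ)⁻¹ * ∑ r ∈ Finset.range N, ((χ (y r) : Circle) : ℂ) with hh
  set ext : ℕ → AddChar E Circle → ℂ := fun k χ =>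
    (N : ℂ)⁻¹ * ∑ r ∈ Finset.range N, ((χ (ρ r) : Circle) : ℂ) * zeta N (base χ) k ^ r with hext
  set wd : ℕ → AddChar E Circle → (Fin n → Fin 5) := fun k χ j =>
    lab (((χ (ρ' j) : Circle) : ℂ) * zeta N (base χ) k ^ (c j)) with hwd
  have hzm : ∀ k, Measurable[S.sigmaR] (fun χ => zeta N (base χ) k) := fun k =>
    (measurable_zeta N k).comp hbase_m
  have hext_m : ∀ k, Measurable[S.sigmaR] (ext k) := by
    intro k
    refine Measurable.const_mul ?_ _
    refine Finset.measurable_fun_sum _ fun r _ => ?_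
    exact (measurable_eval_R S (hρ r)).mul ((hzm k).pow_const r)
  have hwd_m : ∀ k, Measurable[S.sigmaR] (wd k) := by
    intro k
    refine @measurable_pi_lambda _ _ _ S.sigmaR _ _ fun j => ?_
    refine measurable_lab.comp ?_
    exact (measurable_eval_R S (hρ' j j.2)).mul ((measurable_zpow_const (c j)).comp (hzm k))
  set g : (Fin n → Fin 5) → AddChar E Circle → ℝ≥0∞ := fun w χ =>
    ∑ k ∈ Finset.range N, if wd k χ = w then ‖ext k χ‖ₑ ^ 2 else 0 with hg
  have hg_m : ∀ w, Measurable[S.sigmaR] (g w) := by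
    intro w
    refine Finset.measurable_fun_sum _ fun k _ => ?_
    refine Measurable.ite ?_ ?_ (@measurable_const _ _ _ S.sigmaR _)
    · exact hwd_m k (measurableSet_singleton w)
    · have h1 := (measurable_enorm.comp (hext_m k))
      exact (measurable_id.pow_const 2).comp h1
  have hsum : ∀ χ, ∑ w, g w χ = 1 := by
    intro χ
    rw [hg, Finset.sum_comm]
    have h1 : ∀ k, ∑ w : Fin n → Fin 5, (if wd k χ = w then ‖ext k χ‖ₑ ^ 2 else 0)
        = ‖ext k χ‖ₑ ^ 2 := by
      intro k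
      rw [Finset.sum_ite_eq]; simp
    rw [Finset.sum_congr rfl fun k _ => h1 k]
    rw [enorm_sq_sum (fun k => ext k χ) 1, ENNReal.ofReal_one]
    have hp := parseval hN0 (base χ) (fun r => ((χ (ρ r) : Circle) : ℂ)) (fun r => norm_eval χ _)
    have h2 : ∀ k, ‖ext k χ‖ ^ 2 = ((N : ℝ) ^ 2)⁻¹ *
        ‖∑ r ∈ Finset.range N, ((χ (ρ r) : Circle) : ℂ) * zeta N (base χ) k ^ r‖ ^ 2 := by
      intro k
      rw [hext, norm_mul, mul_pow, norm_inv, inv_pow, Complex.norm_natCast]
    rw [Finset.sum_congr rfl fun k _ => h2 k, ← Finset.mul_sum, hp]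
    have : (N : ℝ) ≠ 0 := Nat.cast_ne_zero.2 hN0
    field_simp
  have hge : ∀ χ, ‖h χ‖ₑ ^ 2 ≤ g ((sys S hν).addr n χ) χ := by
    intro χ
    obtain ⟨k, hk, hk'⟩ := exists_zeta (N := N) hN0 (norm_eval χ ω)
    rw [← eval_nsmul χ N ω] at hk'
    have hb : base χ = ((χ ((N : E) * ω) : Circle) : ℂ) := rfl
    rw [← hb] at hk'
    have e1 : ext k χ = h χ := by
      rw [hext, hh]
      simp only []
      congr 1
      refine Finset.sum_congr rfl fun r _ => ?_
      rw [hyρ r, eval_add, eval_nsmul, ← hk']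
    have e2 : wd k χ = (sys S hν).addr n χ := by
      funext j
      rw [addr_eq, hwd]
      simp only []
      rw [hc j j.2, eval_add, eval_zsmul, ← hk']
    rw [hg]
    simp only []
    refine le_trans ?_ (Finset.single_le_sum (f := fun k => if wd k χ = (sys S hν).addr n χ then
      ‖ext k χ‖ₑ ^ 2 else 0) (fun _ _ => bot_le) (Finset.mem_range.2 hk))
    rw [if_pos e2, e1]
  refine ⟨h, ?_, ?_⟩
  · calc ∫⁻ χ, (sys S hν).W n χ * ‖h χ‖ₑ ^ 2 ∂ν
        ≤ ∫⁻ χ, (sys S hν).W n χ * g ((sys S hν).addr n χ) χ ∂ν :=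
          lintegral_mono fun χ => mul_le_mul_right (hge χ) _
      _ ≤ ∫⁻ χ, ∑ w, g w χ ∂ν := (sys S hν).key n g hg_m
      _ = ν univ := by
          rw [lintegral_congr hsum, lintegral_one]
  · have hint : ∀ a : E, Integrable (fun χ : AddChar E Circle => ((χ a : Circle) : ℂ)) ν := by
      intro a
      refine Integrable.of_bound (measurable_eval a).aestronglyMeasurable 1 ?_
      exact Filter.Eventually.of_forall fun χ => (norm_eval χ a).le
    have hy1 : ∀ r, ∫ χ, ((χ (y r) : Circle) : ℂ) ∂ν = ∫ χ, ((χ 1 : Circle) : ℂ) ∂ν := by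
      intro r
      have h1 : ∫ χ, ((χ 1 : Circle) : ℂ) ∂(ν.map (fun χ => χ.mulShift (y r)))
          = ∫ χ, ((χ 1 : Circle) : ℂ) ∂ν := by rw [hν (y r) (hy r)]
      rw [integral_map (measurable_mulShift (y r)).aemeasurable
        (measurable_eval 1).aestronglyMeasurable] at h1
      rw [← h1]
      refine integral_congr_ae (Filter.Eventually.of_forall fun χ => ?_)
      simp
    have h2 : ∫ χ, h χ ∂ν = ∫ χ, ((χ 1 : Circle) : ℂ) ∂ν := by
      rw [hh, integral_const_mul, integral_finsetSum _ fun r _ => hint (y r),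
        Finset.sum_congr rfl fun r _ => hy1 r, Finset.sum_const, Finset.card_range, nsmul_eq_mul,
        inv_mul_cancel_left₀ hNC]
    rw [← h2]
    exact enorm_integral_le_lintegral_enorm _

/-- Host's theorem at the point `1` -/
theorem host_one [IsFiniteMeasure ν] (hν : S.Invariant ν) :
    ∃ (D : Set (AddChar E Circle)) (h : AddChar E Circle → ℂ), MeasurableSet D ∧
      ((fun χ : AddChar E Circle => χ.mulShift S.u0) ⁻¹' D =ᵐ[ν] D) ∧
      @Measurable _ _ S.sigmaR _ h ∧
      (∀ᵐ χ ∂ν, χ ∈ D → ((χ S.θ : Circle) : ℂ) = h χ) ∧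
      (ν D = 0 → ∫ χ, ((χ 1 : Circle) : ℂ) ∂ν = 0) := by
  classical
  set s := sys S hν with hs
  refine ⟨s.DD, fun χ => ∑ j : Fin 5, ((s.q j χ).toReal : ℂ) * zeta 5 ((χ (S.ι Pb) : Circle) : ℂ) j,
    s.measurableSet_DD, s.DD_inv, ?_, ?_, ?_⟩
  · refine Finset.measurable_fun_sum _ fun j _ => ?_
    refine Measurable.mul ?_ ?_
    · exact Complex.measurable_ofReal.comp (s.hq j).ennreal_toReal
    · exact (measurable_zeta 5 j).comp (measurable_eval_R S (InR_gauss S _))
  · filter_upwards [s.q_DD] with χ hq hD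
    have hq' := hq hD
    have hL : s.L χ = lab ((χ S.θ : Circle) : ℂ) := rfl
    have h1 : ∑ j : Fin 5, ((s.q j χ).toReal : ℂ) * zeta 5 ((χ (S.ι Pb) : Circle) : ℂ) j
        = zeta 5 ((χ (S.ι Pb) : Circle) : ℂ) (s.L χ : Fin 5) := by
      rw [Finset.sum_eq_single (s.L χ)]
      · rw [hq', if_pos rfl]; simp
      · intro j _ hj
        rw [hq', if_neg hj]; simp
      · intro h; exact absurd (Finset.mem_univ _) h
    rw [h1, hL]
    have h2 : (S.ι Pb : E) = ((5 : ℕ) : E) * S.θ := by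
      have h3 : S.ι P ≠ 0 := S.ι_ne_zero Emb.P_ne_zero
      have h5 : ((5 : ℕ) : E) = S.ι P * S.ι Pb := by
        rw [← map_mul, Emb.P_mul_Pb]
        push_cast
        rw [map_ofNat]
      rw [h5, Emb.θ]
      field_simp
    rw [h2, eval_nsmul]
    exact lab_spec (norm_eval χ _)
  · intro hD
    choose h hW hI using level S hν
    have := s.limit hD (measure_ne_top ν univ) (fun n χ => ‖h n χ‖ₑ) hW hI
    simpa using this

/-- E-theorem at the point `1`, from (R2) -/
theorem e_theorem_one [IsFiniteMeasure ν] (hν : S.Invariant ν) (hR2 : S.TargetR2 ν)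
    (hns : ∀ᵐ χ ∂ν, ¬ S.IsStructured χ) : ∫ χ, ((χ 1 : Circle) : ℂ) ∂ν = 0 := by
  obtain ⟨D, h, hD, hinv, hh, hae, hfin⟩ := host_one S hν
  apply hfin
  have h1 : ∀ᵐ χ ∂ν, χ ∈ D → χ.mulShift S.u0 ∈ D := by
    filter_upwards [hinv] with χ hχ hD
    have : ((fun χ : AddChar E Circle => χ.mulShift S.u0) ⁻¹' D) χ := by
      rw [hχ]; exact hD
    exact this
  have h2 := hR2 D hD h1 h hh hae
  have h3 : ∀ᵐ χ ∂ν, χ ∉ D := by
    filter_upwards [h2, hns] with χ a b c using b (a c)
  have h4 := ae_iff.1 h3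
  simpa using h4

theorem invariant_map (hν : S.Invariant ν) (x : E) :
    S.Invariant (ν.map (fun χ : AddChar E Circle => χ.mulShift x)) := by
  intro u hu
  rw [Measure.map_map (measurable_mulShift u) (measurable_mulShift x)]
  have h1 : (fun χ : AddChar E Circle => χ.mulShift u) ∘ (fun χ : AddChar E Circle => χ.mulShift x)
      = (fun χ : AddChar E Circle => χ.mulShift x) ∘ (fun χ : AddChar E Circle => χ.mulShift u) := by
    funext χ
    ext a
    simp only [Function.comp, AddChar.mulShift_apply]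
    congr 2
    ring
  rw [h1, ← Measure.map_map (measurable_mulShift x) (measurable_mulShift u), hν u hu]

/-- E-theorem for all `x ≠ 0`: `Q` is any measurable set containing the structured characters with
`χ.mulShift x ∈ Q → χ ∈ Q`, null for `ν`. -/
theorem e_theorem [IsFiniteMeasure ν] (hν : S.Invariant ν) {Q : Set (AddChar E Circle)}
    (hQ : MeasurableSet Q)
    (hstr : ∀ χ, S.IsStructured χ → χ ∈ Q) (x : E)
    (hR2 : S.TargetR2 (ν.map (fun χ : AddChar E Circle => χ.mulShift x)))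
    (hQx : ∀ χ : AddChar E Circle, χ.mulShift x ∈ Q → χ ∈ Q) (hnull : ν Q = 0) :
    ∫ χ, ((χ x : Circle) : ℂ) ∂ν = 0 := by
  have h0 : (ν.map (fun χ : AddChar E Circle => χ.mulShift x)) Q = 0 := by
    rw [Measure.map_apply (measurable_mulShift x) hQ]
    exact measure_mono_null (fun χ hχ => hQx χ hχ) hnull
  have h3 : ∀ᵐ χ ∂(ν.map (fun χ : AddChar E Circle => χ.mulShift x)), ¬ S.IsStructured χ := by
    have h2 : ∀ᵐ χ ∂(ν.map (fun χ : AddChar E Circle => χ.mulShift x)), χ ∉ Q := by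
      rw [ae_iff]; simpa using h0
    filter_upwards [h2] with χ hχ hs using hχ (hstr _ hs)
  have h4 := e_theorem_one S (invariant_map S hν x) hR2 h3
  rw [integral_map (measurable_mulShift x).aemeasurable
        (measurable_eval 1).aestronglyMeasurable] at h4
  rw [← h4]
  refine integral_congr_ae (Filter.Eventually.of_forall fun χ => ?_)
  simp

end Crest.Agent.R40.T1Host
end

-- ▼ part R40/T1EGlue
section

/-!
# R40 / T1: glue on the field `E = ℚ(i)`
-/

set_option autoImplicit false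

namespace Crest.Agent.R40.T1EGlue

open Complex MeasureTheory Filter Topology
open Crest.Agent.R40.T1 (E Dual RotInv rot mem_E measurable_eval)
open Crest.Agent.R40.T1B (LimSet EHyp measurableSet_limSet)
open Crest.Agent.R40.T1R2

/-- `ℤ[i] → ℚ(i)` -/
noncomputable def gι : GaussianInt →+* E :=
  GaussianInt.toComplex.codRestrict E (fun z => by
    rw [GaussianInt.toComplex_def]
    exact ⟨⟨z.re, by simp⟩, z.im, by simp⟩)

/-- the embedding data of `E = ℚ(i)` -/
noncomputable def SE : Emb E where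
  σ := E.subtype
  ι := gι
  compat := fun _ => rfl

lemma σ_apply (a : E) : SE.σ a = (a : ℂ) := rfl

lemma P_ne : SE.ι P ≠ 0 := by
  intro h
  have := congrArg (fun a : E => (a : ℂ)) h
  have h2 : ((SE.ι P : E) : ℂ) = GaussianInt.toComplex P := rfl
  rw [h2] at this
  simp [P, GaussianInt.toComplex_def] at this
  have := congrArg Complex.re this
  simp at this

lemma norm_ιP : ‖((SE.ι P : E) : ℂ)‖ = Real.sqrt 5 := by
  have h2 : ((SE.ι P : E) : ℂ) = GaussianInt.toComplex P := rfl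
  rw [h2, Complex.norm_def, Complex.normSq_apply]
  simp [P, GaussianInt.toComplex_def]
  norm_num

/-- the sequence `n! / π^(n²)` -/
noncomputable def yseq (n : ℕ) : E := (n.factorial : E) * (SE.θ) ^ (n ^ 2)

lemma yseq_ne (n : ℕ) : yseq n ≠ 0 := by
  unfold yseq
  have h1 : ((n.factorial : ℕ) : E) ≠ 0 := by
    exact_mod_cast n.factorial_ne_zero
  have h2 : SE.θ ≠ 0 := inv_ne_zero P_ne
  exact mul_ne_zero h1 (pow_ne_zero _ h2)

lemma norm_yseq_le (n : ℕ) (hn : 1 ≤ n) : ‖((yseq n : E) : ℂ)‖ ≤ n / 2 ^ n := by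
  have h1 : ‖((yseq n : E) : ℂ)‖ = (n.factorial : ℝ) * (1 / Real.sqrt 5) ^ (n ^ 2) := by
    have : ((yseq n : E) : ℂ) = ((n.factorial : ℕ) : ℂ) * (((SE.ι P : E) : ℂ)⁻¹) ^ (n ^ 2) := by
      simp [yseq, Emb.θ]
    rw [this, norm_mul, norm_pow, norm_inv, norm_ιP, Complex.norm_natCast, one_div]
  rw [h1]
  have h5 : (1 / Real.sqrt 5) ≤ 1 / 2 := by
    apply one_div_le_one_div_of_le (by norm_num)
    apply Real.le_sqrt_of_sq_le; norm_num
  have h6 : (n.factorial : ℝ) ≤ (n : ℝ) ^ n := by exact_mod_cast Nat.factorial_le_pow n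
  have h7 : (1 / Real.sqrt 5) ^ (n ^ 2) ≤ (1 / 2) ^ (n ^ 2) :=
    pow_le_pow_left₀ (by positivity) h5 _
  calc (n.factorial : ℝ) * (1 / Real.sqrt 5) ^ (n ^ 2) ≤ (n : ℝ) ^ n * (1 / 2) ^ (n ^ 2) := by
        gcongr
    _ = ((n : ℝ) / 2 ^ n) ^ n := by
        rw [div_pow (n : ℝ), ← pow_mul, sq, one_div, inv_pow, div_eq_mul_inv]
    _ ≤ (n : ℝ) / 2 ^ n := by
        have h8 : (n : ℝ) / 2 ^ n ≤ 1 := by
          rw [div_le_one (by positivity)]
          exact_mod_cast (Nat.lt_two_pow_self (n := n)).le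
        exact pow_le_of_le_one (by positivity) h8 (by omega)

lemma yseq_tendsto : Tendsto (fun n => ((yseq n : E) : ℂ)) atTop (𝓝 0) := by
  rw [tendsto_zero_iff_norm_tendsto_zero]
  have h : Tendsto (fun n : ℕ => (n : ℝ) / 2 ^ n) atTop (𝓝 0) := by
    have := tendsto_pow_const_div_const_pow_of_one_lt 1 (r := (2 : ℝ)) (by norm_num)
    simpa using this
  refine squeeze_zero' (Eventually.of_forall fun n => norm_nonneg _) ?_ h
  filter_upwards [eventually_ge_atTop 1] with n hn
  exact norm_yseq_le n hn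

lemma eps_tendsto (η : ℂ) (a : E) :
    Tendsto (fun n => ((SE.eps η (yseq n * a) : Circle) : ℂ)) atTop (𝓝 1) := by
  have h1 : Tendsto (fun n => (η * ((yseq n : E) : ℂ) * (a : ℂ)).re) atTop (𝓝 0) := by
    have := ((yseq_tendsto.const_mul η).mul_const (a : ℂ))
    rw [mul_zero, zero_mul] at this
    have h2 := (Complex.continuous_re.tendsto _).comp this
    rw [Complex.zero_re] at h2
    exact h2
  have h2 : Continuous (fun t : ℝ => ((Real.fourierChar t : Circle) : ℂ)) := by
    exact continuous_subtype_val.comp Real.continuous_fourierChar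
  have h3 := (h2.tendsto 0).comp h1
  have h4 : ((Real.fourierChar (0 : ℝ) : Circle) : ℂ) = 1 := by simp
  rw [h4] at h3
  refine h3.congr fun n => ?_
  show ((Real.fourierChar _ : Circle) : ℂ) = ((Real.fourierChar _ : Circle) : ℂ)
  congr 2
  rw [map_mul]
  simp only [σ_apply, mul_assoc]

/-- every element of `E` has a natural number denominator. -/
lemma exists_den (a : E) : ∃ d : ℕ, 0 < d ∧ ∃ b : GaussianInt, (d : E) * a = gι b := by
  obtain ⟨⟨p, hp⟩, q, hq⟩ := mem_E.1 a.2
  refine ⟨p.den * q.den, Nat.mul_pos p.pos q.pos, ⟨p.num * q.den, q.num * p.den⟩, ?_⟩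
  apply Subtype.ext
  have h2 : ((gι ⟨p.num * q.den, q.num * p.den⟩ : E) : ℂ) =
    GaussianInt.toComplex ⟨p.num * q.den, q.num * p.den⟩ := rfl
  rw [h2, GaussianInt.toComplex_def]
  have hp' : (p : ℝ) * p.den = p.num := by exact_mod_cast Rat.mul_den_eq_num p
  have hq' : (q : ℝ) * q.den = q.num := by exact_mod_cast Rat.mul_den_eq_num q
  apply Complex.ext
  · simp [← hp]
    linear_combination (q.den : ℝ) * hp'
  · simp [← hq]
    linear_combination (p.den : ℝ) * hq'

theorem structured_limSet {χ : Dual E} (h : SE.IsStructured χ) : χ ∈ LimSet yseq := by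
  obtain ⟨η, N, hN, hstr⟩ := h
  intro a
  obtain ⟨d, hd, b, hb⟩ := exists_den a
  refine (eps_tendsto η a).congr' ?_
  filter_upwards [eventually_ge_atTop (N * d)] with n hn
  have hdvd : N * d ∣ n.factorial := (Nat.dvd_factorial (Nat.mul_pos hN hd) hn)
  obtain ⟨k, hk⟩ := hdvd
  set x : E := (k : E) * gι b * SE.θ ^ (n ^ 2) with hx
  have e : yseq n * a = (N : E) * x := by
    unfold yseq
    rw [hk, hx, ← hb]; push_cast; ring
  have hlat : SE.InLat (P ^ (n ^ 2) * 1) x := by
    refine ⟨(k : GaussianInt) * b, ?_⟩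
    rw [mul_one, hx, map_pow, Emb.θ]
    have : SE.ι P ^ n ^ 2 * ((k : E) * gι b * (SE.ι P)⁻¹ ^ n ^ 2) =
        (k : E) * gι b * (SE.ι P * (SE.ι P)⁻¹) ^ n ^ 2 := by rw [mul_pow]; ring
    rw [this, mul_inv_cancel₀ P_ne, one_pow, mul_one, map_mul, map_natCast]
    rfl
  have := hstr (n ^ 2) x hlat
  rw [e, this]


lemma invariant_of_rotInv {μ : Measure (Dual E)} (h : RotInv μ) : SE.Invariant μ :=
  fun u hu => h u hu





end Crest.Agent.R40.T1EGlue
end

-- ▼ part R40/T1R2P1a
section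

/-!
# R40 / T1 / R2 / P1a : the maximal inequality for visits, and the Borel–Cantelli name lemma
-/

set_option autoImplicit false

namespace Crest.Agent.R40.T1R2

open MeasureTheory Filter
open scoped Topology

section Maximal

variable {X : Type*}

/-- `max_{0 ≤ n ≤ N} S_n f` for the Birkhoff sums `S_n f` -/
noncomputable def maxSum (T : X → X) (f : X → ℝ) : ℕ → X → ℝ
  | 0 => fun _ => 0
  | N + 1 => fun x => max 0 (f x + maxSum T f N (T x))

theorem maxSum_nonneg (T : X → X) (f : X → ℝ) (N : ℕ) (x : X) : 0 ≤ maxSum T f N x := by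
  cases N with
  | zero => exact le_rfl
  | succ N => exact le_max_left _ _

theorem maxSum_mono_succ (T : X → X) (f : X → ℝ) (N : ℕ) (x : X) :
    maxSum T f N x ≤ maxSum T f (N + 1) x := by
  induction N generalizing x with
  | zero => exact maxSum_nonneg T f 1 x
  | succ N ih =>
    show max 0 (f x + maxSum T f N (T x)) ≤ max 0 (f x + maxSum T f (N + 1) (T x))
    exact max_le_max le_rfl (by linarith [ih (T x)])

theorem maxSum_mono (T : X → X) (f : X → ℝ) (x : X) : Monotone fun N => maxSum T f N x :=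
  monotone_nat_of_le_succ fun N => maxSum_mono_succ T f N x

theorem birkhoffSum_le_maxSum (T : X → X) (f : X → ℝ) (N : ℕ) (x : X) :
    birkhoffSum T f N x ≤ maxSum T f N x := by
  induction N generalizing x with
  | zero => simp [birkhoffSum_zero, maxSum]
  | succ N ih =>
    rw [birkhoffSum_succ']
    exact le_trans (by linarith [ih (T x)]) (le_max_right _ _)

theorem measurable_maxSum [MeasurableSpace X] {T : X → X} (hT : Measurable T) {f : X → ℝ} (hf : Measurable f) (N : ℕ) :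
    Measurable (maxSum T f N) := by
  induction N with
  | zero => exact measurable_const
  | succ N ih => exact measurable_const.max (hf.add (ih.comp hT))

theorem maxSum_le {T : X → X} {f : X → ℝ} {C : ℝ} (hf : ∀ x, |f x| ≤ C) (N : ℕ) (x : X) :
    maxSum T f N x ≤ N * C := by
  have hC : 0 ≤ C := le_trans (abs_nonneg _) (hf x)
  induction N generalizing x with
  | zero => simp [maxSum]
  | succ N ih =>
    show max 0 (f x + maxSum T f N (T x)) ≤ _
    apply max_le
    · positivity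
    · push_cast
      have := ih (T x)
      have := (abs_le.1 (hf x)).2
      linarith

/-- Garsia's proof of the maximal ergodic theorem for bounded functions -/
theorem garsia [MeasurableSpace X] {ν : Measure X} [IsFiniteMeasure ν] {T : X → X} (hT : MeasurePreserving T ν ν)
    {f : X → ℝ} (hf : Measurable f) {C : ℝ} (hC : ∀ x, |f x| ≤ C) (N : ℕ) :
    0 ≤ ∫ x in {x | 0 < maxSum T f N x}, f x ∂ν := by
  have hfi : Integrable f ν :=
    Integrable.of_bound hf.aestronglyMeasurable C (Eventually.of_forall fun x => hC x)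
  cases N with
  | zero => simp [maxSum]
  | succ N =>
    set M := maxSum T f (N + 1) with hM
    have hMm : Measurable M := measurable_maxSum hT.measurable hf (N + 1)
    have hMi : Integrable M ν := by
      refine Integrable.of_bound hMm.aestronglyMeasurable ((N + 1 : ℕ) * C)
        (Eventually.of_forall fun x => ?_)
      rw [Real.norm_eq_abs, abs_of_nonneg (maxSum_nonneg T f (N + 1) x)]
      exact maxSum_le hC (N + 1) x
    set A := {x | 0 < M x} with hA
    have hAm : MeasurableSet A := measurableSet_lt measurable_const hMm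
    have hMTi : Integrable (fun x => M (T x)) ν := hT.integrable_comp_of_integrable hMi
    have h1 : ∫ x in A, (M x - M (T x)) ∂ν ≤ ∫ x in A, f x ∂ν := by
      apply setIntegral_mono_on (hMi.sub hMTi).integrableOn hfi.integrableOn hAm
      intro x hx
      have hx' : 0 < max 0 (f x + maxSum T f N (T x)) := hx
      have hpos : 0 < f x + maxSum T f N (T x) := by
        rcases lt_max_iff.1 hx' with h | h
        · exact absurd h (lt_irrefl _)
        · exact h
      have hMx : M x = f x + maxSum T f N (T x) := max_eq_right hpos.le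
      have hle : maxSum T f N (T x) ≤ M (T x) := maxSum_mono_succ T f N (T x)
      show M x - M (T x) ≤ f x
      linarith
    have h2 : ∫ x in A, (M x - M (T x)) ∂ν = ∫ x in A, M x ∂ν - ∫ x in A, M (T x) ∂ν :=
      integral_sub hMi.integrableOn hMTi.integrableOn
    have h3 : ∫ x in A, M x ∂ν = ∫ x, M x ∂ν := by
      apply setIntegral_eq_integral_of_forall_compl_eq_zero
      intro x hx
      have : ¬ 0 < M x := hx
      exact le_antisymm (not_lt.1 this) (maxSum_nonneg T f (N + 1) x)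
    have h4 : ∫ x in A, M (T x) ∂ν ≤ ∫ x, M (T x) ∂ν :=
      setIntegral_le_integral hMTi (Eventually.of_forall fun x => maxSum_nonneg T f (N + 1) (T x))
    have h5 : ∫ x, M (T x) ∂ν = ∫ x, M x ∂ν := by
      have := integral_map (μ := ν) hT.measurable.aemeasurable (f := M)
        (by rw [hT.map_eq]; exact hMm.aestronglyMeasurable)
      rw [hT.map_eq] at this
      exact this.symm
    linarith

/-- maximal inequality for the frequency of visits to a set -/
theorem maximal_visits [MeasurableSpace X] {ν : Measure X} [IsFiniteMeasure ν] {T : X → X}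
    (hT : MeasurePreserving T ν ν) {B : Set X} (hB : MeasurableSet B) {l : ℝ} (hl : 0 < l) :
    ν.real {x | ∃ n : ℕ, l * n < birkhoffSum T (B.indicator fun _ => (1 : ℝ)) n x} ≤
      l⁻¹ * ν.real B := by
  classical
  set f : X → ℝ := fun x => B.indicator (fun _ => (1 : ℝ)) x - l with hf
  have hfm : Measurable f := (measurable_const.indicator hB).sub measurable_const
  have hfC : ∀ x, |f x| ≤ 1 + l := by
    intro x
    by_cases hx : x ∈ B
    · simp only [hf, Set.indicator_of_mem hx]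
      rw [abs_le]; constructor <;> linarith
    · simp only [hf, Set.indicator_of_notMem hx]
      rw [abs_le]; constructor <;> linarith
  have hsum : ∀ n x, birkhoffSum T f n x =
      birkhoffSum T (B.indicator fun _ => (1 : ℝ)) n x - l * n := by
    intro n x
    simp only [birkhoffSum, hf, Finset.sum_sub_distrib, Finset.sum_const, Finset.card_range,
      nsmul_eq_mul]
    ring
  have hbd : ∀ N, ν.real {x | 0 < maxSum T f N x} ≤ l⁻¹ * ν.real B := by
    intro N
    have h := garsia hT hfm hfC N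
    set A := {x | 0 < maxSum T f N x} with hA
    have hAm : MeasurableSet A :=
      measurableSet_lt measurable_const (measurable_maxSum hT.measurable hfm N)
    have e1 : ∫ x in A, f x ∂ν = ν.real (B ∩ A) - l * ν.real A := by
      have : ∫ x in A, f x ∂ν = ∫ x in A, B.indicator (fun _ => (1 : ℝ)) x ∂ν - ∫ _ in A, l ∂ν := by
        apply integral_sub
        · exact ((integrable_const (1 : ℝ)).indicator hB)
        · exact integrable_const l
      rw [this, integral_indicator hB]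
      simp only [integral_const, smul_eq_mul, mul_one]
      rw [measureReal_restrict_apply_univ, measureReal_restrict_apply_univ,
        measureReal_restrict_apply hB]
      ring
    rw [e1] at h
    have h2 : ν.real (B ∩ A) ≤ ν.real B := measureReal_mono Set.inter_subset_left
    rw [inv_mul_eq_div, le_div_iff₀ hl]
    linarith
  have hmono : Monotone fun N => {x | 0 < maxSum T f N x} := by
    intro a b hab x hx
    exact lt_of_lt_of_le hx (maxSum_mono T f x hab)
  have hU : ν.real (⋃ N, {x | 0 < maxSum T f N x}) ≤ l⁻¹ * ν.real B := by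
    have ht := tendsto_measure_iUnion_atTop (μ := ν) hmono
    have ht' : Tendsto (fun N => ν.real {x | 0 < maxSum T f N x}) atTop
        (𝓝 (ν.real (⋃ N, {x | 0 < maxSum T f N x}))) :=
      (ENNReal.tendsto_toReal (measure_ne_top _ _)).comp ht
    exact le_of_tendsto' ht' hbd
  refine le_trans (measureReal_mono ?_) hU
  rintro x ⟨n, hn⟩
  refine Set.mem_iUnion.2 ⟨n, ?_⟩
  have := birkhoffSum_le_maxSum T f n x
  rw [hsum] at this
  have h0 : 0 < maxSum T f n x := by linarith
  exact h0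

end Maximal

section Names

variable {X : Type*} [MeasurableSpace X]

/-- Borel–Cantelli: if `nm n : X → Nm n` are finite valued measurable names with weights `W n`
of total mass `≤ 1`, then a.e. `x` has a class of measure `≥ r^n W(name)` for all large `n`. -/
theorem names_borel_cantelli {ν : Measure X} [IsFiniteMeasure ν] {Nm : ℕ → Type*}
    [∀ n, Fintype (Nm n)] (nm : ∀ n, X → Nm n)
    (W : ∀ n, Nm n → ℝ) (hW : ∀ n a, 0 ≤ W n a) (hW1 : ∀ n, ∑ a, W n a ≤ 1)
    {r : ℝ} (hr0 : 0 ≤ r) (hr1 : r < 1) :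
    ∀ᵐ x ∂ν, ∀ᶠ n in atTop, r ^ n * W n (nm n x) ≤ ν.real (nm n ⁻¹' {nm n x}) := by
  classical
  set Bad : ℕ → Set X := fun n => {x | ν.real (nm n ⁻¹' {nm n x}) < r ^ n * W n (nm n x)} with hBad
  have hle : ∀ n, ν (Bad n) ≤ ENNReal.ofReal (r ^ n) := by
    intro n
    have hsub : Bad n ⊆ ⋃ a ∈ (Finset.univ.filter fun a => ν.real (nm n ⁻¹' {a}) < r ^ n * W n a),
        nm n ⁻¹' {a} := by
      intro x hx
      simp only [Finset.mem_filter, Finset.mem_univ, true_and, Set.mem_iUnion]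
      exact ⟨nm n x, hx, rfl⟩
    have h1 : ν.real (Bad n) ≤ r ^ n := by
      calc ν.real (Bad n) ≤ ν.real (⋃ a ∈ (Finset.univ.filter
              fun a => ν.real (nm n ⁻¹' {a}) < r ^ n * W n a), nm n ⁻¹' {a}) :=
            measureReal_mono hsub (measure_ne_top _ _)
        _ ≤ ∑ a ∈ (Finset.univ.filter fun a => ν.real (nm n ⁻¹' {a}) < r ^ n * W n a),
              ν.real (nm n ⁻¹' {a}) := measureReal_biUnion_finset_le _ _
        _ ≤ ∑ a ∈ (Finset.univ.filter fun a => ν.real (nm n ⁻¹' {a}) < r ^ n * W n a),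
              r ^ n * W n a := by
            apply Finset.sum_le_sum
            intro a ha
            exact (Finset.mem_filter.1 ha).2.le
        _ ≤ ∑ a, r ^ n * W n a := by
            apply Finset.sum_le_sum_of_subset_of_nonneg (Finset.filter_subset _ _)
            intro a _ _
            exact mul_nonneg (pow_nonneg hr0 n) (hW n a)
        _ = r ^ n * ∑ a, W n a := by rw [Finset.mul_sum]
        _ ≤ r ^ n * 1 := mul_le_mul_of_nonneg_left (hW1 n) (pow_nonneg hr0 n)
        _ = r ^ n := mul_one _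
    rw [← ENNReal.ofReal_toReal (measure_ne_top ν (Bad n))]
    exact ENNReal.ofReal_le_ofReal h1
  have hsum : ∑' n, ν (Bad n) ≠ ⊤ := by
    have h2 : Summable fun n : ℕ => r ^ n := summable_geometric_of_lt_one hr0 hr1
    have h3 : ∑' n, ENNReal.ofReal (r ^ n) ≠ ⊤ := h2.tsum_ofReal_ne_top
    exact ne_top_of_le_ne_top h3 (ENNReal.tsum_le_tsum hle)
  have := ae_eventually_notMem hsum
  filter_upwards [this] with x hx
  filter_upwards [hx] with n hn
  exact not_lt.1 hn

end Names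

end Crest.Agent.R40.T1R2
private theorem rz_fd1097527f : type_of% @_root_.Crest.Agent.R40.T1R2.maxSum.eq_def := @_root_.Crest.Agent.R40.T1R2.maxSum.eq_def -- L19
private theorem rz_d9bd5d376e : type_of% @_root_.Crest.Agent.R40.T1R2.maxSum.eq_1 := @_root_.Crest.Agent.R40.T1R2.maxSum.eq_1 -- L19
end

-- ▼ part R40/T1R2P1c
section

/-!
# R40 / T1 / R2 / P1c : names, classes, and the proof of `TargetP1`
-/

set_option autoImplicit false

namespace Crest.Agent.R40.T1R2

open MeasureTheory Filter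
open scoped FourierTransform Topology

section Cells

/-- cell of a real number of `[-1,1]` -/
noncomputable def cell1 (k : ℕ) (x : ℝ) : Fin (2 * k + 1) :=
  ⟨min ⌊(k : ℝ) * (x + 1)⌋₊ (2 * k), by omega⟩

theorem measurable_cell1 (k : ℕ) : Measurable (cell1 k) := by
  apply measurable_to_countable'
  intro i
  have : cell1 k ⁻¹' {i} = (fun x : ℝ => min ⌊(k : ℝ) * (x + 1)⌋₊ (2 * k)) ⁻¹' {(i : ℕ)} := by
    ext x
    simp [cell1, Fin.ext_iff]
  rw [this]
  have h1 : Measurable (fun x : ℝ => (k : ℝ) * (x + 1)) := by fun_prop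
  have hm : Measurable (fun x : ℝ => min ⌊(k : ℝ) * (x + 1)⌋₊ (2 * k)) :=
    h1.nat_floor.min measurable_const
  exact hm (measurableSet_singleton _)

theorem cell1_close {k : ℕ} {x y : ℝ} (hx : |x| ≤ 1) (hy : |y| ≤ 1)
    (h : cell1 k x = cell1 k y) : |(k : ℝ) * (x - y)| ≤ 1 := by
  have key : ∀ z : ℝ, |z| ≤ 1 → min ⌊(k : ℝ) * (z + 1)⌋₊ (2 * k) = ⌊(k : ℝ) * (z + 1)⌋₊ := by
    intro z hz
    apply min_eq_left
    apply Nat.floor_le_of_le
    push_cast
    have := (abs_le.1 hz).2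
    have hk : (0 : ℝ) ≤ k := Nat.cast_nonneg k
    nlinarith
  have h' : ⌊(k : ℝ) * (x + 1)⌋₊ = ⌊(k : ℝ) * (y + 1)⌋₊ := by
    have := congrArg Fin.val h
    simp only [cell1] at this
    rw [key x hx, key y hy] at this
    exact this
  have hk : (0 : ℝ) ≤ k := Nat.cast_nonneg k
  have hx0 : 0 ≤ (k : ℝ) * (x + 1) := mul_nonneg hk (by linarith [(abs_le.1 hx).1])
  have hy0 : 0 ≤ (k : ℝ) * (y + 1) := mul_nonneg hk (by linarith [(abs_le.1 hy).1])
  have a1 := Nat.floor_le hx0
  have a2 := Nat.lt_floor_add_one ((k : ℝ) * (x + 1))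
  have a3 := Nat.floor_le hy0
  have a4 := Nat.lt_floor_add_one ((k : ℝ) * (y + 1))
  rw [h'] at a1 a2
  rw [abs_le]
  constructor <;> linarith

/-- cells of the square -/
abbrev Cell (k : ℕ) := Fin (2 * k + 1) × Fin (2 * k + 1)

noncomputable def cell (k : ℕ) (z : ℂ) : Cell k := (cell1 k z.re, cell1 k z.im)

theorem measurable_cell (k : ℕ) : Measurable (cell k) :=
  ((measurable_cell1 k).comp Complex.measurable_re).prodMk
    ((measurable_cell1 k).comp Complex.measurable_im)

theorem cell_close {k : ℕ} {z w : ℂ} (hz : ‖z‖ = 1) (hw : ‖w‖ = 1) (h : cell k z = cell k w) :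
    (k : ℝ) ^ 2 * ‖z - w‖ ^ 2 ≤ 2 := by
  have h1 := congrArg Prod.fst h
  have h2 := congrArg Prod.snd h
  simp only [cell] at h1 h2
  have b1 := cell1_close (by rw [← hz]; exact Complex.abs_re_le_norm z)
    (by rw [← hw]; exact Complex.abs_re_le_norm w) h1
  have b2 := cell1_close (by rw [← hz]; exact Complex.abs_im_le_norm z)
    (by rw [← hw]; exact Complex.abs_im_le_norm w) h2
  rw [Complex.sq_norm, Complex.normSq_apply, Complex.sub_re, Complex.sub_im]
  have c1 : ((k : ℝ) * (z.re - w.re)) ^ 2 ≤ 1 := by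
    rw [← sq_abs]; nlinarith [abs_nonneg ((k : ℝ) * (z.re - w.re))]
  have c2 : ((k : ℝ) * (z.im - w.im)) ^ 2 ≤ 1 := by
    rw [← sq_abs]; nlinarith [abs_nonneg ((k : ℝ) * (z.im - w.im))]
  nlinarith

end Cells

section Angles

theorem norm_fourierChar_sub_one_le (x : ℝ) : ‖((𝐞 x : Circle) : ℂ) - 1‖ ≤ 2 * Real.pi * |x| := by
  have h : ((𝐞 x : Circle) : ℂ) = Complex.exp (Complex.I * ((2 * Real.pi * x : ℝ) : ℂ)) := by
    rw [Real.fourierChar_apply]
    congr 1
    push_cast
    ring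
  rw [h]
  refine le_trans Real.norm_exp_I_mul_ofReal_sub_one_le ?_
  rw [Real.norm_eq_abs, abs_mul, abs_mul, abs_of_pos Real.pi_pos]
  norm_num

/-- a unit number close to another one is obtained by multiplication by `e(α)`, `α` small -/
theorem exists_angle {z w : Circle} {δ : ℝ} (h : ‖(z : ℂ) - (w : ℂ)‖ ≤ δ) :
    ∃ α : ℝ, |α| ≤ δ ∧ z = w * 𝐞 α := by
  set v : Circle := w⁻¹ * z with hv
  have hvn : ‖(v : ℂ)‖ = 1 := Circle.norm_coe _
  have hd : ‖(v : ℂ) - 1‖ ≤ δ := by
    have e : (v : ℂ) - 1 = (w : ℂ)⁻¹ * ((z : ℂ) - (w : ℂ)) := by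
      rw [hv]
      have hw0 : (w : ℂ) ≠ 0 := Circle.coe_ne_zero w
      push_cast
      field_simp
    rw [e, norm_mul, norm_inv, Circle.norm_coe, inv_one, one_mul]
    exact h
  refine ⟨Complex.arg v / (2 * Real.pi), ?_, ?_⟩
  · have h1 : |Complex.arg v| ≤ Real.pi / 2 * ‖(v : ℂ) - 1‖ := by
      have := Complex.angle_le_mul_norm_sub hvn (norm_one : ‖(1 : ℂ)‖ = 1)
      rwa [Complex.angle_one_right (Circle.coe_ne_zero v)] at this
    rw [abs_div, abs_of_pos (by positivity : (0 : ℝ) < 2 * Real.pi), div_le_iff₀ (by positivity)]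
    have hδ : 0 ≤ δ := le_trans (norm_nonneg _) hd
    have hp := Real.pi_pos
    nlinarith [mul_le_mul_of_nonneg_left hd hp.le]
  · have hz : z = w * v := by rw [hv, mul_inv_cancel_left]
    rw [hz]
    congr 1
    apply Circle.coe_injective
    rw [Real.fourierChar_apply]
    have : (2 * Real.pi * (Complex.arg v / (2 * Real.pi)) : ℝ) = Complex.arg v := by
      field_simp
    rw [this]
    conv_lhs => rw [← Complex.norm_mul_exp_arg_mul_I (v : ℂ)]
    rw [hvn]
    simp

end Angles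

namespace Emb

variable {E : Type*} [Field E] (S : Emb E)

theorem sq_norm_toComplex (z : GaussianInt) : ‖GaussianInt.toComplex z‖ ^ 2 = (z.norm : ℝ) := by
  rw [Complex.sq_norm, GaussianInt.intCast_real_norm]

theorem norm_P_pos : 0 < ‖GaussianInt.toComplex P‖ :=
  norm_pos_iff.2 (by rw [Ne, GaussianInt.toComplex_eq_zero]; exact P_ne_zero)

theorem norm_P_eq_norm_Pb : ‖GaussianInt.toComplex Pb‖ = ‖GaussianInt.toComplex P‖ := by
  have h : ‖GaussianInt.toComplex Pb‖ ^ 2 = ‖GaussianInt.toComplex P‖ ^ 2 := by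
    rw [sq_norm_toComplex, sq_norm_toComplex]
    congr 1
  exact (sq_eq_sq₀ (norm_nonneg _) (norm_nonneg _)).1 h

theorem one_le_norm_toComplex {m : GaussianInt} (hm : m ≠ 0) : 1 ≤ ‖GaussianInt.toComplex m‖ := by
  have h : (1 : ℝ) ≤ ‖GaussianInt.toComplex m‖ ^ 2 := by
    rw [sq_norm_toComplex]
    have := GaussianInt.norm_pos.2 hm
    exact_mod_cast this
  nlinarith [norm_nonneg (GaussianInt.toComplex m)]

theorem norm_σ_u0 : ‖S.σ S.u0‖ = 1 := by
  rw [u0, map_div₀, S.compat, S.compat, norm_div, norm_P_eq_norm_Pb, div_self norm_P_pos.ne']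

theorem norm_σ_t_le (j : ℕ) : ‖S.σ (S.t j)‖ ≤ 1 := by
  rw [t, map_mul, map_pow, norm_mul, norm_pow, S.norm_σ_u0, one_pow, one_mul, θ, map_inv₀,
    norm_inv, S.compat]
  exact inv_le_one_of_one_le₀ (one_le_norm_toComplex P_ne_zero)

theorem σ_I : S.σ S.I = Complex.I := by
  rw [I, S.compat]
  simp [GaussianInt.toComplex_def]

/-- the points `u₀^j / m` and `u₀^j i / m` -/
def pt1 (m : GaussianInt) (j : ℕ) : E := S.u0 ^ j * (S.ι m)⁻¹
def pt2 (m : GaussianInt) (j : ℕ) : E := S.u0 ^ j * (S.I * (S.ι m)⁻¹)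

theorem inLat_pt1 {m : GaussianInt} (hm : m ≠ 0) (j : ℕ) : S.InLat (P ^ j * m) (S.pt1 m j) := by
  refine ⟨Pb ^ j, ?_⟩
  have hP : S.ι P ≠ 0 := S.ι_ne_zero P_ne_zero
  have hm' : S.ι m ≠ 0 := S.ι_ne_zero hm
  simp only [pt1, u0, map_mul, map_pow, div_pow]
  field_simp

theorem inLat_pt2 {m : GaussianInt} (hm : m ≠ 0) (j : ℕ) : S.InLat (P ^ j * m) (S.pt2 m j) := by
  refine ⟨Pb ^ j * ⟨0, 1⟩, ?_⟩
  have hP : S.ι P ≠ 0 := S.ι_ne_zero P_ne_zero
  have hm' : S.ι m ≠ 0 := S.ι_ne_zero hm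
  simp only [pt2, u0, I, map_mul, map_pow, div_pow]
  field_simp

theorem norm_σ_pt1_le {m : GaussianInt} (hm : m ≠ 0) (j : ℕ) : ‖S.σ (S.pt1 m j)‖ ≤ 1 := by
  rw [pt1, map_mul, map_pow, norm_mul, norm_pow, S.norm_σ_u0, one_pow, one_mul, map_inv₀,
    norm_inv, S.compat]
  exact inv_le_one_of_one_le₀ (one_le_norm_toComplex hm)

theorem norm_σ_pt2_le {m : GaussianInt} (hm : m ≠ 0) (j : ℕ) : ‖S.σ (S.pt2 m j)‖ ≤ 1 := by
  rw [pt2, map_mul, map_pow, norm_mul, norm_pow, S.norm_σ_u0, one_pow, one_mul, map_mul, norm_mul,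
    S.σ_I, Complex.norm_I, one_mul, map_inv₀, norm_inv, S.compat]
  exact inv_le_one_of_one_le₀ (one_le_norm_toComplex hm)

theorem norm_eps_sub_one_le {s : ℂ} {a : E} (ha : ‖S.σ a‖ ≤ 1) :
    ‖((S.eps s a : Circle) : ℂ) - 1‖ ≤ 2 * Real.pi * ‖s‖ := by
  rw [S.eps_apply]
  refine le_trans (norm_fourierChar_sub_one_le _) ?_
  have h1 : |(s * S.σ a).re| ≤ ‖s‖ := by
    refine le_trans (Complex.abs_re_le_norm _) ?_
    rw [norm_mul]
    nlinarith [norm_nonneg s]
  have hp := Real.pi_pos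
  nlinarith

theorem Rel.norm_sub_le {g : GaussianInt} {χ χ' : AddChar E Circle} {s : ℂ}
    (h : S.Rel g χ χ' s) {a : E} (ha : S.InLat g a) (ha' : ‖S.σ a‖ ≤ 1) :
    ‖((χ' a : Circle) : ℂ) - ((χ a : Circle) : ℂ)‖ ≤ 2 * Real.pi * ‖s‖ := by
  rw [h a ha]
  have : (((χ a * S.eps s a : Circle)) : ℂ) - ((χ a : Circle) : ℂ) =
      ((χ a : Circle) : ℂ) * (((S.eps s a : Circle) : ℂ) - 1) := by
    push_cast; ring
  rw [this, norm_mul, Circle.norm_coe, one_mul]
  exact S.norm_eps_sub_one_le ha'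

/-- the initial step -/
theorem rel_init {m : GaussianInt} (hm : m ≠ 0) {ρ : ℝ} (hρ : 0 < ρ) :
    ∃ k : ℕ, ∀ χ χ' : AddChar E Circle,
      cell k ((χ (S.ι m)⁻¹ : Circle) : ℂ) = cell k ((χ' (S.ι m)⁻¹ : Circle) : ℂ) →
      cell k ((χ (S.I * (S.ι m)⁻¹) : Circle) : ℂ) = cell k ((χ' (S.I * (S.ι m)⁻¹) : Circle) : ℂ) →
      ∃ s : ℂ, ‖s‖ ≤ ρ ∧ S.Rel m χ χ' s := by
  set M := ‖GaussianInt.toComplex m‖ with hM
  have hM1 : 1 ≤ M := one_le_norm_toComplex hm
  obtain ⟨k, hk⟩ := exists_nat_gt (4 * M / ρ)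
  have hkpos : (0 : ℝ) < k := lt_trans (by positivity) hk
  refine ⟨k, fun χ χ' h1 h2 => ?_⟩
  have hkρ : 4 * M < k * ρ := by rwa [div_lt_iff₀ hρ] at hk
  have hclose : ∀ z w : ℂ, ‖z‖ = 1 → ‖w‖ = 1 → cell k z = cell k w → ‖w - z‖ ≤ ρ / (2 * M) := by
    intro z w hz hw hzw
    have hc := cell_close hz hw hzw
    rw [norm_sub_rev, le_div_iff₀ (by positivity)]
    have h3 : (k : ℝ) * ‖z - w‖ ≤ 2 := by
      nlinarith [mul_nonneg hkpos.le (norm_nonneg (z - w))]
    have h4 : ‖z - w‖ * (4 * M) ≤ ‖z - w‖ * (k * ρ) :=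
      mul_le_mul_of_nonneg_left hkρ.le (norm_nonneg _)
    have h5 : ‖z - w‖ * (k * ρ) ≤ 2 * ρ := by
      calc ‖z - w‖ * (k * ρ) = (k * ‖z - w‖) * ρ := by ring
        _ ≤ 2 * ρ := mul_le_mul_of_nonneg_right h3 hρ.le
    linarith
  obtain ⟨α, hα, hα'⟩ := exists_angle (hclose _ _ (Circle.norm_coe _) (Circle.norm_coe _) h1)
  obtain ⟨β, hβ, hβ'⟩ := exists_angle (hclose _ _ (Circle.norm_coe _) (Circle.norm_coe _) h2)
  have hm' : S.ι m ≠ 0 := S.ι_ne_zero hm
  have hmc : GaussianInt.toComplex m ≠ 0 := by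
    rw [Ne, GaussianInt.toComplex_eq_zero]; exact hm
  refine ⟨GaussianInt.toComplex m * ((α : ℂ) - (β : ℂ) * Complex.I), ?_, ?_⟩
  · rw [norm_mul, ← hM]
    have h3 : ‖(α : ℂ) - (β : ℂ) * Complex.I‖ ≤ |α| + |β| := by
      refine le_trans (norm_sub_le _ _) ?_
      rw [norm_mul, Complex.norm_I, mul_one, Complex.norm_real, Complex.norm_real,
        Real.norm_eq_abs, Real.norm_eq_abs]
    have h4 : |α| + |β| ≤ ρ / M := by
      have : ρ / M = ρ / (2 * M) + ρ / (2 * M) := by field_simp; ring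
      rw [this]; linarith
    calc M * ‖(α : ℂ) - (β : ℂ) * Complex.I‖ ≤ M * (ρ / M) :=
          mul_le_mul_of_nonneg_left (h3.trans h4) (by linarith)
      _ = ρ := by field_simp
  · rintro a ⟨b, hb⟩
    set s : ℂ := GaussianInt.toComplex m * ((α : ℂ) - (β : ℂ) * Complex.I) with hs
    have ha : a = b.re • (S.ι m)⁻¹ + b.im • (S.I * (S.ι m)⁻¹) := by
      have hb' : S.ι b = (b.re : E) + (b.im : E) * S.I := by
        have : b = (b.re : GaussianInt) + (b.im : GaussianInt) * ⟨0, 1⟩ := by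
          rw [Zsqrtd.ext_iff]; simp
        conv_lhs => rw [this]
        rw [map_add, map_mul, map_intCast, map_intCast, I]
      have : a = S.ι b * (S.ι m)⁻¹ := by
        rw [← hb]; field_simp
      rw [this, hb', zsmul_eq_mul, zsmul_eq_mul]; ring
    have e1 : S.eps s (S.ι m)⁻¹ = 𝐞 α := by
      rw [S.eps_apply, map_inv₀, S.compat, hs]
      congr 1
      rw [mul_comm, ← mul_assoc, inv_mul_cancel₀ hmc, one_mul]
      simp
    have e2 : S.eps s (S.I * (S.ι m)⁻¹) = 𝐞 β := by
      rw [S.eps_apply, map_mul, map_inv₀, S.compat, S.σ_I, hs]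
      congr 1
      have : GaussianInt.toComplex m * ((α : ℂ) - (β : ℂ) * Complex.I) *
          (Complex.I * (GaussianInt.toComplex m)⁻¹) = (α : ℂ) * Complex.I + β := by
        field_simp
        ring_nf
        rw [Complex.I_sq]; ring
      rw [this]
      simp
    rw [ha]
    simp only [AddChar.map_add_eq_mul, AddChar.map_zsmul_eq_zpow, e1, e2, hα', hβ', mul_zpow]
    exact mul_mul_mul_comm _ _ _ _

/-- the shift -/
noncomputable def T : AddChar E Circle → AddChar E Circle := fun χ => χ.mulShift S.u0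

theorem T_iterate_apply (j : ℕ) (χ : AddChar E Circle) (a : E) :
    (S.T^[j] χ) a = χ (S.u0 ^ j * a) := by
  induction j generalizing χ with
  | zero => simp
  | succ j ih =>
    rw [Function.iterate_succ_apply, ih]
    simp only [T, AddChar.mulShift_apply]
    congr 1
    rw [pow_succ]; ring

theorem measurable_T : Measurable S.T := measurable_mulShift S.u0

theorem measurePreserving_T {ν : Measure (AddChar E Circle)} (h : S.Invariant ν) :
    MeasurePreserving S.T ν ν :=
  ⟨S.measurable_T, h S.u0 S.norm_σ_u0⟩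

end Emb

end Crest.Agent.R40.T1R2
end

-- ▼ part R40/T1R2P1d
section

/-!
# R40 / T1 / R2 / P1d : proof of `TargetP1`
-/

set_option autoImplicit false

namespace Crest.Agent.R40.T1R2

open MeasureTheory Filter
open scoped FourierTransform Topology

/-- weights of the symbols -/
noncomputable def wt : Option (Cell 2) → ℝ
  | none => 40 / 41
  | some _ => 1 / 1025

theorem wt_nonneg (o : Option (Cell 2)) : 0 ≤ wt o := by
  cases o <;> simp only [wt] <;> norm_num

theorem sum_wt : ∑ o, wt o = 1 := by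
  rw [Fintype.sum_option]
  simp only [wt, Finset.sum_const, Finset.card_univ, Fintype.card_prod, Fintype.card_fin,
    nsmul_eq_mul]
  norm_num

namespace Emb

variable {E : Type*} [Field E] (S : Emb E)

/-- the set of good characters -/
def GG (m : GaussianInt) (Q : ℂ × ℂ → ℂ) : Set (AddChar E Circle) :=
  {χ | ‖((χ S.θ : Circle) : ℂ) -
        Q (((χ (S.ι m)⁻¹ : Circle) : ℂ), ((χ (S.I * (S.ι m)⁻¹) : Circle) : ℂ))‖ < 1 / 8}

theorem measurableSet_GG (m : GaussianInt) {Q : ℂ × ℂ → ℂ} (hQ : Continuous Q) :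
    MeasurableSet (S.GG m Q) := by
  apply measurableSet_lt _ measurable_const
  exact ((T1.measurable_eval S.θ).sub (hQ.measurable.comp
    ((T1.measurable_eval (S.ι m)⁻¹).prodMk (T1.measurable_eval (S.I * (S.ι m)⁻¹))))).norm

open Classical in
/-- the symbol of a character at time `0` -/
noncomputable def lab (m : GaussianInt) (Q : ℂ × ℂ → ℂ) (χ : AddChar E Circle) : Option (Cell 2) :=
  if χ ∈ S.GG m Q then none else some (cell 2 ((χ S.θ : Circle) : ℂ))

/-- names -/
abbrev Nm (k n : ℕ) := (Cell k × Cell k) × (Fin n → Option (Cell 2))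

noncomputable def nm (m : GaussianInt) (Q : ℂ × ℂ → ℂ) (k n : ℕ) (χ : AddChar E Circle) : Nm k n :=
  ((cell k ((χ (S.ι m)⁻¹ : Circle) : ℂ), cell k ((χ (S.I * (S.ι m)⁻¹) : Circle) : ℂ)),
    fun j => S.lab m Q (S.T^[(j : ℕ)] χ))

theorem measurableSet_lab (m : GaussianInt) {Q : ℂ × ℂ → ℂ} (hQ : Continuous Q)
    (o : Option (Cell 2)) : MeasurableSet (S.lab m Q ⁻¹' {o}) := by
  have hG := S.measurableSet_GG m hQ
  cases o with
  | none =>
    have : S.lab m Q ⁻¹' {none} = S.GG m Q := by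
      ext χ
      simp [lab]
    rw [this]; exact hG
  | some c =>
    have : S.lab m Q ⁻¹' {some c} = (S.GG m Q)ᶜ ∩
        (fun χ : AddChar E Circle => cell 2 ((χ S.θ : Circle) : ℂ)) ⁻¹' {c} := by
      ext χ
      simp [lab]
    rw [this]
    exact hG.compl.inter (((measurable_cell 2).comp (T1.measurable_eval S.θ))
      (measurableSet_singleton c))

theorem measurableSet_nm (m : GaussianInt) {Q : ℂ × ℂ → ℂ} (hQ : Continuous Q) (k n : ℕ)
    (a : Nm k n) : MeasurableSet (S.nm m Q k n ⁻¹' {a}) := by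
  have : S.nm m Q k n ⁻¹' {a} =
      ((fun χ : AddChar E Circle => cell k ((χ (S.ι m)⁻¹ : Circle) : ℂ)) ⁻¹' {a.1.1} ∩
       (fun χ : AddChar E Circle => cell k ((χ (S.I * (S.ι m)⁻¹) : Circle) : ℂ)) ⁻¹' {a.1.2}) ∩
      ⋂ j : Fin n, (S.T^[(j : ℕ)]) ⁻¹' (S.lab m Q ⁻¹' {a.2 j}) := by
    ext χ
    simp only [nm, Set.mem_preimage, Set.mem_singleton_iff, Set.mem_inter_iff, Set.mem_iInter]
    constructor
    · rintro rfl
      exact ⟨⟨rfl, rfl⟩, fun j => rfl⟩
    · rintro ⟨⟨h1, h2⟩, h3⟩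
      refine Prod.ext (Prod.ext h1 h2) (funext h3)
  rw [this]
  refine ((((measurable_cell k).comp (T1.measurable_eval _)) (measurableSet_singleton _)).inter
    (((measurable_cell k).comp (T1.measurable_eval _)) (measurableSet_singleton _))).inter ?_
  exact MeasurableSet.iInter fun j =>
    (S.measurable_T.iterate j) (S.measurableSet_lab m hQ _)

/-- the weight of a name -/
noncomputable def WW (k n : ℕ) (a : Nm k n) : ℝ :=
  ((Fintype.card (Cell k × Cell k) : ℝ))⁻¹ * ∏ j, wt (a.2 j)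

theorem WW_nonneg (k n : ℕ) (a : Nm k n) : 0 ≤ WW k n a :=
  mul_nonneg (by positivity) (Finset.prod_nonneg fun _ _ => wt_nonneg _)

theorem sum_WW (k n : ℕ) : ∑ a, WW k n a = 1 := by
  rw [Fintype.sum_prod_type]
  have h1 : ∀ p : Cell k × Cell k, ∑ f : Fin n → Option (Cell 2), WW k n (p, f) =
      ((Fintype.card (Cell k × Cell k) : ℝ))⁻¹ := by
    intro p
    simp only [WW]
    rw [← Finset.mul_sum]
    have h2 : ∑ f : Fin n → Option (Cell 2), ∏ j, wt (f j) = 1 := by
      have := Finset.prod_univ_sum (fun _ : Fin n => (Finset.univ : Finset (Option (Cell 2))))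
        (fun _ o => wt o)
      rw [Fintype.piFinset_univ] at this
      rw [← this, Finset.prod_congr rfl fun _ _ => sum_wt, Finset.prod_const_one]
    rw [h2, mul_one]
  rw [Finset.sum_congr rfl fun p _ => h1 p, Finset.sum_const, Finset.card_univ, nsmul_eq_mul]
  apply mul_inv_cancel₀
  have : 0 < Fintype.card (Cell k × Cell k) := Fintype.card_pos
  positivity

/-- same name ⇒ related -/
theorem rel_of_nm_eq {m : GaussianInt} (hm : ¬ P ∣ m) {Q : ℂ × ℂ → ℂ} (hQ : Continuous Q) :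
    ∃ k : ℕ, ∀ (n : ℕ) (χ χ' : AddChar E Circle), S.nm m Q k n χ = S.nm m Q k n χ' →
      ∃ s : ℂ, ‖s‖ ≤ 1 ∧ S.Rel (P ^ n * m) χ χ' s := by
  have hm0 : m ≠ 0 := by rintro rfl; exact hm (dvd_zero _)
  have huc : UniformContinuousOn Q (Metric.closedBall (0 : ℂ × ℂ) 1) :=
    (isCompact_closedBall _ _).uniformContinuousOn_of_continuous hQ.continuousOn
  rw [Metric.uniformContinuousOn_iff] at huc
  obtain ⟨δ, hδ, huc⟩ := huc (1 / 8) (by norm_num)
  set ρ : ℝ := min δ (1 / 8) / 7 with hρ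
  have hρpos : 0 < ρ := by positivity
  have hπ : Real.pi < 3.15 := Real.pi_lt_d2
  have hπ0 := Real.pi_pos
  obtain ⟨k, hk⟩ := S.rel_init hm0 hρpos
  refine ⟨k, fun n χ χ' hnm => ?_⟩
  have h1 := congrArg (fun a => a.1.1) hnm
  have h2 := congrArg (fun a => a.1.2) hnm
  have h3 := congrArg (fun a => a.2) hnm
  simp only [nm] at h1 h2 h3
  obtain ⟨s, hs, hrel⟩ := hk χ χ' h1 h2
  have hρs : 2 * Real.pi * ‖s‖ < min δ (1 / 8) := by
    have e : min δ (1 / 8) = 7 * ρ := by rw [hρ]; ring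
    rw [e]
    have hn := norm_nonneg s
    nlinarith
  have hsδ : 2 * Real.pi * ‖s‖ < δ := lt_of_lt_of_le hρs (min_le_left _ _)
  have hs8 : 2 * Real.pi * ‖s‖ < 1 / 8 := lt_of_lt_of_le hρs (min_le_right _ _)
  refine ⟨s, ?_, ?_⟩
  · refine hs.trans ?_
    rw [hρ]
    have : min δ (1 / 8) ≤ 1 / 8 := min_le_right _ _
    linarith
  -- induction
  have key : ∀ j : ℕ, j ≤ n → S.Rel (P ^ j * m) χ χ' s := by
    intro j
    induction j with
    | zero => intro _; simpa using hrel
    | succ j ih =>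
      intro hj
      have ih' := ih (by omega)
      apply Rel.step S hm ih'
      have hlab := congrFun h3 ⟨j, by omega⟩
      simp only at hlab
      have heps : ‖1 - ((S.eps s (S.t j) : Circle) : ℂ)‖ < 1 / 8 := by
        rw [norm_sub_rev]
        exact lt_of_le_of_lt (S.norm_eps_sub_one_le (S.norm_σ_t_le j)) hs8
      have e1 : (S.T^[j] χ) S.θ = χ (S.t j) := S.T_iterate_apply j χ S.θ
      have e1' : (S.T^[j] χ') S.θ = χ' (S.t j) := S.T_iterate_apply j χ' S.θ
      have hclose : ‖((χ' (S.t j) : Circle) : ℂ) - ((χ (S.t j) : Circle) : ℂ)‖ ≤ 3 / 4 := by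
        by_cases hg : S.T^[j] χ ∈ S.GG m Q
        · have hg' : S.T^[j] χ' ∈ S.GG m Q := by
            by_contra hg'
            simp [lab, hg, hg'] at hlab
          have hg1 : ‖((χ (S.t j) : Circle) : ℂ) - Q (((χ (S.pt1 m j) : Circle) : ℂ),
              ((χ (S.pt2 m j) : Circle) : ℂ))‖ < 1 / 8 := by
            have := hg
            simp only [GG, Set.mem_ofPred_eq, T_iterate_apply] at this
            exact this
          have hg2 : ‖((χ' (S.t j) : Circle) : ℂ) - Q (((χ' (S.pt1 m j) : Circle) : ℂ),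
              ((χ' (S.pt2 m j) : Circle) : ℂ))‖ < 1 / 8 := by
            have := hg'
            simp only [GG, Set.mem_ofPred_eq, T_iterate_apply] at this
            exact this
          have hd1 := Rel.norm_sub_le S ih' (S.inLat_pt1 hm0 j) (S.norm_σ_pt1_le hm0 j)
          have hd2 := Rel.norm_sub_le S ih' (S.inLat_pt2 hm0 j) (S.norm_σ_pt2_le hm0 j)
          have hQQ : dist (Q (((χ' (S.pt1 m j) : Circle) : ℂ), ((χ' (S.pt2 m j) : Circle) : ℂ)))
              (Q (((χ (S.pt1 m j) : Circle) : ℂ), ((χ (S.pt2 m j) : Circle) : ℂ))) < 1 / 8 := by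
            apply huc
            · rw [mem_closedBall_zero_iff, Prod.norm_def]
              exact max_le (Circle.norm_coe _).le (Circle.norm_coe _).le
            · rw [mem_closedBall_zero_iff, Prod.norm_def]
              exact max_le (Circle.norm_coe _).le (Circle.norm_coe _).le
            · rw [Prod.dist_eq]
              apply max_lt
              · rw [dist_eq_norm]; exact lt_of_le_of_lt hd1 hsδ
              · rw [dist_eq_norm]; exact lt_of_le_of_lt hd2 hsδ
          rw [dist_eq_norm] at hQQ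
          set x := ((χ (S.t j) : Circle) : ℂ)
          set x' := ((χ' (S.t j) : Circle) : ℂ)
          set q := Q (((χ (S.pt1 m j) : Circle) : ℂ), ((χ (S.pt2 m j) : Circle) : ℂ))
          set q' := Q (((χ' (S.pt1 m j) : Circle) : ℂ), ((χ' (S.pt2 m j) : Circle) : ℂ))
          have e : x' - x = (x' - q') + (q' - q) - (x - q) := by ring
          rw [e]
          have := norm_sub_le ((x' - q') + (q' - q)) (x - q)
          have := norm_add_le (x' - q') (q' - q)
          linarith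
        · have hg' : S.T^[j] χ' ∉ S.GG m Q := by
            intro hg'
            simp [lab, hg, hg'] at hlab
          simp only [lab, hg, hg', if_false, Option.some.injEq] at hlab
          rw [e1, e1'] at hlab
          have hc := cell_close (Circle.norm_coe _) (Circle.norm_coe _) hlab
          rw [norm_sub_rev]
          push_cast at hc
          nlinarith [norm_nonneg (((χ (S.t j) : Circle) : ℂ) - ((χ' (S.t j) : Circle) : ℂ))]
      linarith
  exact key n le_rfl

/-- P1 -/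
theorem targetP1 (ν : Measure (AddChar E Circle)) [IsFiniteMeasure ν] (hinv : S.Invariant ν) :
    S.TargetP1 ν := by
  classical
  refine ⟨200, by norm_num, ?_⟩
  intro DD hDD hDT m hm Q hQ κ hκ
  have hT := S.measurePreserving_T hinv
  set B : Set (AddChar E Circle) := DD ∩ {χ | 1 / 8 ≤ ‖((χ S.θ : Circle) : ℂ) -
        Q (((χ (S.ι m)⁻¹ : Circle) : ℂ), ((χ (S.I * (S.ι m)⁻¹) : Circle) : ℂ))‖} with hB
  have hBG : B = DD ∩ (S.GG m Q)ᶜ := by
    rw [hB]
    ext χ
    simp only [GG, Set.mem_inter_iff, Set.mem_ofPred_eq, Set.mem_compl_iff, not_lt]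
  have hBm : MeasurableSet B := by
    rw [hBG]; exact hDD.inter (S.measurableSet_GG m hQ).compl
  obtain ⟨k, hk⟩ := S.rel_of_nm_eq hm hQ
  set bs : ℕ → AddChar E Circle → ℝ := fun n χ =>
    birkhoffSum S.T (B.indicator fun _ => (1 : ℝ)) n χ with hbs
  set K : Set (AddChar E Circle) := {χ | ∃ n : ℕ, (1 / 200 : ℝ) * n < bs n χ}ᶜ with hK
  have hbsm : ∀ n, Measurable (bs n) := by
    intro n
    simp only [hbs, birkhoffSum]
    refine Finset.measurable_sum _ fun j _ => ?_
    exact (measurable_const.indicator hBm).comp (S.measurable_T.iterate j)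
  have hKm : MeasurableSet K := by
    apply MeasurableSet.compl
    rw [Set.ofPred_exists]
    exact MeasurableSet.iUnion fun n => measurableSet_lt measurable_const (hbsm n)
  refine ⟨K, ((Fintype.card (Cell k × Cell k) : ℝ))⁻¹, ?_, hKm, ?_, ?_⟩
  · have : 0 < Fintype.card (Cell k × Cell k) := Fintype.card_pos
    positivity
  · rw [hK, compl_compl]
    have := maximal_visits hT hBm (l := 1 / 200) (by norm_num)
    refine this.trans ?_
    norm_num
    exact hκ
  · have hBC := names_borel_cantelli (ν := ν) (Nm := fun n => Nm k n) (fun n => S.nm m Q k n)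
      (fun n => WW k n) (fun n a => WW_nonneg k n a) (fun n => (sum_WW k n).le)
      (r := 19 / 20) (by norm_num) (by norm_num)
    have hDD' : ∀ᵐ χ ∂ν, ∀ j : ℕ, χ ∈ DD → S.T^[j] χ ∈ DD := by
      rw [ae_all_iff]
      intro j
      induction j with
      | zero => exact Eventually.of_forall fun χ h => h
      | succ j ih =>
        have h1 : ∀ᵐ χ ∂ν, (S.T^[j] χ ∈ DD → S.T (S.T^[j] χ) ∈ DD) :=
          (hT.iterate j).quasiMeasurePreserving.ae hDT
        filter_upwards [ih, h1] with χ h2 h3 h4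
        rw [Function.iterate_succ_apply']
        exact h3 (h2 h4)
    filter_upwards [hBC, hDD'] with χ h1 h2 hχK hχD
    filter_upwards [h1] with n hn
    refine ⟨S.nm m Q k n ⁻¹' {S.nm m Q k n χ}, S.measurableSet_nm m hQ k n _, rfl, ?_, ?_⟩
    · refine le_trans ?_ hn
      -- number of bad times
      set c : ℕ := ((Finset.range n).filter fun j => S.T^[j] χ ∈ B).card with hc
      have hbc : bs n χ = (c : ℝ) := by
        simp only [hbs, birkhoffSum, Set.indicator_apply]
        rw [Finset.sum_ite]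
        simp [hc]
      have hcn : 200 * c ≤ n := by
        have : ¬ (1 / 200 : ℝ) * n < bs n χ := by
          intro h
          exact hχK ⟨n, h⟩
        rw [hbc, not_lt] at this
        have h' : (200 : ℝ) * c ≤ n := by linarith
        exact_mod_cast h'
      have hprod : (40 / 41 : ℝ) ^ n * (1 / 1025) ^ c ≤
          ∏ j : Fin n, wt (S.lab m Q (S.T^[(j : ℕ)] χ)) := by
        have e := Finset.prod_range (n := n) (fun j => wt (S.lab m Q (S.T^[j] χ)))
        rw [← e]
        have e2 : (40 / 41 : ℝ) ^ n * (1 / 1025) ^ c =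
            ∏ j ∈ Finset.range n, ((40 / 41 : ℝ) * if S.T^[j] χ ∈ B then 1 / 1025 else 1) := by
          rw [Finset.prod_mul_distrib, Finset.prod_const, Finset.card_range, Finset.prod_ite,
            Finset.prod_const, Finset.prod_const_one, mul_one, hc]
        rw [e2]
        apply Finset.prod_le_prod
        · intro j _
          split_ifs <;> norm_num
        · intro j _
          by_cases hg : S.T^[j] χ ∈ S.GG m Q
          · have hnb : S.T^[j] χ ∉ B := by
              rw [hBG]; exact fun h => h.2 hg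
            simp only [lab, hg, hnb, if_true, if_false, wt]
            norm_num
          · have hb : S.T^[j] χ ∈ B := by
              rw [hBG]; exact ⟨h2 j hχD, hg⟩
            simp only [lab, hg, hb, if_true, if_false, wt]
            norm_num
      have hpow : (19 / 20 : ℝ) ^ n ≤ (1 / 1025) ^ c := by
        calc (19 / 20 : ℝ) ^ n ≤ (19 / 20 : ℝ) ^ (200 * c) :=
              pow_le_pow_of_le_one (by norm_num) (by norm_num) hcn
          _ = ((19 / 20 : ℝ) ^ 200) ^ c := by rw [pow_mul]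
          _ ≤ (1 / 1025) ^ c := pow_le_pow_left₀ (by positivity) (by norm_num) c
      simp only [WW, nm]
      set cc : ℝ := ((Fintype.card (Cell k × Cell k) : ℝ))⁻¹ with hcc
      have hcc0 : 0 ≤ cc := by positivity
      have hfin : (5 / 6 : ℝ) ^ n ≤ (19 / 20) ^ n * ((40 / 41) ^ n * (1 / 1025) ^ c) := by
        calc (5 / 6 : ℝ) ^ n ≤ ((19 / 20) * ((40 / 41) * (19 / 20))) ^ n :=
              pow_le_pow_left₀ (by norm_num) (by norm_num) n
          _ = (19 / 20) ^ n * ((40 / 41) ^ n * (19 / 20) ^ n) := by rw [mul_pow, mul_pow]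
          _ ≤ (19 / 20) ^ n * ((40 / 41) ^ n * (1 / 1025) ^ c) := by gcongr
      calc cc * (5 / 6 : ℝ) ^ n ≤ cc * ((19 / 20) ^ n * ((40 / 41) ^ n * (1 / 1025) ^ c)) := by
            gcongr
        _ ≤ cc * ((19 / 20) ^ n * ∏ j : Fin n, wt (S.lab m Q (S.T^[(j : ℕ)] χ))) := by
            gcongr
        _ = (19 / 20) ^ n * (cc * ∏ j : Fin n, wt (S.lab m Q (S.T^[(j : ℕ)] χ))) := by ring
    · intro χ₁ h3 χ₂ h4
      apply hk n χ₁ χ₂
      have h3' : S.nm m Q k n χ₁ = S.nm m Q k n χ := h3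
      have h4' : S.nm m Q k n χ₂ = S.nm m Q k n χ := h4
      rw [h3', h4']

end Emb

end Crest.Agent.R40.T1R2
private theorem rz_8a3b8ac83c : type_of% @_root_.Crest.Agent.R40.T1R2.wt.eq_1 := @_root_.Crest.Agent.R40.T1R2.wt.eq_1 -- L15
end

-- ▼ part R40/T1R2P3a
section

/-!
# R40 / T1 / M4 (R2), part P3a: approximation of functions measurable with respect to
`sigma (chi a : a in R)` by trigonometric polynomials, in measure.
-/

set_option autoImplicit false

open MeasureTheory Filter Topology Set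
open scoped ENNReal

namespace Crest.Agent.R40.T1R2P3

/-- Weierstrass on the circle. -/
theorem circle_approx (ψ : C(Circle, ℂ)) {ε : ℝ} (hε : 0 < ε) :
    ∃ c : ℤ →₀ ℂ, ∀ z : Circle, ‖ψ z - c.sum (fun n a => a * ((z ^ n : Circle) : ℂ))‖ < ε := by
  have : Fact (0 < (1 : ℝ)) := ⟨one_pos⟩
  let f : C(AddCircle (1 : ℝ), ℂ) := ψ.comp ⟨AddCircle.toCircle, AddCircle.continuous_toCircle⟩
  have hf : f ∈ (Submodule.span ℂ (range (@fourier (1 : ℝ)))).topologicalClosure := by
    rw [span_fourier_closure_eq_top]; trivial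
  have hf' : f ∈ closure ((Submodule.span ℂ (range (@fourier (1 : ℝ))) : Set C(AddCircle (1 : ℝ), ℂ))) := hf
  rw [Metric.mem_closure_iff] at hf'
  obtain ⟨g, hg, hfg⟩ := hf' ε hε
  obtain ⟨c, rfl⟩ := (Finsupp.mem_span_range_iff_exists_finsupp).1 hg
  refine ⟨c, fun z => ?_⟩
  obtain ⟨t, ht⟩ := Circle.exp_surjective z
  let x : AddCircle (1 : ℝ) := ((t / (2 * Real.pi) : ℝ) : AddCircle (1 : ℝ))
  have hx : AddCircle.toCircle x = z := by
    rw [AddCircle.toCircle_apply_mk, ← ht]
    congr 1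
    field_simp
  have h1 : ‖f x - (c.sum fun n a => a • (fourier n : C(AddCircle (1 : ℝ), ℂ))) x‖ < ε := by
    rw [← ContinuousMap.sub_apply]
    refine lt_of_le_of_lt (ContinuousMap.norm_coe_le_norm _ x) ?_
    rwa [← dist_eq_norm]
  have h2 : f x = ψ z := by
    show ψ (AddCircle.toCircle x) = ψ z
    rw [hx]
  have h3 : (c.sum fun n a => a • (fourier n : C(AddCircle (1 : ℝ), ℂ))) x =
      c.sum (fun n a => a * ((z ^ n : Circle) : ℂ)) := by
    simp only [Finsupp.sum]
    rw [ContinuousMap.sum_apply]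
    refine Finset.sum_congr rfl fun n _ => ?_
    rw [ContinuousMap.smul_apply, smul_eq_mul, fourier_apply, AddCircle.toCircle_zsmul, hx]
  rw [h2, h3] at h1
  exact h1

section Approx

variable {X : Type*} [MeasurableSpace X] {A : Type*} [AddCommGroup A]

/-- trigonometric polynomials with frequencies in `R` -/
def TP (ev : X → AddChar A Circle) (R : AddSubgroup A) : Subalgebra ℂ (X → ℂ) :=
  Algebra.adjoin ℂ (range fun (a : R) (x : X) => (ev x (a : A) : ℂ))

omit [MeasurableSpace X] in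
theorem eval_mem_TP (ev : X → AddChar A Circle) (R : AddSubgroup A) {a : A} (ha : a ∈ R) :
    (fun x => (ev x a : ℂ)) ∈ TP ev R :=
  Algebra.subset_adjoin ⟨⟨a, ha⟩, rfl⟩

omit [MeasurableSpace X] in
theorem mem_TP (ev : X → AddChar A Circle) (R : AddSubgroup A) {P : X → ℂ} (hP : P ∈ TP ev R) :
    ∃ (s : Finset A) (q : A → ℂ), (∀ a ∈ s, a ∈ R) ∧
      P = fun x => ∑ a ∈ s, q a * (ev x a : ℂ) := by
  classical
  have h1 : ((Submonoid.closure (range fun (a : R) (x : X) => (ev x (a : A) : ℂ)) : Submonoid (X → ℂ)) : Set (X → ℂ)) ⊆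
      (Submodule.span ℂ (range fun (a : R) (x : X) => (ev x (a : A) : ℂ)) : Set (X → ℂ)) := by
    intro f hf
    apply Submodule.subset_span
    refine Submonoid.closure_induction (motive := fun f _ =>
      f ∈ range fun (a : R) (x : X) => (ev x (a : A) : ℂ)) ?_ ?_ ?_ hf
    · exact fun f hf => hf
    · refine ⟨0, ?_⟩
      funext x
      simp [AddChar.map_zero_eq_one]
    · rintro _ _ _ _ ⟨a, rfl⟩ ⟨b, rfl⟩
      refine ⟨a + b, ?_⟩
      funext x
      simp [AddChar.map_add_eq_mul]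
  have h2 : P ∈ Submodule.span ℂ (range fun (a : R) (x : X) => (ev x (a : A) : ℂ)) := by
    have := Algebra.adjoin_eq_span_of_subset ℂ h1
    rw [← this]; exact hP
  obtain ⟨c, rfl⟩ := (Finsupp.mem_span_range_iff_exists_finsupp).1 h2
  refine ⟨c.support.map (Function.Embedding.subtype _), fun a => if h : a ∈ R then c ⟨a, h⟩ else 0,
    ?_, ?_⟩
  · intro a ha
    rw [Finset.mem_map] at ha
    obtain ⟨b, _, rfl⟩ := ha
    exact b.2
  · funext x
    rw [Finset.sum_map, Finsupp.sum, Finset.sum_apply]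
    refine Finset.sum_congr rfl fun a _ => ?_
    show c a * (ev x (a : A) : ℂ) = (if h : (a : A) ∈ R then c ⟨a, h⟩ else 0) * (ev x (a : A) : ℂ)
    rw [dif_pos a.2]

/-- approximable in measure by trigonometric polynomials -/
def Appr (ν : Measure X) (ev : X → AddChar A Circle) (R : AddSubgroup A) (f : X → ℂ) : Prop :=
  ∀ ε : ℝ, 0 < ε → ∀ κ : ℝ≥0∞, κ ≠ 0 → ∃ P ∈ TP ev R, ν {x | ε ≤ ‖f x - P x‖} ≤ κ

variable {ν : Measure X} {ev : X → AddChar A Circle} {R : AddSubgroup A}

theorem Appr.of_mem {f : X → ℂ} (hf : f ∈ TP ev R) : Appr ν ev R f := by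
  intro ε hε κ _
  refine ⟨f, hf, ?_⟩
  have : {x | ε ≤ ‖f x - f x‖} = ∅ := by
    ext x; simp [hε]
  rw [this]; simp

theorem Appr.of_close {f : X → ℂ}
    (h : ∀ ε : ℝ, 0 < ε → ∀ κ : ℝ≥0∞, κ ≠ 0 → ∃ g, Appr ν ev R g ∧ ν {x | ε ≤ ‖f x - g x‖} ≤ κ) :
    Appr ν ev R f := by
  intro ε hε κ hκ
  obtain ⟨g, hg, hfg⟩ := h (ε / 2) (by positivity) (κ / 2) (by simpa using hκ)
  obtain ⟨P, hP, hgP⟩ := hg (ε / 2) (by positivity) (κ / 2) (by simpa using hκ)
  refine ⟨P, hP, ?_⟩
  have hsub : {x | ε ≤ ‖f x - P x‖} ⊆ {x | ε / 2 ≤ ‖f x - g x‖} ∪ {x | ε / 2 ≤ ‖g x - P x‖} := by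
    intro x hx
    simp only [mem_ofPred_eq, mem_union] at hx ⊢
    by_contra hcon
    push Not at hcon
    have := norm_sub_le_norm_sub_add_norm_sub (f x) (g x) (P x)
    linarith [hcon.1, hcon.2]
  calc ν {x | ε ≤ ‖f x - P x‖} ≤ ν ({x | ε / 2 ≤ ‖f x - g x‖} ∪ {x | ε / 2 ≤ ‖g x - P x‖}) :=
        measure_mono hsub
    _ ≤ ν {x | ε / 2 ≤ ‖f x - g x‖} + ν {x | ε / 2 ≤ ‖g x - P x‖} := measure_union_le _ _
    _ ≤ κ / 2 + κ / 2 := add_le_add hfg hgP
    _ = κ := ENNReal.add_halves κ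

theorem Appr.add {f g : X → ℂ} (hf : Appr ν ev R f) (hg : Appr ν ev R g) :
    Appr ν ev R (fun x => f x + g x) := by
  intro ε hε κ hκ
  obtain ⟨P, hP, h1⟩ := hf (ε / 2) (by positivity) (κ / 2) (by simpa using hκ)
  obtain ⟨Q, hQ, h2⟩ := hg (ε / 2) (by positivity) (κ / 2) (by simpa using hκ)
  refine ⟨P + Q, (TP ev R).add_mem hP hQ, ?_⟩
  have hsub : {x | ε ≤ ‖f x + g x - (P + Q) x‖} ⊆
      {x | ε / 2 ≤ ‖f x - P x‖} ∪ {x | ε / 2 ≤ ‖g x - Q x‖} := by
    intro x hx
    simp only [mem_ofPred_eq, mem_union, Pi.add_apply] at hx ⊢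
    by_contra hcon
    push Not at hcon
    have : ‖f x + g x - (P x + Q x)‖ ≤ ‖f x - P x‖ + ‖g x - Q x‖ := by
      have : f x + g x - (P x + Q x) = (f x - P x) + (g x - Q x) := by ring
      rw [this]; exact norm_add_le _ _
    linarith [hcon.1, hcon.2]
  calc ν {x | ε ≤ ‖f x + g x - (P + Q) x‖} ≤
        ν ({x | ε / 2 ≤ ‖f x - P x‖} ∪ {x | ε / 2 ≤ ‖g x - Q x‖}) := measure_mono hsub
    _ ≤ ν {x | ε / 2 ≤ ‖f x - P x‖} + ν {x | ε / 2 ≤ ‖g x - Q x‖} := measure_union_le _ _
    _ ≤ κ / 2 + κ / 2 := add_le_add h1 h2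
    _ = κ := ENNReal.add_halves κ

theorem Appr.const_mul {f : X → ℂ} (hf : Appr ν ev R f) (c : ℂ) :
    Appr ν ev R (fun x => c * f x) := by
  rcases eq_or_ne c 0 with rfl | hc
  · simp only [zero_mul]
    exact Appr.of_mem ((TP ev R).zero_mem)
  intro ε hε κ hκ
  have hc' : 0 < ‖c‖ := norm_pos_iff.2 hc
  obtain ⟨P, hP, h1⟩ := hf (ε / ‖c‖) (by positivity) κ hκ
  refine ⟨c • P, (TP ev R).smul_mem hP c, ?_⟩
  refine le_trans (measure_mono ?_) h1
  intro x hx
  simp only [mem_ofPred_eq, Pi.smul_apply, smul_eq_mul] at hx ⊢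
  rw [← mul_sub, norm_mul] at hx
  rw [div_le_iff₀ hc']
  linarith

theorem Appr.mul_bdd {f g : X → ℂ} (hf : Appr ν ev R f) (hg : Appr ν ev R g)
    (hf1 : ∀ x, ‖f x‖ ≤ 1) (hg1 : ∀ x, ‖g x‖ ≤ 1) :
    Appr ν ev R (fun x => f x * g x) := by
  intro ε hε κ hκ
  set δ : ℝ := min 1 (ε / 4) with hδ
  have hδ0 : 0 < δ := by positivity
  obtain ⟨P, hP, h1⟩ := hf δ hδ0 (κ / 2) (by simpa using hκ)
  obtain ⟨Q, hQ, h2⟩ := hg δ hδ0 (κ / 2) (by simpa using hκ)
  refine ⟨P * Q, (TP ev R).mul_mem hP hQ, ?_⟩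
  have hsub : {x | ε ≤ ‖f x * g x - (P * Q) x‖} ⊆
      {x | δ ≤ ‖f x - P x‖} ∪ {x | δ ≤ ‖g x - Q x‖} := by
    intro x hx
    simp only [mem_ofPred_eq, mem_union, Pi.mul_apply] at hx ⊢
    by_contra hcon
    push Not at hcon
    obtain ⟨ha, hb⟩ := hcon
    have h3 : ‖Q x‖ ≤ 2 := by
      have : Q x = g x - (g x - Q x) := by ring
      have h4 : ‖Q x‖ ≤ ‖g x‖ + ‖g x - Q x‖ := by
        conv_lhs => rw [this]
        exact norm_sub_le _ _
      have := hg1 x
      have := min_le_left 1 (ε / 4)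
      linarith
    have h5 : ‖f x * g x - P x * Q x‖ ≤ ‖f x‖ * ‖g x - Q x‖ + ‖f x - P x‖ * ‖Q x‖ := by
      have : f x * g x - P x * Q x = f x * (g x - Q x) + (f x - P x) * Q x := by ring
      rw [this]
      refine (norm_add_le _ _).trans ?_
      rw [norm_mul, norm_mul]
    have h6 : ‖f x‖ * ‖g x - Q x‖ ≤ 1 * δ :=
      mul_le_mul (hf1 x) hb.le (norm_nonneg _) zero_le_one
    have h7 : ‖f x - P x‖ * ‖Q x‖ ≤ δ * 2 :=
      mul_le_mul ha.le h3 (norm_nonneg _) hδ0.le
    have := min_le_right 1 (ε / 4)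
    linarith
  calc ν {x | ε ≤ ‖f x * g x - (P * Q) x‖} ≤
        ν ({x | δ ≤ ‖f x - P x‖} ∪ {x | δ ≤ ‖g x - Q x‖}) := measure_mono hsub
    _ ≤ ν {x | δ ≤ ‖f x - P x‖} + ν {x | δ ≤ ‖g x - Q x‖} := measure_union_le _ _
    _ ≤ κ / 2 + κ / 2 := add_le_add h1 h2
    _ = κ := ENNReal.add_halves κ

theorem Appr.of_tendsto [IsFiniteMeasure ν] {f : X → ℂ} {g : ℕ → X → ℂ}
    (hg : ∀ n, Appr ν ev R (g n)) (hm : ∀ n, AEStronglyMeasurable (g n) ν)
    (hlim : ∀ x, Tendsto (fun n => g n x) atTop (𝓝 (f x))) : Appr ν ev R f := by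
  have h := tendstoInMeasure_of_tendsto_ae (f := g) (g := f) hm (ae_of_all _ hlim)
  refine Appr.of_close fun ε hε κ hκ => ?_
  have h1 := h (ENNReal.ofReal ε) (by simpa using hε)
  have h2 := (ENNReal.tendsto_nhds_zero.1 h1) κ (pos_iff_ne_zero.2 hκ)
  obtain ⟨n, hn⟩ := h2.exists
  refine ⟨g n, hg n, le_trans (measure_mono ?_) hn⟩
  intro x hx
  simp only [mem_ofPred_eq] at hx ⊢
  rw [edist_comm, edist_dist, dist_eq_norm]
  exact ENNReal.ofReal_le_ofReal hx

theorem Appr.comp_circle [IsFiniteMeasure ν] (ψ : C(Circle, ℂ)) {a : A} (ha : a ∈ R) :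
    Appr ν ev R (fun x => ψ (ev x a)) := by
  intro ε hε κ _
  obtain ⟨c, hc⟩ := circle_approx ψ hε
  refine ⟨∑ n ∈ c.support, c n • (fun x => (ev x (n • a) : ℂ)), ?_, ?_⟩
  · exact (TP ev R).sum_mem fun n _ => (TP ev R).smul_mem (eval_mem_TP ev R (R.zsmul_mem ha n)) _
  · have : {x | ε ≤ ‖ψ (ev x a) - (∑ n ∈ c.support, c n • (fun x => (ev x (n • a) : ℂ))) x‖} = ∅ := by
      ext x
      simp only [mem_ofPred_eq, mem_empty_iff_false, iff_false, not_le]
      have := hc (ev x a)
      simpa [Finsupp.sum, Finset.sum_apply, AddChar.map_zsmul_eq_zpow] using this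
    rw [this]; simp

/-- the sigma-algebra of sets with approximable indicator -/
@[reducible] def mG (ν : Measure X) [IsFiniteMeasure ν] (ev : X → AddChar A Circle) (R : AddSubgroup A) :
    MeasurableSpace X where
  MeasurableSet' S := MeasurableSet S ∧ Appr ν ev R (S.indicator 1)
  measurableSet_empty := ⟨MeasurableSet.empty, by
    rw [indicator_empty]; exact Appr.of_mem (TP ev R).zero_mem⟩
  measurableSet_compl := by
    rintro S ⟨hS, hA⟩
    refine ⟨hS.compl, ?_⟩
    have h1 : (Sᶜ.indicator 1 : X → ℂ) = fun x => (fun _ => (1 : ℂ)) x + (-1) * S.indicator 1 x := by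
      funext x
      by_cases hx : x ∈ S <;> simp [hx]
    rw [h1]
    exact (Appr.of_mem (TP ev R).one_mem).add (hA.const_mul (-1))
  measurableSet_iUnion := by
    intro f hf
    refine ⟨MeasurableSet.iUnion fun n => (hf n).1, ?_⟩
    have hfin : ∀ n : ℕ, MeasurableSet (⋃ k ∈ Finset.range n, f k) ∧
        Appr ν ev R ((⋃ k ∈ Finset.range n, f k).indicator 1) := by
      intro n
      induction n with
      | zero =>
        simp only [Finset.range_zero, Finset.notMem_empty, iUnion_of_empty, iUnion_empty]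
        exact ⟨MeasurableSet.empty, by
          rw [indicator_empty]; exact Appr.of_mem (TP ev R).zero_mem⟩
      | succ n ih =>
        set T := ⋃ k ∈ Finset.range n, f k with hT
        have hTs : (⋃ k ∈ Finset.range (n + 1), f k) = T ∪ f n := by
          rw [Finset.range_add_one, Finset.set_biUnion_insert, union_comm]
        rw [hTs]
        refine ⟨ih.1.union (hf n).1, ?_⟩
        have h1 : ((T ∪ f n).indicator 1 : X → ℂ) = fun x =>
            (fun x => T.indicator 1 x + (f n).indicator 1 x) x +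
              (-1) * (T.indicator 1 x * (f n).indicator 1 x) := by
          funext x
          by_cases hx : x ∈ T <;> by_cases hx' : x ∈ f n <;> simp [hx, hx']
        rw [h1]
        refine (ih.2.add (hf n).2).add (Appr.const_mul (Appr.mul_bdd ih.2 (hf n).2 ?_ ?_) (-1))
        · intro x
          by_cases hx : x ∈ T <;> simp [hx]
        · intro x
          by_cases hx : x ∈ f n <;> simp [hx]
    refine Appr.of_tendsto (g := fun n => (⋃ k ∈ Finset.range n, f k).indicator 1)
      (fun n => (hfin n).2) (fun n => ?_) (fun x => ?_)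
    · exact (stronglyMeasurable_one.indicator (hfin n).1).aestronglyMeasurable
    · by_cases hx : x ∈ ⋃ i, f i
      · obtain ⟨i, hi⟩ := mem_iUnion.1 hx
        refine tendsto_const_nhds.congr' ?_
        filter_upwards [eventually_gt_atTop i] with n hn
        rw [indicator_of_mem hx, indicator_of_mem]
        simp only [mem_iUnion]
        exact ⟨i, Finset.mem_range.2 hn, hi⟩
      · refine tendsto_const_nhds.congr' (Eventually.of_forall fun n => ?_)
        rw [indicator_of_notMem hx]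
        show (0 : ℂ) = (⋃ k ∈ Finset.range n, f k).indicator 1 x
        rw [indicator_of_notMem]
        intro hcon
        simp only [mem_iUnion] at hcon
        obtain ⟨i, _, hi⟩ := hcon
        exact hx (mem_iUnion.2 ⟨i, hi⟩)

theorem comap_le_mG [IsFiniteMeasure ν] (hev : ∀ a ∈ R, Measurable fun x => (ev x a : ℂ))
    {a : A} (ha : a ∈ R) :
    MeasurableSpace.comap (fun x => (ev x a : ℂ)) (borel ℂ) ≤ mG ν ev R := by
  rw [← measurable_iff_comap_le]
  show @Measurable X ℂ (mG ν ev R) Complex.measurableSpace (fun x => (ev x a : ℂ))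
  refine @measurable_of_isClosed ℂ X _ _ _ (mG ν ev R) _ ?_
  intro U hU
  refine ⟨(hev a ha) hU.measurableSet, ?_⟩
  let ψ : ℕ → C(Circle, ℂ) := fun n =>
    ⟨fun z => ((hU.apprSeq n (z : ℂ) : NNReal) : ℂ), by fun_prop⟩
  refine Appr.of_tendsto (g := fun n x => ψ n (ev x a)) (fun n => Appr.comp_circle (ψ n) ha)
    (fun n => ?_) (fun x => ?_)
  · refine Measurable.aestronglyMeasurable ?_
    have h1 : Measurable (fun z : ℂ => ((hU.apprSeq n z : NNReal) : ℂ)) := by
      apply Continuous.measurable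
      fun_prop
    exact h1.comp (hev a ha)
  · have h1 := HasOuterApproxClosed.tendsto_apprSeq hU
    rw [tendsto_pi_nhds] at h1
    have h2 := h1 (ev x a : ℂ)
    have h3 : Tendsto (fun n => ((hU.apprSeq n (ev x a : ℂ) : NNReal) : ℂ)) atTop
        (𝓝 ((U.indicator (fun _ => (1 : NNReal)) (ev x a : ℂ) : NNReal) : ℂ)) :=
      ((Complex.continuous_ofReal.comp NNReal.continuous_coe).tendsto _).comp h2
    have h4 : (((fun x => (ev x a : ℂ)) ⁻¹' U).indicator 1 x : ℂ) =
        ((U.indicator (fun _ => (1 : NNReal)) (ev x a : ℂ) : NNReal) : ℂ) := by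
      by_cases hx : (ev x a : ℂ) ∈ U
      · rw [indicator_of_mem hx, indicator_of_mem (show x ∈ (fun x => (ev x a : ℂ)) ⁻¹' U from hx)]
        simp
      · rw [indicator_of_notMem hx,
          indicator_of_notMem (show x ∉ (fun x => (ev x a : ℂ)) ⁻¹' U from hx)]
        simp
    rw [h4]
    exact h3

/-- Main approximation theorem, abstract form. -/
theorem appr_of_stronglyMeasurable [IsFiniteMeasure ν]
    (hev : ∀ a ∈ R, Measurable fun x => (ev x a : ℂ)) {g : X → ℂ}
    (hg : StronglyMeasurable[⨆ a ∈ R, MeasurableSpace.comap (fun x => (ev x a : ℂ)) (borel ℂ)] g) :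
    Appr ν ev R g := by
  have hle : (⨆ a ∈ R, MeasurableSpace.comap (fun x => (ev x a : ℂ)) (borel ℂ)) ≤ mG ν ev R :=
    iSup₂_le fun a ha => comap_le_mG hev ha
  have hg' : StronglyMeasurable[mG ν ev R] g := hg.mono hle
  have hle' : mG ν ev R ≤ (inferInstance : MeasurableSpace X) := fun S hS => hS.1
  have hsimple : ∀ f : @SimpleFunc X (mG ν ev R) ℂ, Appr ν ev R f := by
    intro f
    refine @SimpleFunc.induction X ℂ (mG ν ev R) _ (fun f => Appr ν ev R f) ?_ ?_ f
    · intro c s hs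
      have h1 : ((@SimpleFunc.piecewise X ℂ (mG ν ev R) s hs (@SimpleFunc.const X ℂ (mG ν ev R) c)
          (@SimpleFunc.const X ℂ (mG ν ev R) 0) : @SimpleFunc X (mG ν ev R) ℂ) : X → ℂ) =
          fun x => c * s.indicator 1 x := by
        funext x
        by_cases hx : x ∈ s <;> simp [hx]
      show Appr ν ev R ((@SimpleFunc.piecewise X ℂ (mG ν ev R) s hs (@SimpleFunc.const X ℂ (mG ν ev R) c)
          (@SimpleFunc.const X ℂ (mG ν ev R) 0) : @SimpleFunc X (mG ν ev R) ℂ) : X → ℂ)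
      rw [h1]
      exact hs.2.const_mul c
    · intro f g _ hf hg
      exact hf.add hg
  refine Appr.of_tendsto (g := fun n => (hg'.approx n : X → ℂ)) (fun n => hsimple _) (fun n => ?_)
    (fun x => hg'.tendsto_approx x)
  have h1 : StronglyMeasurable[mG ν ev R] (hg'.approx n : X → ℂ) :=
    @SimpleFunc.stronglyMeasurable X ℂ (mG ν ev R) _ (hg'.approx n)
  exact (h1.mono hle').aestronglyMeasurable

end Approx

end Crest.Agent.R40.T1R2P3
end

-- ▼ part R40/T1R2P3b
section

/-!
# R40 / T1 / M4 (R2), part P3: proof of `TargetP3`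
-/

set_option autoImplicit false

open MeasureTheory Filter Topology Set
open scoped ENNReal ComplexConjugate

namespace Crest.Agent.R40.T1R2P3

open Crest.Agent.R40.T1R2
open Crest.Agent.R40.T1 (Dual instMeasurableSpaceDual measurable_eval measurable_dual_iff rot)

/-- reduction modulo `π = 2 + i` -/
def red : GaussianInt →+* ZMod 5 := Zsqrtd.lift ⟨(3 : ZMod 5), by decide⟩

theorem red_apply (z : GaussianInt) : red z = (z.re : ZMod 5) + (z.im : ZMod 5) * 3 := rfl

theorem P_dvd_iff (z : GaussianInt) : P ∣ z ↔ red z = 0 := by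
  constructor
  · rintro ⟨w, rfl⟩
    rw [map_mul]
    have : red P = 0 := by rw [red_apply]; decide
    rw [this, zero_mul]
  · intro h
    rw [red_apply] at h
    have h1 : (((z.re + z.im * 3 : ℤ)) : ZMod 5) = 0 := by push_cast; exact h
    rw [ZMod.intCast_zmod_eq_zero_iff_dvd] at h1
    obtain ⟨k, hk⟩ := h1
    push_cast at hk
    refine ⟨⟨2 * k - z.im, z.im - k⟩, ?_⟩
    rw [Zsqrtd.ext_iff]
    simp only [P, Zsqrtd.re_mul, Zsqrtd.im_mul]
    constructor <;> linarith

theorem prime_P : ∀ {m n : GaussianInt}, ¬ P ∣ m → ¬ P ∣ n → ¬ P ∣ m * n := by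
  intro m n hm hn h
  rw [P_dvd_iff] at hm hn h
  rw [map_mul] at h
  have : Fact (Nat.Prime 5) := ⟨by norm_num⟩
  rcases mul_eq_zero.1 h with h | h
  · exact hm h
  · exact hn h

theorem not_P_dvd_one : ¬ P ∣ (1 : GaussianInt) := by
  rw [P_dvd_iff, map_one]; decide

section

variable {E : Type*} [Field E] (S : Emb E)

theorem ι_ne_zero {m : GaussianInt} (hm : m ≠ 0) : S.ι m ≠ 0 := by
  intro h
  have h1 := S.compat m
  rw [h, map_zero] at h1
  exact hm (GaussianInt.toComplex_eq_zero.1 h1.symm)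

theorem ne_zero_of_not_dvd {m : GaussianInt} (hm : ¬ P ∣ m) : m ≠ 0 := by
  rintro rfl; exact hm (dvd_zero _)

/-- the localised ring `R` as an additive subgroup -/
def Rsub : AddSubgroup E where
  carrier := {a | ∃ m : GaussianInt, ¬ (P ∣ m) ∧ S.InLat m a}
  zero_mem' := ⟨1, not_P_dvd_one, 0, by simp⟩
  add_mem' := by
    rintro a b ⟨m, hm, x, hx⟩ ⟨n, hn, y, hy⟩
    refine ⟨m * n, prime_P hm hn, n * x + m * y, ?_⟩
    rw [map_mul, map_add, map_mul, map_mul, ← hx, ← hy]
    ring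
  neg_mem' := by
    rintro a ⟨m, hm, x, hx⟩
    refine ⟨m, hm, -x, ?_⟩
    rw [map_neg, ← hx]
    ring


theorem sigmaR_eq : S.sigmaR = ⨆ a ∈ Rsub S,
    MeasurableSpace.comap (fun χ : AddChar E Circle => ((χ a : Circle) : ℂ)) (borel ℂ) := rfl

/-- common denominator -/
theorem common_denom (s : Finset E) (hs : ∀ a ∈ s, a ∈ Rsub S) :
    ∃ m : GaussianInt, ¬ P ∣ m ∧ ∀ a ∈ s, S.InLat m a := by
  classical
  induction s using Finset.induction with
  | empty => exact ⟨1, not_P_dvd_one, by simp⟩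
  | insert a s ha ih =>
    obtain ⟨m, hm, hms⟩ := ih (fun b hb => hs b (Finset.mem_insert_of_mem hb))
    obtain ⟨n, hn, x, hx⟩ := hs a (Finset.mem_insert_self a s)
    refine ⟨m * n, prime_P hm hn, ?_⟩
    intro b hb
    rw [Finset.mem_insert] at hb
    rcases hb with rfl | hb
    · exact ⟨m * x, by rw [map_mul, map_mul, ← hx]; ring⟩
    · obtain ⟨y, hy⟩ := hms b hb
      exact ⟨n * y, by rw [map_mul, map_mul, ← hy]; ring⟩

/-- continuous integer power on the unit circle -/
noncomputable def pw (n : ℤ) (z : ℂ) : ℂ := if 0 ≤ n then z ^ n.toNat else (conj z) ^ (-n).toNat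

theorem continuous_pw (n : ℤ) : Continuous (pw n) := by
  unfold pw
  split_ifs
  · exact continuous_pow _
  · exact (Complex.continuous_conj).pow _

theorem pw_circle (n : ℤ) (z : Circle) : pw n (z : ℂ) = ((z ^ n : Circle) : ℂ) := by
  unfold pw
  split_ifs with h
  · obtain ⟨k, rfl⟩ := Int.eq_ofNat_of_zero_le h
    simp
  · obtain ⟨k, hk⟩ := Int.eq_ofNat_of_zero_le (show 0 ≤ -n by omega)
    have hn : n = -(k : ℤ) := by omega
    subst hn
    simp only [neg_neg, Int.toNat_natCast, zpow_neg, zpow_natCast]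
    rw [← Circle.coe_inv_eq_conj, ← Circle.coe_pow, inv_pow]

theorem ι_eq (b : GaussianInt) : S.ι b = (b.re : E) + (b.im : E) * S.I := by
  have : b = (b.re : GaussianInt) + (b.im : GaussianInt) * ⟨0, 1⟩ := by
    rw [Zsqrtd.ext_iff]; simp
  conv_lhs => rw [this]
  rw [map_add, map_mul, map_intCast, map_intCast]
  rfl

theorem char_eval {m : GaussianInt} (hm : m ≠ 0) {a : E} {b : GaussianInt}
    (hb : S.ι m * a = S.ι b) (χ : AddChar E Circle) :
    ((χ a : Circle) : ℂ) = pw b.re ((χ (S.ι m)⁻¹ : Circle) : ℂ) *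
      pw b.im ((χ (S.I * (S.ι m)⁻¹) : Circle) : ℂ) := by
  rw [pw_circle, pw_circle, ← Circle.coe_mul]
  congr 1
  rw [← AddChar.map_zsmul_eq_zpow, ← AddChar.map_zsmul_eq_zpow, ← AddChar.map_add_eq_mul]
  congr 1
  have hm' := ι_ne_zero S hm
  rw [zsmul_eq_mul, zsmul_eq_mul]
  rw [ι_eq S b] at hb
  field_simp
  rw [mul_comm]
  rw [hb]

theorem targetP3 (ν : Measure (AddChar E Circle)) [IsFiniteMeasure ν] : S.TargetP3 ν := by
  intro h hh κ hκ
  have hev : ∀ a ∈ Rsub S, Measurable fun χ : AddChar E Circle => ((χ a : Circle) : ℂ) :=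
    fun a _ => measurable_eval a
  have hA : Appr ν (fun χ : AddChar E Circle => χ) (Rsub S) h := by
    apply appr_of_stronglyMeasurable hev
    rw [← sigmaR_eq]
    exact hh.stronglyMeasurable
  obtain ⟨Pp, hP, hm⟩ := hA (1 / 8) (by norm_num) (ENNReal.ofReal κ) (by simpa using hκ)
  obtain ⟨s, q, hs, rfl⟩ := mem_TP _ _ hP
  obtain ⟨m, hmP, hms⟩ := common_denom S s hs
  choose! b hb using hms
  refine ⟨m, fun z => ∑ a ∈ s, q a * (pw (b a).re z.1 * pw (b a).im z.2), hmP, ?_, ?_⟩
  · refine continuous_finsetSum _ fun a _ => continuous_const.mul ?_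
    exact ((continuous_pw _).comp continuous_fst).mul ((continuous_pw _).comp continuous_snd)
  · have hm0 := ne_zero_of_not_dvd hmP
    have hle : ν {χ : AddChar E Circle | 1 / 8 ≤ ‖h χ -
          ∑ a ∈ s, q a * (pw (b a).re ((χ (S.ι m)⁻¹ : Circle) : ℂ) *
            pw (b a).im ((χ (S.I * (S.ι m)⁻¹) : Circle) : ℂ))‖} ≤ ENNReal.ofReal κ := by
      refine le_trans (measure_mono ?_) hm
      intro χ hx
      have hx' : (1 / 8 : ℝ) ≤ ‖h χ -
          ∑ a ∈ s, q a * (pw (b a).re ((χ (S.ι m)⁻¹ : Circle) : ℂ) *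
            pw (b a).im ((χ (S.I * (S.ι m)⁻¹) : Circle) : ℂ))‖ := hx
      show (1 / 8 : ℝ) ≤ ‖h χ - ∑ a ∈ s, q a * ((χ a : Circle) : ℂ)‖
      refine le_trans hx' (le_of_eq ?_)
      congr 2
      refine Finset.sum_congr rfl fun a ha => ?_
      rw [char_eval S hm0 (hb a ha) χ]
    calc ν.real _ = (ν _).toReal := rfl
      _ ≤ (ENNReal.ofReal κ).toReal := ENNReal.toReal_mono ENNReal.ofReal_ne_top hle
      _ = κ := ENNReal.toReal_ofReal hκ.le

end

end Crest.Agent.R40.T1R2P3
end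

-- ▼ part R40/T1EFinal

/-!
# R40 / T1: the E-theorem `EHyp yseq`
-/

set_option autoImplicit false

namespace Crest.Agent.R40.T1EFinal

open Complex MeasureTheory Filter Topology
open Crest.Agent.R40.T1 (E Dual RotInv rot mem_E measurable_eval)
open Crest.Agent.R40.T1B (LimSet EHyp measurableSet_limSet)
open Crest.Agent.R40.T1R2 Crest.Agent.R40.T1EGlue

theorem targetR2 (ν : Measure (Dual E)) [IsFiniteMeasure ν] (h : SE.Invariant ν) : SE.TargetR2 ν :=
  Emb.targetR2_of SE (Emb.targetP1 SE ν h) (Crest.Agent.R40.T1R2P2.targetP2 SE h) (Crest.Agent.R40.T1R2P3.targetP3 SE ν)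

/-- **E-theorem** (Host + R2). -/
theorem ehyp : EHyp yseq := by
  intro μ hfin hrot hnull x hx
  have hinv : SE.Invariant μ := invariant_of_rotInv hrot
  have hfin' : IsFiniteMeasure (μ.map (fun χ : Dual E => χ.mulShift x)) := inferInstance
  refine T1Host.e_theorem SE hinv (measurableSet_limSet (y := yseq)) (fun χ h => structured_limSet h) x
    (targetR2 _ (T1Host.invariant_map SE hinv x)) ?_ hnull
  intro χ hχ a
  have h1 := hχ (x⁻¹ * a)
  refine h1.congr fun n => ?_
  rw [AddChar.mulShift_apply]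
  congr 2
  field_simp

end Crest.Agent.R40.T1EFinal
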