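import Mathlib
import Crest.Agent.R40.T1Defs

-- ▼ part R40/T1Mean
section

/-!
# R40 / T1: invariant means on abelian groups (elementary, by ultrafilter limits)
-/

set_option autoImplicit false

open Filter Topology

namespace Crest.Agent.R40.T1

/-- bounded real function -/
def Bdd {X : Type*} (h : X → ℝ) : Prop := ∃ C, ∀ x, |h x| ≤ C

theorem Bdd.add {X : Type*} {f g : X → ℝ} (hf : Bdd f) (hg : Bdd g) : Bdd (fun x => f x + g x) := by
  obtain ⟨C, hC⟩ := hf
  obtain ⟨D, hD⟩ := hg
  exact ⟨C + D, fun x => (abs_add_le _ _).trans (add_le_add (hC x) (hD x))⟩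

theorem Bdd.smul {X : Type*} {f : X → ℝ} (hf : Bdd f) (c : ℝ) : Bdd (fun x => c * f x) := by
  obtain ⟨C, hC⟩ := hf
  exact ⟨|c| * C, fun x => by rw [abs_mul]; exact mul_le_mul_of_nonneg_left (hC x) (abs_nonneg c)⟩

theorem Bdd.const {X : Type*} (c : ℝ) : Bdd (fun _ : X => c) := ⟨|c|, fun _ => le_rfl⟩

theorem Bdd.comp {X Y : Type*} {f : X → ℝ} (hf : Bdd f) (g : Y → X) : Bdd (fun y => f (g y)) := by
  obtain ⟨C, hC⟩ := hf
  exact ⟨C, fun y => hC _⟩

/-- finitely additive mean on bounded functions -/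
structure IsMean {X : Type*} (m : (X → ℝ) → ℝ) : Prop where
  add : ∀ f g, Bdd f → Bdd g → m (fun x => f x + g x) = m f + m g
  smul : ∀ (c : ℝ) f, Bdd f → m (fun x => c * f x) = c * m f
  nonneg : ∀ f, Bdd f → (∀ x, 0 ≤ f x) → 0 ≤ m f
  one : m (fun _ => 1) = 1

namespace IsMean

variable {X : Type*} {m : (X → ℝ) → ℝ}

theorem const (hm : IsMean m) (c : ℝ) : m (fun _ => c) = c := by
  have := hm.smul c (fun _ => 1) (Bdd.const 1)
  simpa [hm.one] using this

theorem mono (hm : IsMean m) {f g : X → ℝ} (hf : Bdd f) (hg : Bdd g) (h : ∀ x, f x ≤ g x) :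
    m f ≤ m g := by
  have h1 : m g = m f + m (fun x => g x + (-1) * f x) := by
    rw [← hm.add f _ hf (hg.add (hf.smul (-1)))]
    congr 1; funext x; ring
  have h2 : 0 ≤ m (fun x => g x + (-1) * f x) :=
    hm.nonneg _ (hg.add (hf.smul (-1))) (fun x => by linarith [h x])
  linarith

theorem abs_le (hm : IsMean m) {f : X → ℝ} {C : ℝ} (h : ∀ x, |f x| ≤ C) : |m f| ≤ C := by
  have hf : Bdd f := ⟨C, h⟩
  rw [_root_.abs_le]
  constructor
  · rw [← hm.const (-C)]
    exact hm.mono (Bdd.const _) hf (fun x => (_root_.abs_le.1 (h x)).1)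
  · rw [← hm.const C]
    exact hm.mono hf (Bdd.const _) (fun x => (_root_.abs_le.1 (h x)).2)

end IsMean

/-- pointwise ultralimit of functionals -/
noncomputable def ulim {X ι : Type*} (l : Ultrafilter ι) (m : ι → (X → ℝ) → ℝ) (f : X → ℝ) : ℝ :=
  limUnder (l : Filter ι) (fun i => m i f)

theorem tendsto_ulim {X ι : Type*} (l : Ultrafilter ι) (m : ι → (X → ℝ) → ℝ)
    (hm : ∀ i, IsMean (m i)) {f : X → ℝ} (hf : Bdd f) :
    Tendsto (fun i => m i f) l (𝓝 (ulim l m f)) := by
  obtain ⟨C, hC⟩ := hf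
  apply tendsto_nhds_limUnder
  have hmem : Set.Icc (-C) C ∈ (l.map (fun i => m i f) : Filter ℝ) := by
    rw [Ultrafilter.coe_map, Filter.mem_map]
    exact Filter.univ_mem' fun i => _root_.abs_le.1 ((hm i).abs_le hC)
  obtain ⟨x, -, hx⟩ := isCompact_Icc.ultrafilter_le_nhds (l.map (fun i => m i f))
    (by rwa [Filter.le_principal_iff])
  exact ⟨x, hx⟩

theorem isMean_ulim {X ι : Type*} (l : Ultrafilter ι) (m : ι → (X → ℝ) → ℝ)
    (hm : ∀ i, IsMean (m i)) : IsMean (ulim l m) where
  add := by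
    intro f g hf hg
    refine tendsto_nhds_unique (tendsto_ulim l m hm (hf.add hg)) ?_
    refine ((tendsto_ulim l m hm hf).add (tendsto_ulim l m hm hg)).congr fun i => ?_
    exact ((hm i).add f g hf hg).symm
  smul := by
    intro c f hf
    refine tendsto_nhds_unique (tendsto_ulim l m hm (hf.smul c)) ?_
    refine ((tendsto_ulim l m hm hf).const_mul c).congr fun i => ?_
    exact ((hm i).smul c f hf).symm
  nonneg := by
    intro f hf h0
    exact ge_of_tendsto' (tendsto_ulim l m hm hf) (fun i => (hm i).nonneg f hf h0)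
  one := by
    refine tendsto_nhds_unique (tendsto_ulim l m hm (Bdd.const 1)) ?_
    refine tendsto_const_nhds.congr fun i => ?_
    exact ((hm i).one).symm

theorem ulim_eq {X Y ι : Type*} (l : Ultrafilter ι) (m : ι → (X → ℝ) → ℝ)
    (hm : ∀ i, IsMean (m i)) {f g : X → ℝ} (hf : Bdd f) (hg : Bdd g)
    (h : Tendsto (fun i => m i f - m i g) l (𝓝 0)) (_ : Y = Y) : ulim l m f = ulim l m g := by
  have h1 := (tendsto_ulim l m hm hf).sub (tendsto_ulim l m hm hg)
  have := tendsto_nhds_unique h1 h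
  linarith

/-- averaging a mean over the orbit of `a` -/
noncomputable def avgOp {A : Type*} [AddCommGroup A] (m : (A → ℝ) → ℝ) (a : A) (N : ℕ)
    (f : A → ℝ) : ℝ :=
  (∑ j ∈ Finset.range (N + 1), m (fun x => f (x + j • a))) / (N + 1)

theorem isMean_avgOp {A : Type*} [AddCommGroup A] {m : (A → ℝ) → ℝ} (hm : IsMean m) (a : A)
    (N : ℕ) : IsMean (avgOp m a N) where
  add := by
    intro f g hf hg
    unfold avgOp
    rw [← add_div, ← Finset.sum_add_distrib]
    congr 1
    refine Finset.sum_congr rfl fun j _ => ?_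
    exact hm.add _ _ (hf.comp _) (hg.comp _)
  smul := by
    intro c f hf
    unfold avgOp
    rw [mul_div_assoc', Finset.mul_sum]
    congr 1
    refine Finset.sum_congr rfl fun j _ => ?_
    exact hm.smul c _ (hf.comp _)
  nonneg := by
    intro f hf h0
    unfold avgOp
    exact div_nonneg (Finset.sum_nonneg fun j _ => hm.nonneg _ (hf.comp _) fun x => h0 _)
      (by positivity)
  one := by
    unfold avgOp
    simp only [hm.one, Finset.sum_const, Finset.card_range, nsmul_eq_mul, mul_one]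
    push_cast
    exact div_self (by positivity)

theorem exists_mean_finset {A : Type*} [AddCommGroup A] (S : Finset A) :
    ∃ m : (A → ℝ) → ℝ, IsMean m ∧
      ∀ a ∈ S, ∀ f, Bdd f → m (fun x => f (x + a)) = m f := by
  classical
  induction S using Finset.induction_on with
  | empty =>
    refine ⟨fun f => f 0, ⟨fun _ _ _ _ => rfl, fun _ _ _ => rfl, fun _ _ h => h 0, rfl⟩, ?_⟩
    simp
  | insert a S _ ih =>
    obtain ⟨m, hm, hinv⟩ := ih
    let l : Ultrafilter ℕ := Ultrafilter.of atTop
    have hl : (l : Filter ℕ) ≤ atTop := Ultrafilter.of_le atTop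
    refine ⟨ulim l (avgOp m a), isMean_ulim l _ fun N => isMean_avgOp hm a N, ?_⟩
    intro b hb f hf
    rw [Finset.mem_insert] at hb
    rcases hb with rfl | hb
    · refine ulim_eq (Y := ℕ) l _ (fun N => isMean_avgOp hm b N) (hf.comp _) hf ?_ rfl
      obtain ⟨C, hC⟩ := hf
      have key : ∀ N : ℕ, avgOp m b N (fun x => f (x + b)) - avgOp m b N f
          = (m (fun x => f (x + (N + 1) • b)) - m f) / (N + 1) := by
        intro N
        unfold avgOp
        rw [← sub_div]
        congr 1
        have h1 : ∀ j : ℕ, m (fun x => f (x + j • b + b)) = m (fun x => f (x + (j + 1) • b)) := by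
          intro j
          congr 1; funext x; congr 1
          rw [add_smul, one_smul, add_assoc]
        rw [← Finset.sum_sub_distrib]
        simp only [h1]
        rw [Finset.sum_range_sub (fun j => m (fun x => f (x + j • b)))]
        simp
      have hb : Tendsto (fun N : ℕ => 2 * C / ((N : ℝ) + 1)) atTop (𝓝 0) := by
        have h0 := tendsto_one_div_add_atTop_nhds_zero_nat (𝕜 := ℝ)
        have h1 := h0.const_mul (2 * C)
        simpa [div_eq_mul_inv] using h1
      refine squeeze_zero_norm (fun N => ?_) (hb.mono_left hl)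
      rw [key N, Real.norm_eq_abs, abs_div, abs_of_nonneg (by positivity : (0 : ℝ) ≤ (N : ℝ) + 1)]
      apply div_le_div_of_nonneg_right _ (by positivity)
      have h1 : |m (fun x => f (x + (N + 1) • b))| ≤ C := hm.abs_le fun x => hC _
      have h2 : |m f| ≤ C := hm.abs_le hC
      calc |m (fun x => f (x + (N + 1) • b)) - m f|
          ≤ |m (fun x => f (x + (N + 1) • b))| + |m f| := abs_sub _ _
        _ ≤ 2 * C := by linarith
    · refine ulim_eq (Y := ℕ) l _ (fun N => isMean_avgOp hm a N) (hf.comp _) hf ?_ rfl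
      have key : ∀ N : ℕ, avgOp m a N (fun x => f (x + b)) - avgOp m a N f = 0 := by
        intro N
        unfold avgOp
        rw [← sub_div, ← Finset.sum_sub_distrib]
        rw [Finset.sum_eq_zero, zero_div]
        intro j _
        rw [sub_eq_zero]
        have := hinv b hb (fun x => f (x + j • a)) (hf.comp _)
        rw [← this]
        congr 1; funext x; congr 1
        rw [add_right_comm]
      simp only [key]
      exact tendsto_const_nhds

/-- invariant mean on an abelian group -/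
theorem exists_mean (A : Type*) [AddCommGroup A] :
    ∃ m : (A → ℝ) → ℝ, IsMean m ∧ ∀ a : A, ∀ f, Bdd f → m (fun x => f (x + a)) = m f := by
  classical
  choose m hm hinv using fun S : Finset A => exists_mean_finset S
  let l : Ultrafilter (Finset A) := Ultrafilter.of atTop
  have hl : (l : Filter (Finset A)) ≤ atTop := Ultrafilter.of_le atTop
  refine ⟨ulim l m, isMean_ulim l m hm, ?_⟩
  intro a f hf
  refine ulim_eq (Y := ℕ) l m hm (hf.comp _) hf ?_ rfl
  refine Tendsto.congr' ?_ tendsto_const_nhds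
  have : ∀ᶠ S : Finset A in l, {a} ≤ S := hl (Filter.eventually_ge_atTop ({a} : Finset A))
  filter_upwards [this] with S hS
  rw [hinv S a (hS (Finset.mem_singleton_self a)) f hf, sub_self]

end Crest.Agent.R40.T1
end

-- ▼ part R40/T1Inv

/-!
# R40 / T1 (M1): a random proper colouring of `F`, invariant under translations and rotations
-/

set_option autoImplicit false

open Filter Topology MeasureTheory

namespace Crest.Agent.R40.T1

open CompactlySupported in
/-- Riesz-Markov for a normalised positive functional on `C(Ω, ℝ)`, `Ω` compact. -/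
theorem exists_measure_of_functional {Ω : Type*} [TopologicalSpace Ω] [CompactSpace Ω] [T2Space Ω]
    [MeasurableSpace Ω] [BorelSpace Ω] (Λ : (Ω → ℝ) → ℝ)
    (hadd : ∀ f g : C(Ω, ℝ), Λ (fun x => f x + g x) = Λ f + Λ g)
    (hsmul : ∀ (c : ℝ) (f : C(Ω, ℝ)), Λ (fun x => c * f x) = c * Λ f)
    (hpos : ∀ f : C(Ω, ℝ), (∀ x, 0 ≤ f x) → 0 ≤ Λ f)
    (hone : Λ (fun _ => 1) = 1) :
    ∃ P : Measure Ω, IsProbabilityMeasure P ∧ ∀ f : C(Ω, ℝ), ∫ x, f x ∂P = Λ f := by
  have hmono : ∀ f g : C(Ω, ℝ), (∀ x, f x ≤ g x) → Λ f ≤ Λ g := by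
    intro f g h
    have h1 : Λ g = Λ f + Λ (g - f : C(Ω, ℝ)) := by
      rw [← hadd f (g - f)]
      congr 1; funext x; simp
    have h2 := hpos (g - f) (fun x => by simpa using h x)
    linarith
  let L : C_c(Ω, ℝ) →ₚ[ℝ] ℝ :=
  { toFun g := Λ g
    map_add' g g' := hadd g.toContinuousMap g'.toContinuousMap
    map_smul' c g := hsmul c g.toContinuousMap
    monotone' g g' hgg' := hmono g.toContinuousMap g'.toContinuousMap hgg' }
  have key : ∀ f : C(Ω, ℝ), ∫ x, f x ∂(RealRMK.rieszMeasure L) = Λ f := by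
    intro f
    let f' : C_c(Ω, ℝ) :=
    { toFun := f
      hasCompactSupport' := HasCompactSupport.of_compactSpace _ }
    exact RealRMK.integral_rieszMeasure L f'
  refine ⟨RealRMK.rieszMeasure L, ?_, key⟩
  have h1 := key (ContinuousMap.const Ω (1 : ℝ))
  simp only [ContinuousMap.coe_const, Function.const_apply, integral_const, smul_eq_mul,
    mul_one] at h1
  have h3 : (RealRMK.rieszMeasure L).real Set.univ = 1 := h1.trans hone
  refine ⟨?_⟩
  rw [measureReal_def] at h3
  have : (RealRMK.rieszMeasure L) Set.univ ≠ ⊤ := measure_ne_top _ _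
  rw [← ENNReal.ofReal_toReal this, h3, ENNReal.ofReal_one]

instance : Countable F := by
  have hK : Countable K := by
    have : (K : Set ℝ) ⊆ {x : ℝ | IsAlgebraic ℚ x} := fun x hx => K_algebraic hx
    exact ((Algebraic.countable ℚ ℝ).mono this).to_subtype
  have : Function.Injective (fun z : F => ((⟨(z : ℂ).re, z.2.1⟩ : K), (⟨(z : ℂ).im, z.2.2⟩ : K))) := by
    intro z w h
    simp only [Prod.mk.injEq, Subtype.mk.injEq] at h
    exact Subtype.ext (Complex.ext h.1 h.2)
  exact this.countable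

/-- the colouring `z ↦ c (u z + x)` -/
noncomputable def pull (c : ℂ → Fin 5) (u x : F) : F → Fin 5 := fun z => c ((u * z + x : F) : ℂ)

/-- norm one elements -/
def U : Subgroup Fˣ where
  carrier := {u | ‖((u : F) : ℂ)‖ = 1}
  mul_mem' := by
    intro a b ha hb
    simp only [Set.mem_ofPred_eq] at *
    push_cast
    rw [norm_mul, ha, hb, one_mul]
  one_mem' := by simp
  inv_mem' := by
    intro a ha
    simp only [Set.mem_ofPred_eq] at *
    have h1 : ((a : F) : ℂ) * (((a⁻¹ : Fˣ) : F) : ℂ) = 1 := by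
      rw [← Subfield.coe_mul, Units.mul_inv]; rfl
    have h2 := congrArg norm h1
    rw [norm_mul, ha, one_mul, norm_one] at h2
    exact h2

theorem exists_invariant (c : ℂ → Fin 5) (hc : ∀ x y : ℂ, ‖x - y‖ = 1 → c x ≠ c y) :
    ∃ P : Measure (F → Fin 5), IsProbabilityMeasure P ∧
      (∀ y : F, MeasurePreserving (fun (ω : F → Fin 5) (x : F) => ω (x + y)) P P) ∧
      (∀ u : F, ‖(u : ℂ)‖ = 1 →
        MeasurePreserving (fun (ω : F → Fin 5) (x : F) => ω (u * x)) P P) ∧
      ∀ x y : F, ‖(x : ℂ) - y‖ = 1 → ∀ᵐ ω ∂P, ω x ≠ ω y := by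
  obtain ⟨mF, hmF, hmFinv⟩ := exists_mean F
  obtain ⟨mU, hmU, hmUinv⟩ := exists_mean (Additive U)
  let Λ : ((F → Fin 5) → ℝ) → ℝ := fun φ =>
    mU fun u => mF fun x => φ (pull c ((u.toMul : Fˣ) : F) x)
  have hbdd : ∀ φ : C(F → Fin 5, ℝ), ∃ C, ∀ ω, |φ ω| ≤ C := by
    intro φ
    exact ⟨‖φ‖, fun ω => φ.norm_coe_le_norm ω⟩
  have hb1 : ∀ (φ : C(F → Fin 5, ℝ)) (u : F), Bdd (fun x => φ (pull c u x)) := by
    intro φ u
    obtain ⟨C, hC⟩ := hbdd φ
    exact ⟨C, fun x => hC _⟩
  have hb2 : ∀ (φ : C(F → Fin 5, ℝ)),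
      Bdd (fun u : Additive U => mF fun x => φ (pull c ((u.toMul : Fˣ) : F) x)) := by
    intro φ
    obtain ⟨C, hC⟩ := hbdd φ
    exact ⟨C, fun u => hmF.abs_le fun x => hC _⟩
  obtain ⟨P, hP, hPi⟩ := exists_measure_of_functional Λ
    (by
      intro f g
      simp only [Λ]
      rw [← hmU.add _ _ (hb2 f) (hb2 g)]
      congr 1; funext u
      exact hmF.add _ _ (hb1 f _) (hb1 g _))
    (by
      intro a f
      simp only [Λ]
      rw [← hmU.smul _ _ (hb2 f)]
      congr 1; funext u
      exact hmF.smul _ _ (hb1 f _))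
    (by
      intro f h0
      simp only [Λ]
      exact hmU.nonneg _ (hb2 f) fun u => hmF.nonneg _ (hb1 f _) fun x => h0 _)
    (by
      simp only [Λ]
      rw [hmF.one, hmU.one])
  -- invariance criterion
  have hinv : ∀ τ : (F → Fin 5) → (F → Fin 5), Continuous τ →
      (∀ φ : C(F → Fin 5, ℝ), Λ (fun ω => φ (τ ω)) = Λ φ) → MeasurePreserving τ P P := by
    intro τ hτ h
    refine ⟨hτ.measurable, ?_⟩
    have : IsProbabilityMeasure (P.map τ) := Measure.isProbabilityMeasure_map hτ.measurable.aemeasurable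
    refine ext_of_forall_integral_eq_of_IsFiniteMeasure fun φ => ?_
    rw [integral_map hτ.measurable.aemeasurable φ.continuous.aestronglyMeasurable]
    have h1 := hPi (φ.toContinuousMap.comp ⟨τ, hτ⟩)
    have h2 := hPi φ.toContinuousMap
    have h3 := h φ.toContinuousMap
    calc ∫ x, φ (τ x) ∂P = Λ (fun ω => φ (τ ω)) := h1
      _ = Λ φ := h3
      _ = ∫ x, φ x ∂P := h2.symm
  refine ⟨P, hP, ?_, ?_, ?_⟩
  · intro y
    refine hinv _ (by fun_prop) ?_
    intro φ
    simp only [Λ]
    congr 1; funext u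
    rw [← hmFinv (((u.toMul : Fˣ) : F) * y) _ (hb1 φ _)]
    congr 1; funext x; congr 1
    funext z
    simp only [pull]
    congr 2
    ring
  · intro v hv
    refine hinv _ (by fun_prop) ?_
    intro φ
    simp only [Λ]
    have hv0 : v ≠ 0 := by
      rintro rfl
      simp at hv
    let v' : U := ⟨Units.mk0 v hv0, hv⟩
    rw [← hmUinv (Additive.ofMul v') _ (hb2 φ)]
    congr 1; funext u
    congr 1; funext x; congr 1
    funext z
    simp only [pull, toMul_add, toMul_ofMul, Subgroup.coe_mul, Units.val_mul, v', Units.val_mk0]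
    congr 2
    ring
  · intro x y hxy
    have hcl : IsClopen {ω : F → Fin 5 | ω x = ω y} := by
      have h1 : Continuous (fun ω : F → Fin 5 => (ω x, ω y)) := by fun_prop
      have h2 : IsClopen {p : Fin 5 × Fin 5 | p.1 = p.2} := isClopen_discrete _
      exact h2.preimage h1
    let φ : C(F → Fin 5, ℝ) := ⟨Set.indicator {ω : F → Fin 5 | ω x = ω y} (fun _ => (1 : ℝ)),
      hcl.continuous_indicator continuous_const |> fun h => h⟩
    have h1 := hPi φ
    have h2 : Λ φ = 0 := by
      simp only [Λ]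
      have h3 : ∀ (u : Additive U) (t : F), φ (pull c ((u.toMul : Fˣ) : F) t) = 0 := by
        intro u t
        simp only [φ, ContinuousMap.coe_mk]
        apply Set.indicator_of_notMem
        simp only [Set.mem_ofPred_eq, pull]
        apply hc
        have hu : ‖(((u.toMul : Fˣ) : F) : ℂ)‖ = 1 := (u.toMul).2
        push_cast
        have : (((u.toMul : Fˣ) : F) : ℂ) * (x : ℂ) + (t : ℂ)
            - ((((u.toMul : Fˣ) : F) : ℂ) * (y : ℂ) + (t : ℂ))
            = (((u.toMul : Fˣ) : F) : ℂ) * ((x : ℂ) - y) := by ring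
        rw [this, norm_mul, hu, hxy, one_mul]
      simp only [h3]
      rw [hmF.const, hmU.const]
    have hms : MeasurableSet {ω : F → Fin 5 | ω x = ω y} := hcl.1.measurableSet
    rw [h2] at h1
    simp only [φ, ContinuousMap.coe_mk] at h1
    rw [integral_indicator_const _ hms, smul_eq_mul, mul_one] at h1
    have h4 : P {ω : F → Fin 5 | ω x = ω y} = 0 := by
      rwa [measureReal_eq_zero_iff] at h1
    rw [ae_iff]
    simpa using h4

end Crest.Agent.R40.T1
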