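import Mathlib
import Crest.Agent.R40.T1Defs
import Crest.Agent.R40.T1Inv

-- ▼ part R40/T1Folner
section

/-!
# R40 / T1: almost invariant vectors on abelian groups (Reiter's property), elementary
-/

set_option autoImplicit false

open Filter Topology

namespace Crest.Agent.R40.T1

structure FinProb {A : Type*} (α : A → ℝ) : Prop where
  nonneg : ∀ a, 0 ≤ α a
  fin : (Function.support α).Finite
  sum_eq : ∑' a, α a = 1

theorem summable_of_fin {A : Type*} {α : A → ℝ} (h : (Function.support α).Finite) :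
    Summable α := summable_of_hasFiniteSupport h

theorem fin_shift {A : Type*} [AddCommGroup A] {α : A → ℝ} (h : (Function.support α).Finite)
    (x : A) : (Function.support fun b => α (b + x)).Finite := by
  have : (Function.support fun b => α (b + x)) = (fun b => b + x) ⁻¹' (Function.support α) := by
    ext b; simp
  rw [this]
  exact h.preimage (add_left_injective x).injOn

theorem tsum_shift {A : Type*} [AddCommGroup A] (f : A → ℝ) (x : A) :
    ∑' b, f (b + x) = ∑' b, f b := (Equiv.addRight x).tsum_eq f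

theorem reiter {A : Type*} [AddCommGroup A] (S : Finset A) {ε : ℝ} (hε : 0 < ε) :
    ∃ α : A → ℝ, FinProb α ∧ ∀ x ∈ S, ∑' b, |α (b + x) - α b| ≤ ε := by
  classical
  induction S using Finset.induction_on with
  | empty =>
    refine ⟨Pi.single 0 1, ⟨?_, ?_, ?_⟩, by simp⟩
    · intro a
      by_cases h : a = 0
      · subst h; simp
      · simp [Pi.single_apply, h]
    · exact (Set.finite_singleton 0).subset Pi.support_single_subset
    · exact tsum_pi_single 0 1
  | insert a S _ ih =>
    obtain ⟨α, hα, hS⟩ := ih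
    obtain ⟨N, hN⟩ := exists_nat_gt (2 / ε)
    have hN1 : (0 : ℝ) < (N : ℝ) + 1 := by positivity
    have hN2 : 2 / ((N : ℝ) + 1) ≤ ε := by
      rw [div_le_iff₀ hN1]
      rw [div_lt_iff₀ hε] at hN
      nlinarith
    have hfinj : ∀ j : ℕ, (Function.support fun b => α (b + j • a)).Finite :=
      fun j => fin_shift hα.fin _
    have hfin' : (Function.support fun b =>
        (∑ j ∈ Finset.range (N + 1), α (b + j • a)) / ((N : ℝ) + 1)).Finite := by
      refine (Set.Finite.biUnion (Finset.range (N + 1)).finite_toSet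
        (fun j _ => hfinj j)).subset ?_
      intro b hb
      rw [Function.mem_support] at hb
      have : (∑ j ∈ Finset.range (N + 1), α (b + j • a)) ≠ 0 := by
        intro h; rw [h] at hb; simp at hb
      obtain ⟨j, hj, hj'⟩ := Finset.exists_ne_zero_of_sum_ne_zero this
      exact Set.mem_biUnion hj hj'
    refine ⟨fun b => (∑ j ∈ Finset.range (N + 1), α (b + j • a)) / ((N : ℝ) + 1),
      ⟨?_, hfin', ?_⟩, ?_⟩
    · intro b
      exact div_nonneg (Finset.sum_nonneg fun j _ => hα.nonneg _) hN1.le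
    · rw [tsum_div_const, Summable.tsum_finsetSum fun j _ => summable_of_fin (hfinj j)]
      simp only [tsum_shift α, hα.sum_eq, Finset.sum_const, Finset.card_range, nsmul_eq_mul,
        mul_one]
      push_cast
      exact div_self hN1.ne'
    · intro x hx
      have hdiffin : ∀ (y : A) (j : ℕ), (Function.support fun b =>
          |α (b + j • a + y) - α (b + j • a)|).Finite := by
        intro y j
        refine ((fin_shift hα.fin (j • a + y)).union (hfinj j)).subset ?_
        intro b hb
        rw [Function.mem_support] at hb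
        by_contra h
        simp only [Set.mem_union, Function.mem_support, not_or, not_not] at h
        apply hb
        rw [add_assoc, h.1, h.2]; simp
      rw [Finset.mem_insert] at hx
      rcases hx with rfl | hx
      · have key : ∀ b, (∑ j ∈ Finset.range (N + 1), α (b + x + j • x)) / ((N : ℝ) + 1)
            - (∑ j ∈ Finset.range (N + 1), α (b + j • x)) / ((N : ℝ) + 1)
            = (α (b + (N + 1) • x) - α b) / ((N : ℝ) + 1) := by
          intro b
          rw [← sub_div]
          congr 1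
          rw [← Finset.sum_sub_distrib]
          have h1 : ∀ j : ℕ, α (b + x + j • x) = α (b + (j + 1) • x) := by
            intro j
            congr 1
            rw [add_smul, one_smul]; abel
          simp only [h1]
          rw [Finset.sum_range_sub (fun j => α (b + j • x))]
          simp
        simp only [key, abs_div, abs_of_pos hN1]
        rw [tsum_div_const]
        refine le_trans ?_ hN2
        apply div_le_div_of_nonneg_right _ hN1.le
        have hs1 : Summable fun b => |α (b + (N + 1) • x)| :=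
          (summable_of_fin (fin_shift hα.fin ((N + 1) • x))).abs
        have hs2 : Summable fun b => |α b| := (summable_of_fin hα.fin).abs
        have hs3 : Summable fun b => |α (b + (N + 1) • x) - α b| :=
          ((summable_of_fin (fin_shift hα.fin ((N + 1) • x))).sub (summable_of_fin hα.fin)).abs
        calc ∑' b, |α (b + (N + 1) • x) - α b|
            ≤ ∑' b, (|α (b + (N + 1) • x)| + |α b|) :=
              hs3.tsum_le_tsum (fun b => abs_sub _ _) (hs1.add hs2)
          _ = ∑' b, |α (b + (N + 1) • x)| + ∑' b, |α b| := hs1.tsum_add hs2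
          _ = 2 := by
              have h3 : ∀ b, |α b| = α b := fun b => abs_of_nonneg (hα.nonneg b)
              simp only [h3]
              rw [tsum_shift α, hα.sum_eq]; norm_num
      · have hs : ∀ j : ℕ, Summable fun b => |α (b + j • a + x) - α (b + j • a)| :=
          fun j => summable_of_fin (hdiffin x j)
        have hs' : Summable fun b => (∑ j ∈ Finset.range (N + 1),
            |α (b + j • a + x) - α (b + j • a)|) / ((N : ℝ) + 1) :=
          (summable_sum fun j _ => hs j).div_const _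
        have hle : ∀ b, |(∑ j ∈ Finset.range (N + 1), α (b + x + j • a)) / ((N : ℝ) + 1)
            - (∑ j ∈ Finset.range (N + 1), α (b + j • a)) / ((N : ℝ) + 1)|
            ≤ (∑ j ∈ Finset.range (N + 1),
            |α (b + j • a + x) - α (b + j • a)|) / ((N : ℝ) + 1) := by
          intro b
          rw [← sub_div, abs_div, abs_of_pos hN1, ← Finset.sum_sub_distrib]
          apply div_le_div_of_nonneg_right _ hN1.le
          refine (Finset.abs_sum_le_sum_abs _ _).trans (le_of_eq ?_)
          refine Finset.sum_congr rfl fun j _ => ?_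
          rw [add_right_comm]
        have hs0 : Summable fun b => |(∑ j ∈ Finset.range (N + 1), α (b + x + j • a)) / ((N : ℝ) + 1)
            - (∑ j ∈ Finset.range (N + 1), α (b + j • a)) / ((N : ℝ) + 1)| :=
          Summable.of_nonneg_of_le (fun b => abs_nonneg _) hle hs'
        refine (hs0.tsum_le_tsum hle hs').trans ?_
        rw [tsum_div_const, Summable.tsum_finsetSum fun j _ => hs j, div_le_iff₀ hN1]
        have h1 : ∀ j ∈ Finset.range (N + 1),
            ∑' b, |α (b + j • a + x) - α (b + j • a)| ≤ ε := by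
          intro j _
          have := tsum_shift (fun b => |α (b + x) - α b|) (j • a)
          rw [this]
          exact hS x hx
        refine (Finset.sum_le_sum h1).trans ?_
        simp only [Finset.sum_const, Finset.card_range, nsmul_eq_mul]
        push_cast
        linarith

theorem sqrt_sub_sq_le {u v : ℝ} (hu : 0 ≤ u) (hv : 0 ≤ v) : (√u - √v) ^ 2 ≤ |u - v| := by
  have h1 : u - v = (√u - √v) * (√u + √v) := by
    nlinarith [Real.mul_self_sqrt hu, Real.mul_self_sqrt hv]
  rw [h1, abs_mul, abs_of_nonneg (by positivity : 0 ≤ √u + √v), ← sq_abs, sq]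
  apply mul_le_mul_of_nonneg_left _ (abs_nonneg _)
  rw [abs_le]
  constructor <;> linarith [Real.sqrt_nonneg u, Real.sqrt_nonneg v]

/-- almost invariant unit vectors -/
theorem folner {A : Type*} [AddCommGroup A] (S : Finset A) {ε : ℝ} (hε : 0 < ε) :
    ∃ (B : Finset A) (β : A → ℝ), (∀ b, b ∉ B → β b = 0) ∧ ∑ b ∈ B, β b * β b = 1 ∧
      ∀ x ∈ S, |∑ b ∈ B, β b * β (b + x) - 1| ≤ ε := by
  classical
  obtain ⟨α, hα, hS⟩ := reiter S hε
  have hB : ∀ b, b ∉ hα.fin.toFinset → √(α b) = 0 := by
    intro b hb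
    simp only [Set.Finite.mem_toFinset, Function.mem_support, not_not] at hb
    rw [hb, Real.sqrt_zero]
  have hB' : ∀ b, b ∉ hα.fin.toFinset → α b = 0 := by
    intro b hb
    simpa only [Set.Finite.mem_toFinset, Function.mem_support, not_not] using hb
  have hsq : ∀ b, √(α b) * √(α b) = α b := fun b => Real.mul_self_sqrt (hα.nonneg b)
  have hsum : ∑ b ∈ hα.fin.toFinset, √(α b) * √(α b) = 1 := by
    simp only [hsq]
    rw [← hα.sum_eq, tsum_eq_sum hB']
  refine ⟨hα.fin.toFinset, fun b => √(α b), hB, hsum, ?_⟩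
  intro x hx
  have hs1 : Summable fun b => √(α b) * √(α (b + x)) := by
    refine summable_of_fin (hα.fin.subset ?_)
    intro b hb
    rw [Function.mem_support] at hb ⊢
    intro h; apply hb; rw [h]; simp
  have h1 : ∑ b ∈ hα.fin.toFinset, √(α b) * √(α (b + x)) = ∑' b, √(α b) * √(α (b + x)) := by
    rw [tsum_eq_sum]
    intro b hb
    rw [hB b hb, zero_mul]
  have hsα : Summable α := summable_of_fin hα.fin
  have hsα' : Summable fun b => α (b + x) := summable_of_fin (fin_shift hα.fin x)
  have h2 : ∑' b, (√(α (b + x)) - √(α b)) ^ 2 = 2 - 2 * ∑' b, √(α b) * √(α (b + x)) := by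
    have : ∀ b, (√(α (b + x)) - √(α b)) ^ 2
        = (α (b + x) + α b) - 2 * (√(α b) * √(α (b + x))) := by
      intro b
      nlinarith [hsq b, hsq (b + x)]
    simp only [this]
    rw [Summable.tsum_sub (hsα'.add hsα) (hs1.mul_left 2), hsα'.tsum_add hsα, tsum_mul_left,
      tsum_shift α, hα.sum_eq]
    norm_num
  have h3 : ∑' b, (√(α (b + x)) - √(α b)) ^ 2 ≤ ∑' b, |α (b + x) - α b| := by
    have hs3 : Summable fun b => |α (b + x) - α b| := (hsα'.sub hsα).abs
    have hs4 : Summable fun b => (√(α (b + x)) - √(α b)) ^ 2 :=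
      Summable.of_nonneg_of_le (fun b => sq_nonneg _)
        (fun b => sqrt_sub_sq_le (hα.nonneg _) (hα.nonneg _)) hs3
    exact hs4.tsum_le_tsum (fun b => sqrt_sub_sq_le (hα.nonneg _) (hα.nonneg _)) hs3
  have h4 : 0 ≤ ∑' b, (√(α (b + x)) - √(α b)) ^ 2 := tsum_nonneg fun b => sq_nonneg _
  have h5 := hS x hx
  simp only [h1]
  rw [abs_le]
  constructor <;> linarith

end Crest.Agent.R40.T1
end

-- ▼ part R40/T1Bochner
section

/-!
# R40 / T1 (M2): Bochner's theorem on countable discrete abelian groups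
-/

set_option autoImplicit false

open Filter Topology MeasureTheory
open scoped ComplexConjugate

namespace Crest.Agent.R40.T1

theorem IsMean.sum {X ι : Type*} {m : (X → ℝ) → ℝ} (hm : IsMean m) (s : Finset ι)
    (f : ι → X → ℝ) (hf : ∀ i, Bdd (f i)) :
    m (fun x => ∑ i ∈ s, f i x) = ∑ i ∈ s, m (f i) ∧ Bdd (fun x => ∑ i ∈ s, f i x) := by
  classical
  induction s using Finset.induction_on with
  | empty => simp only [Finset.sum_empty]; exact ⟨hm.const 0, Bdd.const 0⟩
  | insert a s ha ih =>
    simp only [Finset.sum_insert ha]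
    exact ⟨by rw [hm.add _ _ (hf a) ih.2, ih.1], (hf a).add ih.2⟩

theorem dual_norm {A : Type*} [AddCommGroup A] (χ : Dual A) (x : A) : ‖(χ x : ℂ)‖ = 1 :=
  Circle.norm_coe _

theorem bdd_char {A : Type*} [AddCommGroup A] (x : A) (z : ℂ) :
    Bdd (fun χ : Dual A => (z * (χ x : ℂ)).re) := by
  refine ⟨‖z‖, fun χ => ?_⟩
  refine (Complex.abs_re_le_norm _).trans ?_
  rw [norm_mul, dual_norm, mul_one]

/-- invariant mean on the dual: replaces Haar measure -/
theorem exists_dual_mean (A : Type*) [AddCommGroup A] [DecidableEq A]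
    (hsep : ∀ x : A, x ≠ 0 → ∃ χ : Dual A, χ x ≠ 1) :
    ∃ m : (Dual A → ℝ) → ℝ, IsMean m ∧ ∀ (x : A) (z : ℂ),
      m (fun χ => (z * (χ x : ℂ)).re) = if x = 0 then z.re else 0 := by
  obtain ⟨m', hm', hinv⟩ := exists_mean (Additive (Dual A))
  refine ⟨fun f => m' (fun χ => f χ.toMul),
    ⟨fun f g hf hg => hm'.add _ _ (hf.comp _) (hg.comp _), fun c f hf => hm'.smul c _ (hf.comp _),
      fun f hf h0 => hm'.nonneg _ (hf.comp _) fun x => h0 _, hm'.one⟩, ?_⟩
  have hb : ∀ (x : A) (z : ℂ), Bdd (fun χ : Additive (Dual A) => (z * ((χ.toMul) x : ℂ)).re) :=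
    fun x z => (bdd_char x z).comp _
  intro x z
  by_cases hx : x = 0
  · subst hx
    simp only [AddChar.map_zero_eq_one, Circle.coe_one, mul_one]
    rw [if_pos trivial]
    exact hm'.const _
  · rw [if_neg hx]
    obtain ⟨χ₀, hχ₀⟩ := hsep x hx
    -- invariance
    have h1 : ∀ w : ℂ, m' (fun χ => (w * (χ₀ x : ℂ) * ((χ.toMul) x : ℂ)).re)
        = m' (fun χ => (w * ((χ.toMul) x : ℂ)).re) := by
      intro w
      rw [← hinv (Additive.ofMul χ₀) _ (hb x w)]
      congr 1; funext χ
      simp only [toMul_add, toMul_ofMul, AddChar.mul_apply, Circle.coe_mul]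
      congr 1; ring
    have h2 : ∀ w : ℂ, m' (fun χ => (w * (1 - (χ₀ x : ℂ)) * ((χ.toMul) x : ℂ)).re) = 0 := by
      intro w
      have h3 := hm'.add _ _ (hb x w) (((hb x (w * (χ₀ x : ℂ)))).smul (-1))
      rw [hm'.smul (-1) _ (hb x (w * (χ₀ x : ℂ))), h1 w] at h3
      have h4 : (fun χ : Additive (Dual A) => (w * (1 - (χ₀ x : ℂ)) * ((χ.toMul) x : ℂ)).re)
          = fun χ => (w * ((χ.toMul) x : ℂ)).re + -1 * (w * (χ₀ x : ℂ) * ((χ.toMul) x : ℂ)).re := by
        funext χ
        have : w * (1 - (χ₀ x : ℂ)) * ((χ.toMul) x : ℂ)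
            = w * ((χ.toMul) x : ℂ) - w * (χ₀ x : ℂ) * ((χ.toMul) x : ℂ) := by ring
        rw [this, Complex.sub_re]; ring
      rw [h4, h3]; ring
    have hne : (1 : ℂ) - (χ₀ x : ℂ) ≠ 0 := by
      intro h
      apply hχ₀
      apply Circle.ext
      rw [Circle.coe_one]
      exact (sub_eq_zero.1 h).symm
    have h5 := h2 (z / (1 - (χ₀ x : ℂ)))
    rwa [div_mul_cancel₀ _ hne] at h5

/-- positive definite real function -/
def PosDef {A : Type*} [AddCommGroup A] (ψ : A → ℝ) : Prop :=
  ∀ (B : Finset A) (c : A → ℂ),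
    0 ≤ (∑ b ∈ B, ∑ b' ∈ B, c b * conj (c b') * (ψ (b - b') : ℂ)).re

/-- Fejer type density -/
noncomputable def hfun {A : Type*} [AddCommGroup A] (ψ : A → ℝ) (B : Finset A) (β : A → ℝ)
    (χ : Dual A) : ℝ :=
  ∑ b ∈ B, ∑ b' ∈ B, (β b * β b' * ψ (b - b')) * ((χ (b - b') : ℂ)).re

theorem char_sub_coe {A : Type*} [AddCommGroup A] (χ : Dual A) (x y : A) :
    (χ (x - y) : ℂ) = (χ x : ℂ) * conj (χ y : ℂ) := by
  rw [AddChar.map_sub_eq_div, Circle.coe_div, div_eq_mul_inv, ← Circle.coe_inv,
    Circle.coe_inv_eq_conj]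

theorem char_add_coe {A : Type*} [AddCommGroup A] (χ : Dual A) (x y : A) :
    (χ (x + y) : ℂ) = (χ x : ℂ) * (χ y : ℂ) := by
  rw [AddChar.map_add_eq_mul, Circle.coe_mul]

theorem hfun_nonneg {A : Type*} [AddCommGroup A] {ψ : A → ℝ} (hpd : PosDef ψ) (B : Finset A)
    (β : A → ℝ) (χ : Dual A) : 0 ≤ hfun ψ B β χ := by
  have h := hpd B (fun b => (β b : ℂ) * (χ b : ℂ))
  rw [Complex.re_sum] at h
  unfold hfun
  refine h.trans (le_of_eq ?_)
  refine Finset.sum_congr rfl fun b _ => ?_
  rw [Complex.re_sum]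
  refine Finset.sum_congr rfl fun b' _ => ?_
  rw [map_mul, Complex.conj_ofReal]
  have : (β b : ℂ) * (χ b : ℂ) * ((β b' : ℂ) * conj (χ b' : ℂ)) * (ψ (b - b') : ℂ)
      = ((β b * β b' * ψ (b - b') : ℝ) : ℂ) * ((χ b : ℂ) * conj (χ b' : ℂ)) := by
    push_cast; ring
  rw [this, ← char_sub_coe, Complex.re_ofReal_mul]

theorem bdd_hfun {A : Type*} [AddCommGroup A] (ψ : A → ℝ) (B : Finset A)
    (β : A → ℝ) : Bdd (hfun ψ B β) := by
  refine ⟨∑ b ∈ B, ∑ b' ∈ B, |β b * β b' * ψ (b - b')|, fun χ => ?_⟩
  unfold hfun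
  refine (Finset.abs_sum_le_sum_abs _ _).trans (Finset.sum_le_sum fun b _ => ?_)
  refine (Finset.abs_sum_le_sum_abs _ _).trans (Finset.sum_le_sum fun b' _ => ?_)
  rw [abs_mul]
  have : |((χ (b - b') : ℂ)).re| ≤ 1 := (Complex.abs_re_le_norm _).trans (dual_norm _ _).le
  exact mul_le_of_le_one_right (abs_nonneg _) this

theorem Bdd.mul {X : Type*} {f g : X → ℝ} (hf : Bdd f) (hg : Bdd g) : Bdd (fun x => f x * g x) := by
  obtain ⟨C, hC⟩ := hf
  obtain ⟨D, hD⟩ := hg
  refine ⟨C * D, fun x => ?_⟩
  rw [abs_mul]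
  exact mul_le_mul (hC x) (hD x) (abs_nonneg _) ((abs_nonneg _).trans (hC x))

theorem mean_hfun {A : Type*} [AddCommGroup A] {m : (Dual A → ℝ) → ℝ} (hm : IsMean m)
    [DecidableEq A]
    (horth : ∀ (x : A) (z : ℂ), m (fun χ => (z * (χ x : ℂ)).re) = if x = 0 then z.re else 0)
    (ψ : A → ℝ) (B : Finset A) (β : A → ℝ) (hβ : ∀ b, b ∉ B → β b = 0) (x : A) (z : ℂ) :
    m (fun χ => (z * (χ x : ℂ)).re * hfun ψ B β χ)
      = z.re / 2 * (ψ x * ∑ b ∈ B, β b * β (b + -x) + ψ (-x) * ∑ b ∈ B, β b * β (b + x)) := by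
  have hterm : ∀ (d : A) (k : ℝ), m (fun χ => k * ((z * (χ x : ℂ)).re * ((χ d : ℂ)).re))
      = k / 2 * ((if x + d = 0 then z.re else 0) + (if x - d = 0 then z.re else 0)) := by
    intro d k
    have h1 : (fun χ : Dual A => k * ((z * (χ x : ℂ)).re * ((χ d : ℂ)).re))
        = fun χ => (k / 2) * ((z * (χ (x + d) : ℂ)).re + (z * (χ (x - d) : ℂ)).re) := by
      funext χ
      rw [char_add_coe, char_sub_coe]
      have : (z * ((χ x : ℂ) * (χ d : ℂ))).re + (z * ((χ x : ℂ) * conj (χ d : ℂ))).re
          = 2 * ((z * (χ x : ℂ)).re * ((χ d : ℂ)).re) := by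
        rw [← mul_assoc, ← mul_assoc, Complex.mul_re (z * (χ x : ℂ)) (χ d : ℂ),
          Complex.mul_re (z * (χ x : ℂ)) (conj (χ d : ℂ)), Complex.conj_re, Complex.conj_im]
        ring
      rw [this]; ring
    rw [h1, hm.smul _ _ ((bdd_char _ _).add (bdd_char _ _)),
      hm.add _ _ (bdd_char _ _) (bdd_char _ _), horth, horth]
  have hb : ∀ (b b' : A), Bdd (fun χ : Dual A => (β b * β b' * ψ (b - b'))
      * ((z * (χ x : ℂ)).re * ((χ (b - b') : ℂ)).re)) := by
    intro b b'
    refine Bdd.smul (Bdd.mul (bdd_char _ _) ?_) _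
    have := bdd_char (b - b') 1
    simpa using this
  have h2 : (fun χ : Dual A => (z * (χ x : ℂ)).re * hfun ψ B β χ)
      = fun χ => ∑ b ∈ B, ∑ b' ∈ B, (β b * β b' * ψ (b - b'))
      * ((z * (χ x : ℂ)).re * ((χ (b - b') : ℂ)).re) := by
    funext χ
    unfold hfun
    rw [Finset.mul_sum]
    refine Finset.sum_congr rfl fun b _ => ?_
    rw [Finset.mul_sum]
    refine Finset.sum_congr rfl fun b' _ => ?_
    ring
  rw [h2, (hm.sum B _ fun b => (hm.sum B _ fun b' => hb b b').2).1]
  have h3 : ∀ b ∈ B, m (fun χ : Dual A => ∑ b' ∈ B, (β b * β b' * ψ (b - b'))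
      * ((z * (χ x : ℂ)).re * ((χ (b - b') : ℂ)).re))
      = z.re / 2 * (ψ (-x) * (β b * β (b + x)) + ψ x * (β b * β (b + -x))) := by
    intro b _
    rw [(hm.sum B _ fun b' => hb b b').1]
    simp only [hterm]
    have hA : ∀ y : A, ∀ g : A → ℝ, ∑ b' ∈ B, β b' * g b' * (if b' = y then 1 else 0)
        = β y * g y := by
      intro y g
      simp only [mul_ite, mul_one, mul_zero]
      rw [Finset.sum_ite_eq']
      split_ifs with h
      · rfl
      · rw [hβ y h, zero_mul]
    have h4 : ∀ b' ∈ B, β b * β b' * ψ (b - b') / 2 *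
        ((if x + (b - b') = 0 then z.re else 0) + (if x - (b - b') = 0 then z.re else 0))
        = z.re / 2 * β b * (β b' * ψ (b - b') * (if b' = b + x then 1 else 0))
          + z.re / 2 * β b * (β b' * ψ (b - b') * (if b' = b + -x then 1 else 0)) := by
      intro b' _
      have e1 : (x + (b - b') = 0) ↔ (b' = b + x) := by
        constructor
        · intro h
          have : b' = x + (b - b') + b' := by rw [h, zero_add]
          rw [this]; abel
        · rintro rfl; abel
      have e2 : (x - (b - b') = 0) ↔ (b' = b + -x) := by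
        constructor
        · intro h
          have : b' = b' + (x - (b - b')) - (x - (b - b')) := by abel
          rw [this, h, sub_zero, add_zero]
          have h5 : x = b - b' := sub_eq_zero.1 h
          rw [h5]; abel
        · rintro rfl; abel
      simp only [e1, e2]
      split_ifs <;> ring
    rw [Finset.sum_congr rfl h4, Finset.sum_add_distrib, ← Finset.mul_sum, ← Finset.mul_sum,
      hA, hA]
    have e3 : b - (b + x) = -x := by abel
    have e4 : b - (b + -x) = x := by abel
    rw [e3, e4]; ring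
  rw [Finset.sum_congr rfl h3, ← Finset.mul_sum, Finset.sum_add_distrib, ← Finset.mul_sum,
    ← Finset.mul_sum]
  ring

end Crest.Agent.R40.T1
end

-- ▼ part R40/T1Bochner2
section

/-!
# R40 / T1 (M2): Bochner's theorem on countable discrete abelian groups, part 2
-/

set_option autoImplicit false

open Filter Topology MeasureTheory
open scoped ComplexConjugate

namespace Crest.Agent.R40.T1

noncomputable local instance instMSCircle : MeasurableSpace Circle := borel Circle
local instance instBSCircle : BorelSpace Circle := ⟨rfl⟩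

open CompactlySupported in
/-- Riesz-Markov for a positive functional on `C(Ω, ℝ)`, `Ω` compact. -/
theorem exists_measure_of_functional' {Ω : Type*} [TopologicalSpace Ω] [CompactSpace Ω] [T2Space Ω]
    [MeasurableSpace Ω] [BorelSpace Ω] (Λ : (Ω → ℝ) → ℝ)
    (hadd : ∀ f g : C(Ω, ℝ), Λ (fun x => f x + g x) = Λ f + Λ g)
    (hsmul : ∀ (c : ℝ) (f : C(Ω, ℝ)), Λ (fun x => c * f x) = c * Λ f)
    (hpos : ∀ f : C(Ω, ℝ), (∀ x, 0 ≤ f x) → 0 ≤ Λ f) :
    ∃ P : Measure Ω, IsFiniteMeasure P ∧ ∀ f : C(Ω, ℝ), ∫ x, f x ∂P = Λ f := by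
  have hmono : ∀ f g : C(Ω, ℝ), (∀ x, f x ≤ g x) → Λ f ≤ Λ g := by
    intro f g h
    have h1 : Λ g = Λ f + Λ (g - f : C(Ω, ℝ)) := by
      rw [← hadd f (g - f)]
      congr 1; funext x; simp
    have h2 := hpos (g - f) (fun x => by simpa using h x)
    linarith
  let L : C_c(Ω, ℝ) →ₚ[ℝ] ℝ :=
  { toFun g := Λ g
    map_add' g g' := hadd g.toContinuousMap g'.toContinuousMap
    map_smul' c g := hsmul c g.toContinuousMap
    monotone' g g' hgg' := hmono g.toContinuousMap g'.toContinuousMap hgg' }
  refine ⟨RealRMK.rieszMeasure L, inferInstance, ?_⟩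
  intro f
  let f' : C_c(Ω, ℝ) :=
  { toFun := f
    hasCompactSupport' := HasCompactSupport.of_compactSpace _ }
  exact RealRMK.integral_rieszMeasure L f'

theorem tendsto_limUnder_of_bdd {ι : Type*} (l : Ultrafilter ι) (u : ι → ℝ) {C : ℝ}
    (h : ∀ i, |u i| ≤ C) : Tendsto u l (𝓝 (limUnder (l : Filter ι) u)) := by
  apply tendsto_nhds_limUnder
  have hmem : Set.Icc (-C) C ∈ (l.map u : Filter ℝ) := by
    rw [Ultrafilter.coe_map, Filter.mem_map]
    exact Filter.univ_mem' fun i => _root_.abs_le.1 (h i)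
  obtain ⟨x, -, hx⟩ := isCompact_Icc.ultrafilter_le_nhds (l.map u)
    (by rwa [Filter.le_principal_iff])
  exact ⟨x, hx⟩

/-- a function `A → Circle` is a character -/
def IsChar {A : Type*} [AddCommGroup A] (g : A → Circle) : Prop :=
  ∀ x y, g (x + y) = g x * g y

open Classical in
/-- retraction to characters -/
noncomputable def retr {A : Type*} [AddCommGroup A] (g : A → Circle) : Dual A :=
  if h : IsChar g then
    { toFun := g
      map_zero_eq_one' := by
        have := h 0 0
        rw [add_zero] at this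
        exact (mul_eq_left.1 this.symm)
      map_add_eq_mul' := h }
  else 1

theorem measurableSet_isChar {A : Type*} [AddCommGroup A] [Countable A] :
    MeasurableSet {g : A → Circle | IsChar g} := by
  have : {g : A → Circle | IsChar g} = ⋂ x : A, ⋂ y : A, {g | g (x + y) = g x * g y} := by
    ext g; simp [IsChar]
  rw [this]
  refine MeasurableSet.iInter fun x => MeasurableSet.iInter fun y => ?_
  exact (isClosed_eq (by fun_prop) (by fun_prop)).measurableSet

theorem measurable_retr {A : Type*} [AddCommGroup A] [Countable A] :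
    Measurable (retr : (A → Circle) → Dual A) := by
  classical
  rw [measurable_dual_iff]
  intro a
  have : (fun g : A → Circle => ((retr g) a : ℂ))
      = fun g => if IsChar g then (g a : ℂ) else 1 := by
    funext g
    unfold retr
    split_ifs with h
    · rfl
    · simp
  rw [this]
  refine Measurable.ite measurableSet_isChar ?_ measurable_const
  exact (by fun_prop : Continuous (fun g : A → Circle => (g a : ℂ))).measurable

theorem bochner {A : Type*} [AddCommGroup A] [Countable A]
    (hsep : ∀ x : A, x ≠ 0 → ∃ χ : Dual A, χ x ≠ 1) (ψ : A → ℝ) (hpd : PosDef ψ)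
    (hsymm : ∀ x, ψ (-x) = ψ x) :
    ∃ ν : Measure (Dual A), IsFiniteMeasure ν ∧ ∀ x : A, ∫ χ, (χ x : ℂ) ∂ν = (ψ x : ℂ) := by
  classical
  obtain ⟨m, hm, horth⟩ := exists_dual_mean A hsep
  choose B β hβ0 hβ1 hβ2 using fun p : Finset A × ℕ =>
    folner p.1 (ε := 1 / ((p.2 : ℝ) + 1)) (by positivity)
  let l : Ultrafilter (Finset A × ℕ) := Ultrafilter.of atTop
  have hl : (l : Filter (Finset A × ℕ)) ≤ atTop := Ultrafilter.of_le atTop
  -- convergence of the correlation coefficients
  have hcorr : ∀ x : A, Tendsto (fun i => ∑ b ∈ B i, β i b * β i (b + x)) l (𝓝 1) := by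
    intro x
    rw [tendsto_iff_norm_sub_tendsto_zero]
    have h1 : Tendsto (fun i : Finset A × ℕ => 1 / ((i.2 : ℝ) + 1)) l (𝓝 0) := by
      have h2 : Tendsto (fun i : Finset A × ℕ => i.2) l atTop :=
        (tendsto_snd.comp (le_of_eq prod_atTop_atTop_eq.symm)).mono_left hl
      exact tendsto_one_div_add_atTop_nhds_zero_nat.comp h2
    refine squeeze_zero' (Eventually.of_forall fun _ => norm_nonneg _) ?_ h1
    have h3 : ∀ᶠ i : Finset A × ℕ in l, ({x}, 0) ≤ i :=
      hl (Filter.eventually_ge_atTop (({x}, 0) : Finset A × ℕ))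
    filter_upwards [h3] with i hi
    exact hβ2 i x (hi.1 (Finset.mem_singleton_self x))
  -- masses
  have hmass : ∀ i, m (hfun ψ (B i) (β i)) = ψ 0 := by
    intro i
    have h := mean_hfun hm horth ψ (B i) (β i) (hβ0 i) 0 1
    simp only [AddChar.map_zero_eq_one, Circle.coe_one, mul_one, Complex.one_re, one_mul,
      neg_zero, add_zero, hβ1 i] at h
    rw [h]; ring
  have hh0 : ∀ i χ, 0 ≤ hfun ψ (B i) (β i) χ := fun i χ => hfun_nonneg hpd _ _ _
  have hhb : ∀ i, Bdd (hfun ψ (B i) (β i)) := fun i => bdd_hfun ψ _ _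
  let ev : Dual A → (A → Circle) := fun χ => χ
  let pre : ((A → Circle) → ℝ) → (Finset A × ℕ) → ℝ := fun φ i =>
    m (fun χ => φ (ev χ) * hfun ψ (B i) (β i) χ)
  have hbφ : ∀ φ : C(A → Circle, ℝ), Bdd (fun χ : Dual A => φ (ev χ)) :=
    fun φ => ⟨‖φ‖, fun ω => φ.norm_coe_le_norm _⟩
  have hpreb : ∀ φ : C(A → Circle, ℝ), ∀ i, |pre φ i| ≤ ‖φ‖ * ψ 0 := by
    intro φ i
    have hb1 : Bdd (fun χ => φ (ev χ) * hfun ψ (B i) (β i) χ) := (hbφ φ).mul (hhb i)
    have hφ : ∀ χ : Dual A, |φ (ev χ)| ≤ ‖φ‖ := fun χ => φ.norm_coe_le_norm _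
    rw [abs_le]
    constructor
    · have h1 := hm.mono ((hhb i).smul (-‖φ‖)) hb1 (fun χ =>
        mul_le_mul_of_nonneg_right (abs_le.1 (hφ χ)).1 (hh0 i χ))
      rw [hm.smul _ _ (hhb i), hmass i] at h1
      linarith
    · have h1 := hm.mono hb1 ((hhb i).smul (‖φ‖)) (fun χ =>
        mul_le_mul_of_nonneg_right (abs_le.1 (hφ χ)).2 (hh0 i χ))
      rw [hm.smul _ _ (hhb i), hmass i] at h1
      exact h1
  let Λ : ((A → Circle) → ℝ) → ℝ := fun φ => limUnder (l : Filter _) (pre φ)
  have hΛ : ∀ φ : C(A → Circle, ℝ), Tendsto (pre φ) l (𝓝 (Λ φ)) :=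
    fun φ => tendsto_limUnder_of_bdd l _ (hpreb φ)
  obtain ⟨ν₀, hν₀, hint⟩ := exists_measure_of_functional' Λ
    (by
      intro f g
      refine tendsto_nhds_unique (hΛ (f + g)) ?_
      refine ((hΛ f).add (hΛ g)).congr fun i => ?_
      simp only [pre]
      rw [← hm.add _ _ ((hbφ f).mul (hhb i)) ((hbφ g).mul (hhb i))]
      congr 1; funext χ
      simp only [ContinuousMap.add_apply]; ring)
    (by
      intro c f
      refine tendsto_nhds_unique (hΛ (c • f)) ?_
      refine ((hΛ f).const_mul c).congr fun i => ?_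
      simp only [pre]
      rw [← hm.smul _ _ ((hbφ f).mul (hhb i))]
      congr 1; funext χ
      simp only [ContinuousMap.smul_apply, smul_eq_mul]; ring)
    (by
      intro f hf
      exact ge_of_tendsto' (hΛ f) fun i =>
        hm.nonneg _ ((hbφ f).mul (hhb i)) fun χ => mul_nonneg (hf _) (hh0 i χ))
  -- Fourier coefficients
  have hcoef : ∀ (x : A) (z : ℂ), ∫ g : A → Circle, (z * (g x : ℂ)).re ∂ν₀ = z.re * ψ x := by
    intro x z
    let φ : C(A → Circle, ℝ) := ⟨fun g => (z * (g x : ℂ)).re, by fun_prop⟩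
    have h1 := hint φ
    have h2 : Tendsto (pre φ) l (𝓝 (z.re / 2 * (ψ x * 1 + ψ (-x) * 1))) := by
      have h3 : pre φ = fun i => z.re / 2 * (ψ x * ∑ b ∈ B i, β i b * β i (b + -x)
          + ψ (-x) * ∑ b ∈ B i, β i b * β i (b + x)) := by
        funext i
        exact mean_hfun hm horth ψ (B i) (β i) (hβ0 i) x z
      rw [h3]
      exact (((hcorr (-x)).const_mul _).add ((hcorr x).const_mul _)).const_mul _
    have h4 := tendsto_nhds_unique (hΛ φ) h2
    rw [h4, hsymm] at h1
    calc ∫ g : A → Circle, (z * (g x : ℂ)).re ∂ν₀ = ∫ g, φ g ∂ν₀ := rfl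
      _ = _ := by rw [h1]; ring
  -- concentrated on characters
  have hchar : ∀ᵐ g ∂ν₀, IsChar g := by
    unfold IsChar
    rw [ae_all_iff]; intro x
    rw [ae_all_iff]; intro y
    let φ : C(A → Circle, ℝ) := ⟨fun g => ‖(g (x + y) : ℂ) - (g x : ℂ) * (g y : ℂ)‖, by fun_prop⟩
    have h1 := hint φ
    have h2 : pre φ = fun _ => 0 := by
      funext i
      simp only [pre]
      have : ∀ χ : Dual A, φ (ev χ) = 0 := by
        intro χ
        simp only [φ, ev, ContinuousMap.coe_mk]
        rw [char_add_coe, sub_self, norm_zero]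
      simp only [this, zero_mul]
      exact hm.const 0
    have h3 : Λ φ = 0 := by
      refine tendsto_nhds_unique (hΛ φ) ?_
      rw [h2]; exact tendsto_const_nhds
    rw [h3] at h1
    have hb : Integrable φ ν₀ := by
      refine Integrable.of_bound φ.continuous.aestronglyMeasurable ‖φ‖ ?_
      exact Eventually.of_forall fun g => φ.norm_coe_le_norm g
    rw [integral_eq_zero_iff_of_nonneg (f := φ) (fun g => (norm_nonneg
      ((g (x + y) : ℂ) - (g x : ℂ) * (g y : ℂ)) : (0 : ℝ) ≤ _)) hb] at h1
    filter_upwards [h1] with g hg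
    have : ‖(g (x + y) : ℂ) - (g x : ℂ) * (g y : ℂ)‖ = 0 := hg
    rw [norm_eq_zero, sub_eq_zero] at this
    apply Circle.ext
    rw [Circle.coe_mul]
    exact this
  refine ⟨ν₀.map retr, Measure.isFiniteMeasure_map ν₀ retr, ?_⟩
  intro x
  rw [integral_map measurable_retr.aemeasurable (measurable_eval x).aestronglyMeasurable]
  have h1 : ∫ g, ((retr g) x : ℂ) ∂ν₀ = ∫ g : A → Circle, (g x : ℂ) ∂ν₀ := by
    refine integral_congr_ae ?_
    filter_upwards [hchar] with g hg
    unfold retr
    rw [dif_pos hg]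
    rfl
  rw [h1]
  have hmx : Measurable (fun g : A → Circle => (g x : ℂ)) :=
    (by fun_prop : Continuous (fun g : A → Circle => (g x : ℂ))).measurable
  have hbx : Integrable (fun g : A → Circle => (g x : ℂ)) ν₀ :=
    Integrable.of_bound hmx.aestronglyMeasurable 1
      (Eventually.of_forall fun g => (Circle.norm_coe _).le)
  have h2 : ∀ z : ℂ, (z * ∫ g : A → Circle, (g x : ℂ) ∂ν₀).re = z.re * ψ x := by
    intro z
    rw [← integral_const_mul, ← hcoef x z]
    exact (integral_re (hbx.const_mul z)).symm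
  apply Complex.ext
  · have := h2 1
    simpa using this
  · have := h2 Complex.I
    simpa using this

/-- The spectral measure of a bounded observable of a measure preserving action of a countable
abelian group. -/
theorem exists_spectral' {A : Type*} [AddCommGroup A] [Countable A]
    (hsep : ∀ x : A, x ≠ 0 → ∃ χ : Dual A, χ x ≠ 1) {Ω : Type*} [MeasurableSpace Ω]
    (P : Measure Ω) [IsProbabilityMeasure P] (T : A → Ω → Ω)
    (hT : ∀ a, MeasurePreserving (T a) P P) (hTadd : ∀ a b ω, T (a + b) ω = T a (T b ω))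
    (f : Ω → ℝ) (hf : Measurable f) {C : ℝ} (hC : ∀ ω, |f ω| ≤ C) :
    ∃ ν : Measure (Dual A), IsFiniteMeasure ν ∧
      ∀ x : A, ∫ χ, (χ x : ℂ) ∂ν = ((∫ ω, f ω * f (T x ω) ∂P : ℝ) : ℂ) := by
  have hmf : ∀ a, Measurable fun ω => f (T a ω) := fun a => hf.comp (hT a).measurable
  have hi2 : ∀ a b, Integrable (fun ω => f (T a ω) * f (T b ω)) P := by
    intro a b
    refine Integrable.of_bound ((hmf a).mul (hmf b)).aestronglyMeasurable (C * C) ?_
    refine Eventually.of_forall fun ω => ?_
    rw [Real.norm_eq_abs, abs_mul]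
    exact mul_le_mul (hC _) (hC _) (abs_nonneg _) ((abs_nonneg _).trans (hC ω))
  have hψ : ∀ a b, ∫ ω, f (T a ω) * f (T b ω) ∂P = ∫ ω, f ω * f (T (a - b) ω) ∂P := by
    intro a b
    have hm : Measurable (fun ω => f ω * f (T (a - b) ω)) := hf.mul (hmf _)
    have h1 : ∫ ω, f ω * f (T (a - b) ω) ∂(P.map (T b))
        = ∫ ω, f (T b ω) * f (T (a - b) (T b ω)) ∂P :=
      integral_map (hT b).measurable.aemeasurable hm.aestronglyMeasurable
    rw [(hT b).map_eq] at h1
    rw [h1]
    refine integral_congr_ae (Eventually.of_forall fun ω => ?_)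
    simp only
    rw [← hTadd, sub_add_cancel, mul_comm]
  refine bochner hsep (fun x => ∫ ω, f ω * f (T x ω) ∂P) ?_ ?_
  · intro B c
    rw [Complex.re_sum]
    have h1 : ∀ b ∈ B, (∑ b' ∈ B, c b * conj (c b') *
        ((∫ ω, f ω * f (T (b - b') ω) ∂P : ℝ) : ℂ)).re
        = ∑ b' ∈ B, ∫ ω, (c b * conj (c b')).re * (f (T b ω) * f (T b' ω)) ∂P := by
      intro b _
      rw [Complex.re_sum]
      refine Finset.sum_congr rfl fun b' _ => ?_
      rw [integral_const_mul, hψ, Complex.re_mul_ofReal]
    rw [Finset.sum_congr rfl h1]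
    have hi3 : ∀ b b', Integrable
        (fun ω => (c b * conj (c b')).re * (f (T b ω) * f (T b' ω))) P :=
      fun b b' => (hi2 b b').const_mul _
    have h2 : ∑ b ∈ B, ∑ b' ∈ B, ∫ ω, (c b * conj (c b')).re * (f (T b ω) * f (T b' ω)) ∂P
        = ∫ ω, ∑ b ∈ B, ∑ b' ∈ B, (c b * conj (c b')).re * (f (T b ω) * f (T b' ω)) ∂P := by
      rw [integral_finsetSum _ fun b _ => integrable_finsetSum _ fun b' _ => hi3 b b']
      refine Finset.sum_congr rfl fun b _ => ?_
      rw [integral_finsetSum _ fun b' _ => hi3 b b']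
    rw [h2]
    refine integral_nonneg fun ω => ?_
    have h3 : ∑ b ∈ B, ∑ b' ∈ B, (c b * conj (c b')).re * (f (T b ω) * f (T b' ω))
        = Complex.normSq (∑ b ∈ B, c b * (f (T b ω) : ℂ)) := by
      have h4 : ((Complex.normSq (∑ b ∈ B, c b * (f (T b ω) : ℂ)) : ℝ) : ℂ)
          = ∑ b ∈ B, ∑ b' ∈ B, (c b * conj (c b')) * ((f (T b ω) * f (T b' ω) : ℝ) : ℂ) := by
        rw [← Complex.mul_conj, map_sum, Finset.sum_mul_sum]
        refine Finset.sum_congr rfl fun b _ => Finset.sum_congr rfl fun b' _ => ?_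
        rw [map_mul, Complex.conj_ofReal]
        push_cast; ring
      have h5 := congrArg Complex.re h4
      rw [Complex.ofReal_re, Complex.re_sum] at h5
      rw [h5]
      refine Finset.sum_congr rfl fun b _ => ?_
      rw [Complex.re_sum]
      refine Finset.sum_congr rfl fun b' _ => ?_
      rw [Complex.re_mul_ofReal]
    simp only [Pi.zero_apply]
    rw [h3]
    exact Complex.normSq_nonneg _
  · intro x
    have h1 := hψ 0 x
    rw [zero_sub] at h1
    rw [← h1]
    have hm : Measurable (fun ω => f ω * f (T x ω)) := hf.mul (hmf _)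
    have h2 : ∫ ω, f ω * f (T x ω) ∂(P.map (T 0)) = ∫ ω, f (T 0 ω) * f (T x (T 0 ω)) ∂P :=
      integral_map (hT 0).measurable.aemeasurable hm.aestronglyMeasurable
    rw [(hT 0).map_eq] at h2
    rw [h2]
    refine integral_congr_ae (Eventually.of_forall fun ω => ?_)
    simp only
    rw [← hTadd x 0, add_zero]


end Crest.Agent.R40.T1
end

-- ▼ part R40/T1Uniq

/-!
# R40 / T1 (M2): Fourier uniqueness on `Dual A`, rotation invariance of spectral measures
-/

set_option autoImplicit false

open Filter Topology MeasureTheory BoundedContinuousFunction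
open scoped ComplexConjugate

namespace Crest.Agent.R40.T1

noncomputable local instance instMSCircle' : MeasurableSpace Circle := borel Circle
local instance instBSCircle' : BorelSpace Circle := ⟨rfl⟩

/-- coordinate functions as bounded continuous functions -/
noncomputable def coord {A : Type*} (x : A) : (A → Circle) →ᵇ ℂ :=
  BoundedContinuousFunction.mkOfCompact ⟨fun g => (g x : ℂ), by fun_prop⟩

@[simp] theorem coord_apply {A : Type*} (x : A) (g : A → Circle) : coord x g = (g x : ℂ) := rfl

/-- linear span of the evaluations on the dual -/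
noncomputable def trigSpan (A : Type*) [AddCommGroup A] : Submodule ℂ (Dual A → ℂ) :=
  Submodule.span ℂ (Set.range fun (x : A) (χ : Dual A) => (χ x : ℂ))

theorem trigSpan_mul {A : Type*} [AddCommGroup A] {p q : Dual A → ℂ} (hp : p ∈ trigSpan A)
    (hq : q ∈ trigSpan A) : p * q ∈ trigSpan A := by
  unfold trigSpan at *
  induction hp using Submodule.span_induction with
  | mem p hp =>
    obtain ⟨x, rfl⟩ := hp
    induction hq using Submodule.span_induction with
    | mem q hq =>
      obtain ⟨y, rfl⟩ := hq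
      apply Submodule.subset_span
      refine ⟨x + y, ?_⟩
      funext χ
      simp only [Pi.mul_apply]
      exact char_add_coe χ x y
    | zero => rw [mul_zero]; exact Submodule.zero_mem _
    | add q r _ _ h1 h2 => rw [mul_add]; exact Submodule.add_mem _ h1 h2
    | smul c q _ h1 => rw [mul_smul_comm]; exact Submodule.smul_mem _ c h1
  | zero => rw [zero_mul]; exact Submodule.zero_mem _
  | add p r _ _ h1 h2 => rw [add_mul]; exact Submodule.add_mem _ h1 h2
  | smul c p _ h1 => rw [smul_mul_assoc]; exact Submodule.smul_mem _ c h1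

theorem trigSpan_star {A : Type*} [AddCommGroup A] {p : Dual A → ℂ} (hp : p ∈ trigSpan A) :
    star p ∈ trigSpan A := by
  unfold trigSpan at *
  induction hp using Submodule.span_induction with
  | mem p hp =>
    obtain ⟨x, rfl⟩ := hp
    apply Submodule.subset_span
    refine ⟨-x, ?_⟩
    funext χ
    have := char_sub_coe χ 0 x
    rw [zero_sub, AddChar.map_zero_eq_one, Circle.coe_one, one_mul] at this
    simp only [Pi.star_apply]
    exact this
  | zero => rw [star_zero]; exact Submodule.zero_mem _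
  | add q r _ _ h1 h2 => rw [star_add]; exact Submodule.add_mem _ h1 h2
  | smul c q _ h1 => rw [star_smul]; exact Submodule.smul_mem _ _ h1

/-- Fourier uniqueness -/
theorem ext_of_fourier {A : Type*} [AddCommGroup A] [Countable A] {ν ν' : Measure (Dual A)}
    [IsFiniteMeasure ν] [IsFiniteMeasure ν']
    (h : ∀ x : A, ∫ χ, (χ x : ℂ) ∂ν = ∫ χ, (χ x : ℂ) ∂ν') : ν = ν' := by
  -- the embedding into `A → Circle`
  let ev : Dual A → (A → Circle) := fun χ => χ
  have hcoe : ∀ {Ω : Type _} [MeasurableSpace Ω] (g : Ω → Circle),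
      Measurable (fun ω => (g ω : ℂ)) → Measurable g := by
    intro Ω _ g hg
    have hce : Topology.IsClosedEmbedding (fun z : Circle => (z : ℂ)) :=
      (Continuous.isClosedEmbedding (by fun_prop) Circle.coe_injective)
    exact hce.measurableEmbedding.measurable_comp_iff.1 hg
  have hev : Measurable ev := by
    rw [measurable_pi_iff]
    intro a
    exact hcoe _ (measurable_eval a)
  have hmap : ν.map ev = ν'.map ev := by
    let 𝒜 : StarSubalgebra ℂ ((A → Circle) →ᵇ ℂ) :=
    { carrier := {g | (fun χ : Dual A => g (ev χ)) ∈ trigSpan A}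
      mul_mem' := fun {a b} ha hb => trigSpan_mul ha hb
      add_mem' := fun {a b} ha hb => (trigSpan A).add_mem ha hb
      algebraMap_mem' := by
        intro c
        have : (fun χ : Dual A => (algebraMap ℂ ((A → Circle) →ᵇ ℂ) c) (ev χ))
            = c • (fun χ : Dual A => (χ 0 : ℂ)) := by
          funext χ
          simp
        rw [Set.mem_ofPred_eq, this]
        exact (trigSpan A).smul_mem c (Submodule.subset_span ⟨0, rfl⟩)
      star_mem' := fun {a} ha => trigSpan_star ha }
    have hmem : ∀ x : A, coord x ∈ 𝒜 := fun x => Submodule.subset_span ⟨x, rfl⟩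
    have : IsFiniteMeasure (ν.map ev) := Measure.isFiniteMeasure_map ν ev
    have : IsFiniteMeasure (ν'.map ev) := Measure.isFiniteMeasure_map ν' ev
    have hpc : PolishSpace Circle :=
      (Continuous.isClosedEmbedding (f := fun z : Circle => (z : ℂ)) (by fun_prop)
        Circle.coe_injective).polishSpace
    refine ext_of_forall_mem_subalgebra_integral_eq_of_polish (𝕜 := ℂ) (A := 𝒜) ?_ ?_
    · intro g g' hgg'
      obtain ⟨x, hx⟩ := Function.ne_iff.1 hgg'
      refine ⟨_, ⟨toContinuousMapStarₐ ℂ (coord x), ⟨coord x, hmem x, rfl⟩, rfl⟩, ?_⟩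
      simp only [toContinuousMapStarₐ_apply_apply, coord_apply]
      exact fun h => hx (Circle.ext h)
    · intro g hg
      rw [integral_map hev.aemeasurable g.continuous.aestronglyMeasurable,
        integral_map hev.aemeasurable g.continuous.aestronglyMeasurable]
      have key : ∀ p ∈ trigSpan A, (Integrable p ν ∧ Integrable p ν') ∧ ∫ χ, p χ ∂ν = ∫ χ, p χ ∂ν' := by
        intro p hp
        unfold trigSpan at hp
        induction hp using Submodule.span_induction with
        | mem p hp =>
          obtain ⟨x, rfl⟩ := hp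
          exact ⟨⟨Integrable.of_bound (measurable_eval x).aestronglyMeasurable 1
            (Eventually.of_forall fun χ => (dual_norm χ x).le),
            Integrable.of_bound (measurable_eval x).aestronglyMeasurable 1
            (Eventually.of_forall fun χ => (dual_norm χ x).le)⟩, h x⟩
        | zero => exact ⟨⟨integrable_zero _ _ _, integrable_zero _ _ _⟩, by simp⟩
        | add p q _ _ h1 h2 =>
          refine ⟨⟨h1.1.1.add h2.1.1, h1.1.2.add h2.1.2⟩, ?_⟩
          simp only [Pi.add_apply]
          rw [integral_add h1.1.1 h2.1.1, integral_add h1.1.2 h2.1.2, h1.2, h2.2]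
        | smul c p _ h1 =>
          refine ⟨⟨h1.1.1.smul c, h1.1.2.smul c⟩, ?_⟩
          simp only [Pi.smul_apply]
          rw [integral_smul, integral_smul, h1.2]
      exact (key _ hg).2
  -- back to `Dual A`
  let cm : (A → Circle) → (A → ℂ) := fun g a => (g a : ℂ)
  have hcm : Measurable cm := by
    have : Continuous cm := by fun_prop
    rw [measurable_pi_iff]
    intro a
    exact (by fun_prop : Continuous (fun g : A → Circle => (g a : ℂ))).measurable
  ext s hs
  obtain ⟨t, ht, rfl⟩ := hs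
  have h1 : (fun (χ : Dual A) (a : A) => (χ a : ℂ)) ⁻¹' t = ev ⁻¹' (cm ⁻¹' t) := rfl
  rw [h1, ← Measure.map_apply hev (hcm ht), ← Measure.map_apply hev (hcm ht), hmap]

/-- the characters `x ↦ e(Re(kx))` separate the points of an additive subgroup of `ℂ` -/
theorem sep_subfield (L : Subfield ℂ) : ∀ x : L, x ≠ 0 → ∃ χ : Dual L, χ x ≠ 1 := by
  intro x hx
  have hx' : (x : ℂ) ≠ 0 := fun h => hx (Subtype.ext h)
  let k : ℂ := 1 / (2 * x)
  refine ⟨{ toFun := fun y => ch k y
            map_zero_eq_one' := by simp [ch, e]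
            map_add_eq_mul' := ?_ }, ?_⟩
  · intro a b
    simp only [ch, e, Subfield.coe_add]
    rw [← Circle.exp_add]
    congr 1
    rw [mul_add, Complex.add_re]; ring
  · intro h
    have h1 : ch k x = 1 := h
    unfold ch e at h1
    have h2 : k * (x : ℂ) = 1 / 2 := by
      simp only [k]
      field_simp
    rw [h2] at h1
    have h3 : 2 * Real.pi * ((1 / 2 : ℂ)).re = Real.pi := by
      norm_num
      ring
    rw [h3] at h1
    have h4 := congrArg (fun z : Circle => (z : ℂ)) h1
    simp only [Circle.coe_exp, Circle.coe_one, Complex.exp_pi_mul_I] at h4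
    norm_num at h4


end Crest.Agent.R40.T1
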