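import Crest.Agent.R40.T3Tot

/-!
# R40 / T3 : palette calculus about a root
-/

set_option autoImplicit false

open Set Metric Topology Filter

namespace Crest.Agent.R40.T3

section
variable {U : Fin 5 → Set ℂ}

/-- `θ₀` is generic for the rotated point `p` about the root `y`. -/
def Gen (U : Fin 5 → Set ℂ) (y p : ℂ) (θ₀ : ℝ) : Prop :=
  ∀ᶠ θ in 𝓝 θ₀, J U (rot y p θ) = J U (rot y p θ₀)

/-- Simultaneous generic angles exist in every nonempty open set, for finitely many
(root, point) pairs. -/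
lemma exists_gen (P : Finset (ℂ × ℂ)) {O : Set ℝ} (hO : IsOpen O) (hO' : O.Nonempty) :
    ∃ θ₀ ∈ O, ∀ k ∈ P, Gen U k.1 k.2 θ₀ := by
  obtain ⟨θ₀, h0, hev⟩ := exists_local_const (U := U) P (fun k θ => rot k.1 k.2 θ)
    (fun k _ => continuous_rot k.1 k.2) hO'
  refine ⟨θ₀, h0, fun k hk => ?_⟩
  rw [hO.nhdsWithin_eq h0] at hev
  filter_upwards [hev] with θ hθ using hθ k hk

lemma Gen.exists_Ioo {y p : ℂ} {θ₀ : ℝ} (hg : Gen U y p θ₀) :
    ∃ δ > 0, ∀ θ ∈ Ioo (θ₀ - δ) (θ₀ + δ), J U (rot y p θ) = J U (rot y p θ₀) := by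
  obtain ⟨δ, hδ, h⟩ := Metric.eventually_nhds_iff.1 hg
  refine ⟨δ, hδ, fun θ hθ => h ?_⟩
  rw [Real.dist_eq, abs_lt]
  constructor <;> linarith [hθ.1, hθ.2]

/-- exact pairs accumulate at `y` -/
def Acc (U : Fin 5 → Set ℂ) (y : ℂ) (a b : Fin 5) : Prop :=
  ∃ᶠ z in 𝓝 y, J U z = {a, b}

namespace Cov
variable (h : Cov U)
include h

lemma eventually_pair {a b : Fin 5} {x : ℂ} (hx : J U x ⊆ {a, b}) :
    ∀ᶠ w in 𝓝 x, w ∈ F U a ∨ w ∈ F U b := by
  filter_upwards [J_usc (U := U) x] with w hw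
  obtain ⟨i, hi⟩ := h.cover w
  have := hx (hw (mem_J.2 hi))
  simp only [Finset.mem_insert, Finset.mem_singleton] at this
  rcases this with rfl | rfl
  · exact Or.inl hi
  · exact Or.inr hi

/-- (L0') a unit neighbour of an exact pair point sees another colour -/
lemma exists_other {a b : Fin 5} {p q : ℂ} (hp : J U p = {a, b}) (hpq : dist q p = 1) :
    ∃ c ∈ J U q, c ≠ a ∧ c ≠ b := by
  by_contra hcon
  push Not at hcon
  have hq : J U q ⊆ {a, b} := by
    intro c hc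
    by_cases hca : c = a
    · simp [hca]
    · simp [hcon c hc hca]
  exact h.pair_lemma (mem_J.1 (by rw [hp]; simp)) (mem_J.1 (by rw [hp]; simp))
    (h.eventually_pair hp.subset) hpq (h.eventually_pair hq)

/-- (F5) -/
lemma not_acc {a b : Fin 5} {x y : ℂ} (hx : J U x ⊆ {a, b}) (hxy : dist x y = 1) :
    ¬ Acc U y a b := by
  intro hacc
  have hev := (h.eventually_pair hx).eventually_nhds
  have ht : Tendsto (fun z : ℂ => z + (x - y)) (𝓝 y) (𝓝 x) := by
    have : Continuous (fun z : ℂ => z + (x - y)) := by fun_prop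
    have := this.tendsto y
    simpa using this
  obtain ⟨z, hz, hz'⟩ := (hacc.and_eventually (ht.eventually hev)).exists
  refine h.pair_lemma (mem_J.1 (by rw [hz]; simp)) (mem_J.1 (by rw [hz]; simp))
    (h.eventually_pair hz.subset) (q := z + (x - y)) ?_ hz'
  rw [dist_eq_norm]
  have : z + (x - y) - z = x - y := by ring
  rw [this, ← dist_eq_norm, hxy]

/-- (P1) generic palettes away from the root have at most two colours -/
lemma card_le_two {y p : ℂ} {θ₀ : ℝ} (hp : p ≠ 0) (hg : Gen U y p θ₀) :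
    (J U (rot y p θ₀)).card ≤ 2 := by
  by_contra hcon
  push Not at hcon
  obtain ⟨T, hT, hT3⟩ := Finset.exists_subset_card_eq (show 3 ≤ (J U (rot y p θ₀)).card by omega)
  obtain ⟨a, b, d, hab, had, hbd, rfl⟩ := Finset.card_eq_three.1 hT3
  obtain ⟨δ, hδ, hJ⟩ := hg.exists_Ioo
  set C : Set ℂ := rot y p '' Ioo (θ₀ - δ) (θ₀ + δ) with hC
  have hCp : IsPreconnected C := isPreconnected_Ioo.image _ (continuous_rot y p).continuousOn
  have hsub : ∀ i ∈ ({a, b, d} : Finset (Fin 5)), C ⊆ F U i := by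
    rintro i hi _ ⟨θ, hθ, rfl⟩
    rw [← mem_J, hJ θ hθ]
    exact hT hi
  -- two distinct points
  set δ' : ℝ := min (δ / 2) 1 with hδ'
  have hδ'0 : 0 < δ' := lt_min (by linarith) one_pos
  have hδ'1 : δ' < δ := lt_of_le_of_lt (min_le_left _ _) (by linarith)
  have h1 : rot y p θ₀ ∈ C := ⟨θ₀, ⟨by linarith, by linarith⟩, rfl⟩
  have h2 : rot y p (θ₀ + δ') ∈ C := ⟨θ₀ + δ', ⟨by linarith, by linarith⟩, rfl⟩
  have h3 := h.no_triple_connected hab had hbd hCp (hsub a (by simp)) (hsub b (by simp))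
    (hsub d (by simp)) h1 h2
  have h4 : dist (rot y p θ₀) (rot y p (θ₀ + δ')) = 0 := by rw [← h3, dist_self]
  rw [dist_rot_rot_angle] at h4
  have h5 : (θ₀ - (θ₀ + δ')) / 2 = -(δ' / 2) := by ring
  rw [h5, Real.sin_neg, abs_neg] at h4
  have h6 : 0 < Real.sin (δ' / 2) :=
    Real.sin_pos_of_pos_of_lt_pi (by linarith) (by
      have : δ' ≤ 1 := min_le_right _ _
      linarith [Real.pi_gt_three])
  have h7 : 0 < ‖p‖ := norm_pos_iff.2 hp
  have : 0 < 2 * |Real.sin (δ' / 2)| * ‖p‖ := by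
    have := abs_pos.2 h6.ne'
    positivity
  linarith




/-- (P3) a unit neighbour with a one-colour palette has a colour not in the root's palette -/
lemma single_not_mem {y x : ℂ} {k : Fin 5} (hx : J U x ⊆ {k}) (hd : dist x y = 1) :
    k ∉ J U y := by
  intro hk
  exact h.dist_ne_of_mem (mem_J.1 hk) (h.mem_of_J_subset hx) (by rw [dist_comm]; exact hd)

end Cov
end

end Crest.Agent.R40.T3
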