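import Crest.Agent.R40.T3Sol

/-!
# R40 / T3 : circle calculus, part 2 (G1, crossing near the centre, D, wedges)
-/

set_option autoImplicit false

open Set Metric Topology Filter

namespace Crest.Agent.R40.T3

/-- every point at distance in `(0,2)` from `x` is a nondegenerate sum of two unit vectors -/
lemma exists_polar {x p : ℂ} (h0 : p ≠ x) (h2 : dist p x < 2) :
    ∃ a b : ℝ, p = x + uv a + uv b ∧ Real.sin (a - b) ≠ 0 := by
  set r : ℝ := ‖p - x‖ with hr
  have hr0 : 0 < r := norm_pos_iff.2 (sub_ne_zero.2 h0)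
  have hr2 : r < 2 := by rw [hr, ← dist_eq_norm]; exact h2
  set φ : ℝ := Complex.arg (p - x) with hφ
  set γ : ℝ := Real.arccos (r / 2) with hγ
  have hcos : Real.cos γ = r / 2 := Real.cos_arccos (by linarith) (by linarith)
  have hsin : 0 < Real.sin γ := by
    apply Real.sin_pos_of_pos_of_lt_pi
    · rw [hγ, Real.arccos_pos]; linarith
    · have := Real.arccos_lt_pi_div_two.2 (show 0 < r / 2 by linarith)
      have := Real.pi_pos
      linarith
  have hpol : p - x = (r : ℂ) * uv φ := by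
    have := Complex.norm_mul_exp_arg_mul_I (p - x)
    rw [hr, hφ]; unfold uv; exact this.symm
  refine ⟨φ + γ, φ - γ, ?_, ?_⟩
  · have h1 : uv (φ + γ) + uv (φ - γ) = (r : ℂ) * uv φ := by
      apply Complex.ext
      · simp only [Complex.add_re, uv_re, Complex.mul_re, Complex.ofReal_re, Complex.ofReal_im,
          zero_mul, sub_zero]
        rw [Real.cos_add, Real.cos_sub, hcos]; ring
      · simp only [Complex.add_im, uv_im, Complex.mul_im, Complex.ofReal_re, Complex.ofReal_im,
          zero_mul, add_zero]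
        rw [Real.sin_add, Real.sin_sub, hcos]; ring
    rw [add_assoc, h1, ← hpol]; ring
  · have : φ + γ - (φ - γ) = 2 * γ := by ring
    rw [this, Real.sin_two_mul, hcos]
    positivity

section
variable {U : Fin 5 → Set ℂ} {x : ℂ} {k : Fin 5}

namespace Cov
variable (h : Cov U)
include h

/-- if `J z` is contained in `{i,j}` and misses `i`, then `J z = {j}` -/
lemma J_eq_singleton {i j : Fin 5} {z : ℂ} (hz : J U z ⊆ {i, j}) (hi : i ∉ J U z) :
    J U z = {j} := by
  apply Finset.Subset.antisymm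
  · intro l hl
    have := hz hl
    simp only [Finset.mem_insert, Finset.mem_singleton] at this
    rcases this with rfl | rfl
    · exact absurd hl hi
    · simp
  · intro l hl
    rw [Finset.mem_singleton] at hl
    subst hl
    obtain ⟨m, hm⟩ := h.J_nonempty z
    have := hz hm
    simp only [Finset.mem_insert, Finset.mem_singleton] at this
    rcases this with rfl | rfl
    · exact absurd hm hi
    · exact hm

theorem G1 {i j : Fin 5} (hd : Dense (Sol U i x ∪ Sol U j x)) {p : ℂ} (h0 : p ≠ x)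
    (h2 : dist p x < 2) : J U p ≠ {i, j} := by
  intro hp
  obtain ⟨a₀, b₀, hpe, hs⟩ := exists_polar h0 h2
  -- a box
  have hcont : Continuous (fun q : ℝ × ℝ => x + uv q.1 + uv q.2) := by
    have := continuous_uv
    fun_prop
  have hJ : ∀ᶠ z in 𝓝 p, J U z ⊆ {i, j} := by
    filter_upwards [J_usc (U := U) p] with z hz
    rw [← hp]; exact hz
  have hev1 : ∀ᶠ q : ℝ × ℝ in 𝓝 (a₀, b₀), J U (x + uv q.1 + uv q.2) ⊆ {i, j} := by
    have : Tendsto (fun q : ℝ × ℝ => x + uv q.1 + uv q.2) (𝓝 (a₀, b₀)) (𝓝 p) := by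
      have := hcont.tendsto (a₀, b₀)
      rw [← hpe] at this
      exact this
    exact this.eventually hJ
  have hev2 : ∀ᶠ q : ℝ × ℝ in 𝓝 (a₀, b₀), Real.sin (q.1 - q.2) ≠ 0 := by
    have hc : Continuous (fun q : ℝ × ℝ => Real.sin (q.1 - q.2)) := by fun_prop
    exact hc.continuousAt.eventually_ne hs
  obtain ⟨δ, hδ, hbox⟩ := Metric.eventually_nhds_iff.1 (hev1.and hev2)
  have hbox' : ∀ a b : ℝ, |a - a₀| < δ → |b - b₀| < δ →
      J U (x + uv a + uv b) ⊆ {i, j} ∧ Real.sin (a - b) ≠ 0 := by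
    intro a b ha hb
    have := hbox (y := (a, b)) (by
      rw [Prod.dist_eq, max_lt_iff, Real.dist_eq, Real.dist_eq]; exact ⟨ha, hb⟩)
    exact this
  have hI : ∀ c : ℝ, IsOpen {t : ℝ | |t - c| < δ} := fun c =>
    isOpen_lt (by fun_prop) continuous_const
  have hpick : ∀ c : ℝ, ∃ t, |t - c| < δ ∧ t ∈ Sol U i x ∪ Sol U j x := by
    intro c
    obtain ⟨t, ht, ht'⟩ := hd.inter_open_nonempty _ (hI c) ⟨c, by simpa using hδ⟩
    exact ⟨t, ht, ht'⟩
  -- main argument for fixed type of `a₁`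
  have key : ∀ {i j : Fin 5}, Dense (Sol U i x ∪ Sol U j x) → i ≠ j ∨ i = j → J U p = {i, j} →
      (∀ a b : ℝ, |a - a₀| < δ → |b - b₀| < δ →
      J U (x + uv a + uv b) ⊆ {i, j} ∧ Real.sin (a - b) ≠ 0) →
      (∃ a₁, |a₁ - a₀| < δ ∧ a₁ ∈ Sol U i x) → False := by
    intro i j hd _ hp hbox' ⟨a₁, ha₁, hsol⟩
    -- every `b` of the dense set near `b₀` is in `Sol i`
    have hb : ∀ b, |b - b₀| < δ → b ∈ Sol U i x ∪ Sol U j x → b ∈ Sol U i x := by
      intro b hb hbs
      rcases hbs with hbs | hbs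
      · exact hbs
      · exfalso
        obtain ⟨hb1, hb2⟩ := hbox' a₁ b ha₁ hb
        have h1 : i ∉ J U (x + uv a₁ + uv b) := fun hm => (h.R hb2 (mem_J.1 hm)).1 hsol
        have h2 : j ∉ J U (x + uv a₁ + uv b) := fun hm => (h.R hb2 (mem_J.1 hm)).2 hbs
        have h3 := h.J_eq_singleton hb1 h1
        rw [h3] at h2
        exact h2 (Finset.mem_singleton_self j)
    -- `U i` meets the box
    have hpi : p ∈ closure (U i) := by
      have : p ∈ F U i := mem_J.1 (by rw [hp]; simp)
      exact this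
    have hfr : ∃ᶠ z in 𝓝 p, z ∈ U i := mem_closure_iff_frequently.1 hpi
    rw [hpe, ← map_nhds_chart x hs] at hfr
    have hfr' : ∃ᶠ q : ℝ × ℝ in 𝓝 (a₀, b₀), x + uv q.1 + uv q.2 ∈ U i := frequently_map.1 hfr
    have hball : ∀ᶠ q : ℝ × ℝ in 𝓝 (a₀, b₀), |q.1 - a₀| < δ ∧ |q.2 - b₀| < δ := by
      filter_upwards [Metric.ball_mem_nhds (a₀, b₀) hδ] with q hq
      rw [Metric.mem_ball, Prod.dist_eq, max_lt_iff, Real.dist_eq, Real.dist_eq] at hq
      exact hq
    obtain ⟨⟨a, b⟩, hU, ha, hb'⟩ := (hfr'.and_eventually hball).exists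
    -- open set of `b'`
    have hO : IsOpen {b' : ℝ | x + uv a + uv b' ∈ U i ∧ |b' - b₀| < δ} := by
      have hc := continuous_uv
      exact ((h.isOpen i).preimage (by fun_prop)).inter (hI b₀)
    obtain ⟨b', ⟨hb'1, hb'2⟩, hb'3⟩ := hd.inter_open_nonempty _ hO ⟨b, hU, hb'⟩
    have h4 := hb b' hb'2 hb'3
    have h5 := (hbox' a b' ha hb'2).2
    exact (h.R h5 (subset_F i hb'1)).2 h4
  obtain ⟨a₁, ha₁, hsol⟩ := hpick a₀
  rcases hsol with hsol | hsol
  · exact key hd (em' _) hp hbox' ⟨a₁, ha₁, hsol⟩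
  · refine key (i := j) (j := i) ?_ (em' _) ?_ ?_ ⟨a₁, ha₁, hsol⟩
    · rw [union_comm]; exact hd
    · rw [Finset.pair_comm]; exact hp
    · intro a b ha hb
      rw [Finset.pair_comm]
      exact hbox' a b ha hb

theorem G1' {i j : Fin 5} (hd : Dense (Sol U i x ∪ Sol U j x)) (hx : J U x ≠ {i, j}) :
    ¬ Acc U x i j := by
  intro hacc
  have h1 : ∀ᶠ z in 𝓝 x, dist z x < 2 := Metric.eventually_nhds_iff.2 ⟨2, by norm_num, fun _ hy => hy⟩
  obtain ⟨z, hz, hz2⟩ := (hacc.and_eventually h1).exists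
  refine h.G1 hd (p := z) ?_ hz2 hz
  rintro rfl
  exact hx hz

end Cov
end

/-! ### Crossing near the centre -/

/-- squared distance of `x + uv s` to the point `x + uv (v+e) - uv (v-e)` -/
lemma dist_sq_cross (x : ℂ) (s v e : ℝ) :
    dist (x + uv (v + e) - uv (v - e)) (x + uv s) ^ 2 =
      1 + 4 * Real.sin e ^ 2 + 4 * Real.sin (v - s) * Real.sin e := by
  have h1 : x + uv (v + e) - uv (v - e) = x + uv (v + e) + uv (v - e + Real.pi) := by
    rw [uv_add_pi]; ring
  rw [h1, dist_comm, dist_sq_uv_add_uv']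
  have e1 : Real.cos (v + e - (v - e + Real.pi)) = -Real.cos (2 * e) := by
    have : v + e - (v - e + Real.pi) = 2 * e - Real.pi := by ring
    rw [this, Real.cos_sub_pi]
  have e2 : Real.cos (s - (v + e)) = Real.cos (v - s) * Real.cos e - Real.sin (v - s) * Real.sin e := by
    have : s - (v + e) = -((v - s) + e) := by ring
    rw [this, Real.cos_neg, Real.cos_add]
  have e3 : Real.cos (s - (v - e + Real.pi)) =
      -(Real.cos (v - s) * Real.cos e + Real.sin (v - s) * Real.sin e) := by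
    have : s - (v - e + Real.pi) = -((v - s) - e) - Real.pi := by ring
    rw [this, Real.cos_sub_pi, Real.cos_neg, Real.cos_sub]
  rw [e1, e2, e3, Real.cos_two_mul]
  have := Real.sin_sq_add_cos_sq e
  linear_combination (-4) * this

lemma continuous_cross (x : ℂ) (v : ℝ) : Continuous (fun e : ℝ => x + uv (v + e) - uv (v - e)) := by
  have := continuous_uv
  fun_prop

/-- a unit circle passing close to `x` but not tangentially crosses the line through `x`
perpendicular to `uv v` -/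
theorem exists_cross (x : ℂ) {v s : ℝ} (hs : Real.sin (v - s) ≠ 0) {d : ℝ} (hd : 0 < d) :
    ∀ᶠ y in 𝓝 (x + uv s), ∃ e : ℝ, |e| < d ∧ dist (x + uv (v + e) - uv (v - e)) y = 1 ∧
      (dist y x ≠ 1 → e ≠ 0) := by
  have hpi := Real.pi_gt_three
  set σ := |Real.sin (v - s)| with hσ
  have hσ0 : 0 < σ := abs_pos.2 hs
  set η : ℝ := min (min (d / 2) 1) (σ / 2) with hη
  have hη0 : 0 < η := lt_min (lt_min (by linarith) one_pos) (by linarith)
  have hηd : η < d := lt_of_le_of_lt ((min_le_left _ _).trans (min_le_left _ _)) (by linarith)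
  have hη1 : η ≤ 1 := (min_le_left _ _).trans (min_le_right _ _)
  have hησ : η ≤ σ / 2 := min_le_right _ _
  have hsin0 : 0 < Real.sin η := Real.sin_pos_of_pos_of_lt_pi hη0 (by linarith)
  have hsinσ : Real.sin η < σ := lt_of_le_of_lt (Real.sin_le hη0.le) (by linarith)
  -- the two endpoints
  obtain ⟨τ, hτ, hτs⟩ : ∃ τ : ℝ, (τ = 1 ∨ τ = -1) ∧ τ * Real.sin (v - s) = σ := by
    rcases lt_or_gt_of_ne hs with h1 | h1
    · exact ⟨-1, Or.inr rfl, by rw [hσ, abs_of_neg h1]; ring⟩
    · exact ⟨1, Or.inl rfl, by rw [hσ, abs_of_pos h1]; ring⟩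
  have hsinτ : ∀ e : ℝ, Real.sin (τ * e) = τ * Real.sin e := by
    intro e
    rcases hτ with rfl | rfl <;> simp
  have hτ2 : τ ^ 2 = 1 := by rcases hτ with rfl | rfl <;> norm_num
  have hτabs : |τ * η| = η := by
    rw [abs_mul, abs_of_pos hη0]
    rcases hτ with rfl | rfl <;> simp
  have hbig : 1 < dist (x + uv (v + τ * η) - uv (v - τ * η)) (x + uv s) := by
    have h1 := dist_sq_cross x s v (τ * η)
    rw [hsinτ, mul_pow, hτ2, one_mul] at h1
    have h2 : 4 * Real.sin (v - s) * (τ * Real.sin η) = 4 * (σ * Real.sin η) := by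
      rw [← hτs]; ring
    rw [h2] at h1
    have h3 : 0 < σ * Real.sin η := mul_pos hσ0 hsin0
    nlinarith [dist_nonneg (x := x + uv (v + τ * η) - uv (v - τ * η)) (y := x + uv s), sq_nonneg (Real.sin η)]
  have hsmall : dist (x + uv (v + -(τ * η)) - uv (v - -(τ * η))) (x + uv s) < 1 := by
    have h1 := dist_sq_cross x s v (-(τ * η))
    rw [Real.sin_neg, hsinτ] at h1
    have h2 : 4 * Real.sin (v - s) * -(τ * Real.sin η) = -(4 * (σ * Real.sin η)) := by
      rw [← hτs]; ring
    rw [h2] at h1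
    have h4 : (-(τ * Real.sin η)) ^ 2 = Real.sin η ^ 2 := by
      rw [neg_sq, mul_pow, hτ2, one_mul]
    rw [h4] at h1
    have h3 : Real.sin η * Real.sin η < σ * Real.sin η := mul_lt_mul_of_pos_right hsinσ hsin0
    nlinarith [dist_nonneg (x := x + uv (v + -(τ * η)) - uv (v - -(τ * η))) (y := x + uv s)]
  have c1 : Continuous (fun y : ℂ => dist (x + uv (v + τ * η) - uv (v - τ * η)) y) := by fun_prop
  have c2 : Continuous (fun y : ℂ => dist (x + uv (v + -(τ * η)) - uv (v - -(τ * η))) y) := by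
    fun_prop
  have ev1 := (c1.tendsto (x + uv s)).eventually (lt_mem_nhds hbig)
  have ev2 := (c2.tendsto (x + uv s)).eventually (gt_mem_nhds hsmall)
  filter_upwards [ev1, ev2] with y hy1 hy2
  -- intermediate value theorem
  have hg : Continuous (fun e : ℝ => dist (x + uv (v + e) - uv (v - e)) y) :=
    (continuous_cross x v).dist continuous_const
  have hpre : IsPreconnected {e : ℝ | |e| ≤ η} := by
    have : {e : ℝ | |e| ≤ η} = Icc (-η) η := by
      ext e; simp [abs_le]
    rw [this]; exact isPreconnected_Icc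
  have himg := (hpre.image _ hg.continuousOn).ordConnected
  have hmem := himg.out ⟨-(τ * η), by simp [hτabs], rfl⟩ ⟨τ * η, by simp [hτabs], rfl⟩ ⟨hy2.le, hy1.le⟩
  obtain ⟨e, he, he1⟩ := hmem
  refine ⟨e, lt_of_le_of_lt he hηd, he1, ?_⟩
  rintro hyx rfl
  apply hyx
  have : x + uv (v + 0) - uv (v - 0) = x := by simp
  simp only [this] at he1
  rw [dist_comm]; exact he1

/-- two angles in a small interval around `v`, one of them not parallel to `s` -/
lemma exists_sin_ne {v d : ℝ} (hd : 0 < d) (s : ℝ) :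
    ∃ v', |v' - v| < d ∧ Real.sin (v' - s) ≠ 0 := by
  by_cases h0 : Real.sin (v - s) = 0
  · refine ⟨v + min (d / 2) 1, ?_, ?_⟩
    · rw [add_sub_cancel_left, abs_of_pos (lt_min (by linarith) one_pos)]
      exact lt_of_le_of_lt (min_le_left _ _) (by linarith)
    · have h1 : v + min (d / 2) 1 - s = (v - s) + min (d / 2) 1 := by ring
      rw [h1, Real.sin_add, h0, zero_mul, zero_add]
      have hc : Real.cos (v - s) ≠ 0 := by
        intro hc
        have := Real.sin_sq_add_cos_sq (v - s)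
        rw [h0, hc] at this
        norm_num at this
      have hm : 0 < Real.sin (min (d / 2) 1) :=
        Real.sin_pos_of_pos_of_lt_pi (lt_min (by linarith) one_pos)
          (lt_of_le_of_lt (min_le_right _ _) (by linarith [Real.pi_gt_three]))
      exact mul_ne_zero hc hm.ne'
  · exact ⟨v, by simpa using hd, h0⟩

/-- a nonempty open set contains points that are not on the unit circle about `x` -/
lemma exists_dist_ne_one {V : Set ℂ} (hV : IsOpen V) {z : ℂ} (hz : z ∈ V) (x : ℂ) :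
    ∃ y ∈ V, dist y x ≠ 1 := by
  by_contra hcon
  push Not at hcon
  have hz1 := hcon z hz
  have hc : Continuous (fun r : ℝ => z + (r : ℂ) * (z - x)) := by fun_prop
  have hz0 : z + ((0 : ℝ) : ℂ) * (z - x) ∈ V := by simpa using hz
  have hev := (hc.tendsto 0).eventually (hV.mem_nhds hz0)
  obtain ⟨ε, hε, hε'⟩ := Metric.eventually_nhds_iff.1 hev
  have h1 := hε' (y := ε / 2) (by rw [Real.dist_eq, sub_zero, abs_of_pos (by linarith)]; linarith)
  have h2 := hcon _ h1
  have h3 : z + ((ε / 2 : ℝ) : ℂ) * (z - x) - x = ((1 + ε / 2 : ℝ) : ℂ) * (z - x) := by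
    push_cast; ring
  rw [dist_eq_norm, h3, norm_mul, ← dist_eq_norm z x, hz1, mul_one, Complex.norm_real,
    Real.norm_eq_abs, abs_of_pos (by linarith)] at h2
  linarith

section
variable {U : Fin 5 → Set ℂ} {x : ℂ} {k : Fin 5}

namespace Cov
variable (h : Cov U)
include h

/-- (D) -/
theorem D {c : Fin 5} {v d : ℝ} (hd : 0 < d)
    (hW : ∀ a b, |a - v| < d → |b - v| < d → a ≠ b → x + uv a - uv b ∈ U c) (s : ℝ) :
    x + uv s ∉ F U c := by
  intro hs
  obtain ⟨v', hv', hsin⟩ := exists_sin_ne (v := v) (half_pos hd) s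
  have hev := exists_cross x hsin (d := min (d / 2) 1) (lt_min (half_pos hd) one_pos)
  obtain ⟨V, hVev, hVo, hVs⟩ := _root_.eventually_nhds_iff.1 hev
  obtain ⟨z, hzV, hzU⟩ := mem_closure_iff.1 hs V hVo hVs
  obtain ⟨y, ⟨hyV, hyU⟩, hyx⟩ := exists_dist_ne_one (hVo.inter (h.isOpen c)) ⟨hzV, hzU⟩ x
  obtain ⟨e, he, hdist, hne⟩ := hVev y hyV
  have he0 := hne hyx
  have he1 : |e| < d / 2 := lt_of_lt_of_le he (min_le_left _ _)
  have hmem : x + uv (v' + e) - uv (v' - e) ∈ U c := by
    apply hW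
    · rw [abs_lt] at *; constructor <;> linarith [hv'.1, hv'.2, he1.1, he1.2]
    · rw [abs_lt] at *; constructor <;> linarith [hv'.1, hv'.2, he1.1, he1.2]
    · intro h0; apply he0; linarith
  exact h.avoid c _ hmem _ hyU hdist



end Cov
end

/-! ### Wedges are connected -/



end Crest.Agent.R40.T3
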