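import Mathlib
import Crest.Agent.R135.Janis

-- ▼ part R40/TopoA620
section

/-!
# R40: zero-dimensional compact sets (helper620)

`ZD K`: for every `ε > 0` the set `K` is a finite disjoint union of compact pieces of diameter
`< ε`. Compact totally disconnected sets have this property, it is stable under finite unions, and
it implies total disconnectedness. Consequence: in a proper metric space a finite union of closed
totally disconnected sets is totally disconnected.
-/

set_option autoImplicit false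

open Set Filter Topology Metric

namespace Crest.Agent.R40.Topo

variable {X : Type*} [MetricSpace X]

/-- for every `ε > 0` the set `K` is a finite disjoint union of compact pieces of diameter
`< ε`. -/
def ZD (K : Set X) : Prop :=
  ∀ ε > 0, ∃ (ι : Type) (_ : Finite ι) (P : ι → Set X), (∀ i, IsCompact (P i)) ∧
    (⋃ i, P i) = K ∧ (∀ i j, i ≠ j → Disjoint (P i) (P j)) ∧
    ∀ i, ∀ a ∈ P i, ∀ b ∈ P i, dist a b < ε

lemma ZD.isCompact {K : Set X} (h : ZD K) : IsCompact K := by
  obtain ⟨ι, hι, P, h1, h2, -⟩ := h 1 one_pos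
  rw [← h2]
  exact isCompact_iUnion h1

lemma ZD.empty : ZD (∅ : Set X) := fun ε _ =>
  ⟨PEmpty, inferInstance, fun i => i.elim, fun i => i.elim, by simp, fun i => i.elim,
    fun i => i.elim⟩

lemma ZD.of_isCompact {K : Set X} (hK : IsCompact K) (ht : IsTotallyDisconnected K) : ZD K := by
  intro ε hε
  have : CompactSpace K := isCompact_iff_compactSpace.1 hK
  have : TotallyDisconnectedSpace K := totallyDisconnectedSpace_subtype_iff.2 ht
  have h1 : ∀ x : K, ∃ V : Set K, IsClopen V ∧ x ∈ V ∧ V ⊆ ball x (ε / 2) := fun x =>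
    compact_exists_isClopen_in_isOpen isOpen_ball (mem_ball_self (by positivity))
  choose V hV hxV hVb using h1
  obtain ⟨t, ht'⟩ := isCompact_univ.elim_finite_subcover V (fun x => (hV x).isOpen)
    (fun x _ => mem_iUnion.2 ⟨x, hxV x⟩)
  -- index the finite family by `Fin n`
  let n := t.card
  let e : t ≃ Fin n := t.equivFin
  let A : Fin n → Set K := fun i => V (e.symm i)
  have hA : ∀ i, IsClopen (A i) := fun i => hV _
  have hcov : ⋃ i, A i = univ := by
    apply eq_univ_of_univ_subset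
    intro x hx
    obtain ⟨y, hy, hxy⟩ := mem_iUnion₂.1 (ht' hx)
    refine mem_iUnion.2 ⟨e ⟨y, hy⟩, ?_⟩
    simpa [A] using hxy
  let B : Fin n → Set K := fun i => A i \ ⋃ j : {j : Fin n // j < i}, A j
  have hB : ∀ i, IsClosed (B i) := by
    intro i
    refine (hA i).isClosed.sdiff ?_
    exact isOpen_iUnion fun j => (hA j).isOpen
  refine ⟨Fin n, inferInstance, fun i => (fun x : K => (x : X)) '' B i, ?_, ?_, ?_, ?_⟩
  · intro i
    exact (hB i).isCompact.image continuous_subtype_val
  · ext x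
    constructor
    · intro hx
      obtain ⟨i, y, hy, rfl⟩ := mem_iUnion.1 hx
      exact y.2
    · intro hx
      have : ∃ i, (⟨x, hx⟩ : K) ∈ A i := by
        have : (⟨x, hx⟩ : K) ∈ ⋃ i, A i := by rw [hcov]; trivial
        exact mem_iUnion.1 this
      classical
      have hne : (Finset.univ.filter (fun i => (⟨x, hx⟩ : K) ∈ A i)).Nonempty := by
        obtain ⟨i, hi⟩ := this
        exact ⟨i, by simp [hi]⟩
      set m := (Finset.univ.filter (fun i => (⟨x, hx⟩ : K) ∈ A i)).min' hne with hm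
      refine mem_iUnion.2 ⟨m, ⟨x, hx⟩, ⟨?_, ?_⟩, rfl⟩
      · have := Finset.min'_mem _ hne
        exact (Finset.mem_filter.1 this).2
      · intro hj
        obtain ⟨⟨j, hj1⟩, hj2⟩ := mem_iUnion.1 hj
        have := Finset.min'_le (Finset.univ.filter (fun i => (⟨x, hx⟩ : K) ∈ A i)) j
          (by simp only [Finset.mem_filter, Finset.mem_univ, true_and]; exact hj2)
        exact absurd hj1 (not_lt.2 this)
  · intro i j hij
    rw [Set.disjoint_left]
    rintro _ ⟨y, hy, rfl⟩ ⟨z, hz, hzy⟩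
    have hzy' : z = y := Subtype.ext hzy
    rw [hzy'] at hz
    rcases lt_or_gt_of_ne hij with h | h
    · exact hz.2 (mem_iUnion.2 ⟨⟨i, h⟩, hy.1⟩)
    · exact hy.2 (mem_iUnion.2 ⟨⟨j, h⟩, hz.1⟩)
  · rintro i _ ⟨a, ha, rfl⟩ _ ⟨b, hb, rfl⟩
    have h1 := hVb _ ha.1
    have h2 := hVb _ hb.1
    rw [mem_ball] at h1 h2
    have := dist_triangle_right a b (e.symm i : K)
    change dist a b < ε
    linarith

/-- different pieces of a finite family of disjoint compact sets have positive distance -/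
lemma exists_sep {ι : Type*} [Finite ι] {P : ι → Set X} (hP : ∀ i, IsCompact (P i))
    (hd : ∀ i j, i ≠ j → Disjoint (P i) (P j)) :
    ∃ δ > 0, ∀ i j, i ≠ j → ∀ a ∈ P i, ∀ b ∈ P j, δ ≤ dist a b := by
  classical
  have h1 : ∀ q : ι × ι, ∃ δ > 0, q.1 ≠ q.2 → ∀ a ∈ P q.1, ∀ b ∈ P q.2, δ ≤ dist a b := by
    rintro ⟨i, j⟩
    by_cases hij : i = j
    · exact ⟨1, one_pos, fun h => absurd hij h⟩
    · obtain ⟨r, hr, h⟩ :=
        Metric.exists_pos_forall_lt_edist (hP i) (hP j).isClosed (hd i j hij)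
      refine ⟨r, by exact_mod_cast hr, fun _ a ha b hb => ?_⟩
      have := h a ha b hb
      rw [edist_nndist] at this
      have h3 : r < nndist a b := by exact_mod_cast this
      rw [← coe_nndist]
      exact_mod_cast h3.le
  choose δ hδ hδ' using h1
  cases nonempty_fintype ι
  by_cases hι : Nonempty ι
  · refine ⟨Finset.univ.inf' (Finset.univ_nonempty) δ, ?_, ?_⟩
    · rw [gt_iff_lt, Finset.lt_inf'_iff]
      exact fun q _ => hδ q
    · intro i j hij a ha b hb
      exact (Finset.inf'_le δ (Finset.mem_univ (i, j))).trans (hδ' (i, j) hij a ha b hb)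
  · exact ⟨1, one_pos, fun i => absurd ⟨i⟩ hι⟩

/-- the union of two zero-dimensional compact sets -/
lemma ZD.union {K L : Set X} (hK : ZD K) (hL : ZD L) : ZD (K ∪ L) := by
  classical
  intro ε hε
  obtain ⟨ι, hι, P, hP1, hP2, hP3, hP4⟩ := hK (ε / 2) (by positivity)
  obtain ⟨δ, hδ, hsep⟩ := exists_sep hP1 hP3
  obtain ⟨κ, hκ, Q, hQ1, hQ2, hQ3, hQ4⟩ := hL (min δ (ε / 4)) (by positivity)
  -- each `Q j` meets at most one `P i`
  have huniq : ∀ i i' j, (P i ∩ Q j).Nonempty → (P i' ∩ Q j).Nonempty → i = i' := by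
    rintro i i' j ⟨a, ha, ha'⟩ ⟨b, hb, hb'⟩
    by_contra hne
    have h1 := hsep i i' hne a ha b hb
    have h2 := hQ4 j a ha' b hb'
    exact absurd (h2.trans_le (min_le_left _ _)) (not_lt.2 h1)
  let R : ι ⊕ κ → Set X := Sum.elim
    (fun i => P i ∪ ⋃ j : {j : κ // (P i ∩ Q j).Nonempty}, Q j)
    (fun j => if ∃ i, (P i ∩ Q j).Nonempty then ∅ else Q j)
  refine ⟨ι ⊕ κ, inferInstance, R, ?_, ?_, ?_, ?_⟩
  · rintro (i | j)
    · exact (hP1 i).union (isCompact_iUnion fun j => hQ1 _)
    · by_cases h : ∃ i, (P i ∩ Q j).Nonempty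
      · simp [R, h]
      · simp only [R, Sum.elim_inr, h, if_false]; exact hQ1 j
  · ext x
    constructor
    · intro hx
      obtain ⟨i | j, hi⟩ := mem_iUnion.1 hx
      · rcases hi with hi | hi
        · left; rw [← hP2]; exact mem_iUnion.2 ⟨i, hi⟩
        · right
          obtain ⟨j, hj⟩ := mem_iUnion.1 hi
          rw [← hQ2]; exact mem_iUnion.2 ⟨j, hj⟩
      · by_cases h : ∃ i, (P i ∩ Q j).Nonempty
        · simp [R, h] at hi
        · simp only [R, Sum.elim_inr, h, if_false] at hi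
          right; rw [← hQ2]; exact mem_iUnion.2 ⟨j, hi⟩
    · rintro (hx | hx)
      · rw [← hP2] at hx
        obtain ⟨i, hi⟩ := mem_iUnion.1 hx
        exact mem_iUnion.2 ⟨Sum.inl i, Or.inl hi⟩
      · rw [← hQ2] at hx
        obtain ⟨j, hj⟩ := mem_iUnion.1 hx
        by_cases h : ∃ i, (P i ∩ Q j).Nonempty
        · obtain ⟨i, hi⟩ := h
          exact mem_iUnion.2 ⟨Sum.inl i, Or.inr (mem_iUnion.2 ⟨⟨j, hi⟩, hj⟩)⟩
        · refine mem_iUnion.2 ⟨Sum.inr j, ?_⟩
          simp only [R, Sum.elim_inr, h, if_false]; exact hj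
  · have key : ∀ i j, Disjoint (R (Sum.inl i)) (R (Sum.inr j)) := by
      intro i j
      rw [Set.disjoint_left]
      intro x hx hx'
      by_cases h : ∃ i, (P i ∩ Q j).Nonempty
      · simp [R, h] at hx'
      · simp only [R, Sum.elim_inr, h, if_false] at hx'
        rcases hx with hx | hx
        · exact h ⟨i, x, hx, hx'⟩
        · obtain ⟨⟨j', hj'⟩, hxj'⟩ := mem_iUnion.1 hx
          by_cases hjj : j' = j
          · subst hjj; exact h ⟨i, hj'⟩
          · exact Set.disjoint_left.1 (hQ3 j' j hjj) hxj' hx'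
    have hii : ∀ i i', i ≠ i' → Disjoint (R (Sum.inl i)) (R (Sum.inl i')) := by
      intro i i' hne
      rw [Set.disjoint_left]
      rintro x (hx | hx) (hx' | hx')
      · exact Set.disjoint_left.1 (hP3 i i' hne) hx hx'
      · obtain ⟨⟨j', hj'⟩, hxj'⟩ := mem_iUnion.1 hx'
        exact hne (huniq i i' j' ⟨x, hx, hxj'⟩ hj')
      · obtain ⟨⟨j', hj'⟩, hxj'⟩ := mem_iUnion.1 hx
        exact hne (huniq i i' j' hj' ⟨x, hx', hxj'⟩)
      · obtain ⟨⟨j, hj⟩, hxj⟩ := mem_iUnion.1 hx
        obtain ⟨⟨j', hj'⟩, hxj'⟩ := mem_iUnion.1 hx'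
        by_cases hjj : j = j'
        · subst hjj; exact hne (huniq i i' j hj hj')
        · exact Set.disjoint_left.1 (hQ3 j j' hjj) hxj hxj'
    rintro (i | j) (i' | j') hne
    · exact hii i i' (fun h => hne (by rw [h]))
    · exact key i j'
    · exact (key i' j).symm
    · have hne' : j ≠ j' := fun h => hne (by rw [h])
      rw [Set.disjoint_left]
      intro x hx hx'
      by_cases h : ∃ i, (P i ∩ Q j).Nonempty
      · simp [R, h] at hx
      · simp only [R, Sum.elim_inr, h, if_false] at hx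
        by_cases h' : ∃ i, (P i ∩ Q j').Nonempty
        · simp [R, h'] at hx'
        · simp only [R, Sum.elim_inr, h', if_false] at hx'
          exact Set.disjoint_left.1 (hQ3 j j' hne') hx hx'
  · have hmin : min δ (ε / 4) ≤ ε / 4 := min_le_right _ _
    rintro (i | j) a ha b hb
    · -- every point of `R (inl i)` is at distance `< ε / 4` from a point of `P i`
      have hnear : ∀ a ∈ R (Sum.inl i), ∃ a' ∈ P i, dist a a' < ε / 4 := by
        rintro a (ha | ha)
        · exact ⟨a, ha, by rw [dist_self]; positivity⟩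
        · obtain ⟨⟨j, a', ha', ha''⟩, haj⟩ := mem_iUnion.1 ha
          exact ⟨a', ha', (hQ4 j a haj a' ha'').trans_le hmin⟩
      obtain ⟨a', ha', haa⟩ := hnear a ha
      obtain ⟨b', hb', hbb⟩ := hnear b hb
      have h1 := hP4 i a' ha' b' hb'
      have h2 := dist_triangle a a' b
      have h3 := dist_triangle a' b' b
      rw [dist_comm b' b] at h3
      linarith
    · by_cases h : ∃ i, (P i ∩ Q j).Nonempty
      · simp [R, h] at ha
      · simp only [R, Sum.elim_inr, h, if_false] at ha hb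
        have := hQ4 j a ha b hb
        linarith


/-- closed subsets of zero-dimensional compact sets -/
lemma ZD.inter_closed {K L : Set X} (hK : ZD K) (hL : IsClosed L) : ZD (K ∩ L) := by
  intro ε hε
  obtain ⟨ι, hι, P, hP1, hP2, hP3, hP4⟩ := hK ε hε
  refine ⟨ι, hι, fun i => P i ∩ L, fun i => (hP1 i).inter_right hL, ?_, ?_, ?_⟩
  · rw [← iUnion_inter, hP2]
  · intro i j hij
    exact (hP3 i j hij).mono inter_subset_left inter_subset_left
  · intro i a ha b hb
    exact hP4 i a ha.1 b hb.1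

lemma ZD.mono {K L : Set X} (hK : ZD K) (hL : IsClosed L) (h : L ⊆ K) : ZD L := by
  have := hK.inter_closed hL
  rwa [inter_eq_right.2 h] at this


lemma td_mono {T S : Set X} (ht : IsTotallyDisconnected T) (h : S ⊆ T) :
    IsTotallyDisconnected S := fun Q hQ hQ' => ht Q (hQ.trans h) hQ'



end Crest.Agent.R40.Topo
end

-- ▼ part R40/TopoB620

/-!
# R40: totally disconnected sets do not separate the plane (helper620)

`TD`: `U ⊆ ℂ` open preconnected, `T` relatively closed in `U` and `T ∩ U` totally disconnected,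
then `U \ T` is preconnected. Proof: splitting lemma `R135.locConst_split` (helper804), no
planar topology.
-/

set_option autoImplicit false

open Set Filter Topology Metric
open Crest.Agent.R135

namespace Crest.Agent.R40.Topo

/-- splitting off finitely many compact pieces -/
lemma split_finset {ι : Type*} (s : Finset ι) {U T0 : Set E2} {K : ι → Set E2}
    (hU : IsOpen U) (hK : ∀ i ∈ s, IsCompact (K i)) (hKU : ∀ i ∈ s, K i ⊆ U)
    (hT0 : closure T0 ∩ U ⊆ T0) (hd0 : ∀ i ∈ s, Disjoint (K i) T0)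
    (hdd : ∀ i ∈ s, ∀ j ∈ s, i ≠ j → Disjoint (K i) (K j)) {c : E2 → ℝ}
    (hc : LocConstOn (U \ ((⋃ i ∈ s, K i) ∪ T0)) c) :
    ∃ (d : ι → E2 → ℝ) (c' : E2 → ℝ), (∀ i ∈ s, LocConstOn (univ \ K i) (d i)) ∧
      LocConstOn (U \ T0) c' ∧
      (∀ y ∈ U \ ((⋃ i ∈ s, K i) ∪ T0), c y = c' y + ∑ i ∈ s, d i y) ∧
      ∀ i ∈ s, ∃ R : ℝ, ∀ y, R < ‖y‖ → d i y = 0 := by
  classical
  induction s using Finset.induction_on generalizing c with
  | empty =>
    refine ⟨fun _ _ => 0, c, by simp, ?_, by simp, by simp⟩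
    simpa using hc
  | insert a s ha ih =>
    have hK2 : IsClosed (⋃ i ∈ s, K i) :=
      (s.isCompact_biUnion fun i hi => hK i (Finset.mem_insert_of_mem hi)).isClosed
    have hset : U \ ((⋃ i ∈ insert a s, K i) ∪ T0) = U \ (K a ∪ ((⋃ i ∈ s, K i) ∪ T0)) := by
      rw [Finset.set_biUnion_insert, union_assoc]
    rw [hset] at hc
    obtain ⟨c1, c2, h1, h2, h3, h4⟩ := locConst_split (K2 := (⋃ i ∈ s, K i) ∪ T0) hU
      (hK a (Finset.mem_insert_self _ _)) (hKU a (Finset.mem_insert_self _ _))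
      (by
        rw [closure_union, hK2.closure_eq]
        rintro x ⟨hx | hx, hxU⟩
        · exact Or.inl hx
        · exact Or.inr (hT0 ⟨hx, hxU⟩))
      (by
        rw [disjoint_union_right]
        refine ⟨?_, hd0 a (Finset.mem_insert_self _ _)⟩
        rw [Set.disjoint_left]
        intro x hx hx'
        obtain ⟨i, hi, hxi⟩ := mem_iUnion₂.1 hx'
        refine Set.disjoint_left.1 (hdd a (Finset.mem_insert_self _ _) i
          (Finset.mem_insert_of_mem hi) ?_) hx hxi
        rintro rfl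
        exact ha hi) hc
    obtain ⟨d, c', g1, g2, g3, g4⟩ := ih (fun i hi => hK i (Finset.mem_insert_of_mem hi))
      (fun i hi => hKU i (Finset.mem_insert_of_mem hi))
      (fun i hi => hd0 i (Finset.mem_insert_of_mem hi))
      (fun i hi j hj => hdd i (Finset.mem_insert_of_mem hi) j (Finset.mem_insert_of_mem hj)) h2
    refine ⟨fun i => if i = a then c1 else d i, c', ?_, g2, ?_, ?_⟩
    · intro i hi
      by_cases hia : i = a
      · subst hia; simpa using h1
      · simp only [hia, if_false]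
        exact g1 i ((Finset.mem_insert.1 hi).resolve_left hia)
    · intro y hy
      rw [hset] at hy
      rw [h3 y hy, g3 y ⟨hy.1, fun h => hy.2 (Or.inr h)⟩, Finset.sum_insert ha]
      simp only [if_true]
      have : ∑ i ∈ s, (if i = a then c1 else d i) y = ∑ i ∈ s, d i y := by
        apply Finset.sum_congr rfl
        intro i hi
        have : i ≠ a := by rintro rfl; exact ha hi
        simp [this]
      rw [this]; ring
    · intro i hi
      by_cases hia : i = a
      · subst hia; simpa using h4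
      · simp only [hia, if_false]
        exact g4 i ((Finset.mem_insert.1 hi).resolve_left hia)

/-- a function locally constant off a compact set inside a small closed ball and vanishing near
infinity vanishes off the ball -/
lemma eq_zero_of_far {K : Set E2} {x : E2} {ε : ℝ} (hε : 0 ≤ ε) (hK : K ⊆ closedBall x ε)
    {d : E2 → ℝ} (hd : LocConstOn (univ \ K) d) (h0 : ∃ R : ℝ, ∀ y, R < ‖y‖ → d y = 0)
    {y : E2} (hy : ε < dist y x) : d y = 0 := by
  obtain ⟨R, hR⟩ := h0
  obtain ⟨z, hz1, hz2⟩ : ∃ z : E2, R < ‖z‖ ∧ ε < dist z x := by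
    obtain ⟨z, hz⟩ := NormedSpace.exists_lt_norm ℝ E2 (max R 0 + ε + ‖x‖)
    refine ⟨z, ?_, ?_⟩
    · have := le_max_left R 0
      have := norm_nonneg x
      linarith
    · have h1 : ‖z‖ ≤ dist z x + ‖x‖ := by
        rw [dist_eq_norm]
        calc ‖z‖ = ‖(z - x) + x‖ := by rw [sub_add_cancel]
          _ ≤ _ := norm_add_le _ _
      have := le_max_right R 0
      linarith
  rw [hd.eq_of_preconnected (isPreconnected_dist_gt x hε) (x := y) (y := z) ?_ hy hz2]
  · exact hR z hz1
  · intro w hw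
    refine ⟨mem_univ _, fun hwK => ?_⟩
    have h1 := hK hwK
    rw [mem_closedBall] at h1
    exact absurd hw (not_lt.2 h1)

/-- local step: near a point of `U`, a function locally constant on `U \ T` is constant off `T` -/
lemma local_const {U T : Set E2} (hU : IsOpen U) (hT : closure T ∩ U ⊆ T)
    (ht : IsTotallyDisconnected (T ∩ U)) {c : E2 → ℝ} (hc : LocConstOn (U \ T) c) {x : E2}
    (hx : x ∈ U) : ∃ δ > 0, ball x δ ⊆ U ∧
      ∀ y ∈ ball x δ, ∀ z ∈ ball x δ, y ∉ T → z ∉ T → c y = c z := by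
  classical
  obtain ⟨r, hr, hrU⟩ := Metric.nhds_basis_closedBall.mem_iff.1 (hU.mem_nhds hx)
  refine ⟨r / 2, by positivity, (ball_subset_closedBall.trans
    (closedBall_subset_closedBall (by linarith))).trans hrU, fun y hy z hz hyT hzT => ?_⟩
  set K : Set E2 := T ∩ closedBall x r with hKdef
  have hKc : IsClosed K := by
    have : K = closure T ∩ closedBall x r := by
      apply Subset.antisymm (inter_subset_inter_left _ subset_closure)
      rintro w ⟨hw1, hw2⟩
      exact ⟨hT ⟨hw1, hrU hw2⟩, hw2⟩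
    rw [this]
    exact isClosed_closure.inter isClosed_closedBall
  have hKcomp : IsCompact K := (isCompact_closedBall x r).of_isClosed_subset hKc inter_subset_right
  have hKtd : IsTotallyDisconnected K :=
    td_mono ht (inter_subset_inter_right _ hrU)
  have hyK : y ∉ K := fun h => hyT h.1
  have hzK : z ∉ K := fun h => hzT h.1
  obtain ⟨ε1, hε1, h1⟩ := Metric.isOpen_iff.1 hKc.isOpen_compl y hyK
  obtain ⟨ε2, hε2, h2⟩ := Metric.isOpen_iff.1 hKc.isOpen_compl z hzK
  set ε : ℝ := min (min ε1 ε2) (r / 2) with hεdef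
  have hε : 0 < ε := by positivity
  have hεε1 : ε ≤ ε1 := (min_le_left _ _).trans (min_le_left _ _)
  have hεε2 : ε ≤ ε2 := (min_le_left _ _).trans (min_le_right _ _)
  have hεr : ε ≤ r / 2 := min_le_right _ _
  obtain ⟨ι, hι, P, hP1, hP2, hP3, hP4⟩ := ZD.of_isCompact hKcomp hKtd ε hε
  cases nonempty_fintype ι
  set s : Finset ι := Finset.univ.filter (fun i => (P i ∩ closedBall x (r / 2)).Nonempty) with hs
  have hs1 : ∀ i ∈ s, P i ⊆ ball x r := by
    intro i hi w hw
    obtain ⟨p, hp1, hp2⟩ := (Finset.mem_filter.1 hi).2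
    have h3 := hP4 i w hw p hp1
    rw [mem_closedBall] at hp2
    rw [mem_ball]
    have := dist_triangle w p x
    linarith
  have hs2 : ∀ i, i ∉ s → ∀ w ∈ P i, w ∉ closedBall x (r / 2) := by
    intro i hi w hw hw'
    exact hi (Finset.mem_filter.2 ⟨Finset.mem_univ _, w, hw, hw'⟩)
  set T0 : Set E2 := ⋃ i : {i // i ∉ s}, P i with hT0
  have hT0c : IsClosed T0 := isClosed_iUnion_of_finite fun i => (hP1 i).isClosed
  have hKT : K = (⋃ i ∈ s, P i) ∪ T0 := by
    rw [← hP2]
    ext w
    simp only [mem_union, mem_iUnion, hT0]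
    constructor
    · rintro ⟨i, hi⟩
      by_cases his : i ∈ s
      · exact Or.inl ⟨i, his, hi⟩
      · exact Or.inr ⟨⟨i, his⟩, hi⟩
    · rintro (⟨i, -, hi⟩ | ⟨i, hi⟩)
      · exact ⟨i, hi⟩
      · exact ⟨i, hi⟩
  have hc' : LocConstOn (ball x r \ ((⋃ i ∈ s, P i) ∪ T0)) c := by
    refine hc.mono' ?_
    rintro w ⟨hw1, hw2⟩
    refine ⟨hrU (ball_subset_closedBall hw1), fun hwT => hw2 ?_⟩
    rw [← hKT]
    exact ⟨hwT, ball_subset_closedBall hw1⟩
  obtain ⟨d, c', g1, g2, g3, g4⟩ := split_finset s (T0 := T0) isOpen_ball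
    (fun i _ => hP1 i) hs1 (by rw [hT0c.closure_eq]; exact inter_subset_left)
    (by
      intro i hi
      rw [Set.disjoint_left]
      intro w hw hw'
      obtain ⟨⟨j, hj⟩, hwj⟩ := mem_iUnion.1 hw'
      exact Set.disjoint_left.1 (hP3 i j (by rintro rfl; exact hj hi)) hw hwj)
    (fun i _ j _ hij => hP3 i j hij) hc'
  -- `c'` is constant on the small ball
  have hc'const : c' y = c' z := by
    refine g2.eq_of_preconnected (convex_ball x (r / 2)).isPreconnected ?_ hy hz
    intro w hw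
    refine ⟨ball_subset_ball (by linarith) hw, fun hw' => ?_⟩
    obtain ⟨⟨j, hj⟩, hwj⟩ := mem_iUnion.1 hw'
    exact hs2 j hj w hwj (ball_subset_closedBall hw)
  -- all `d i` vanish at `y` and `z`
  have hd0 : ∀ w : E2, (ball w ε ⊆ Kᶜ) → ∀ i ∈ s, d i w = 0 := by
    intro w hw i hi
    obtain ⟨p, hp1, hp2⟩ := (Finset.mem_filter.1 hi).2
    have hwp : ε ≤ dist w p := by
      by_contra hlt
      push Not at hlt
      have hpK : p ∈ K := by rw [← hP2]; exact mem_iUnion.2 ⟨i, hp1⟩
      exact hw (by rw [mem_ball, dist_comm]; exact hlt) hpK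
    -- use a slightly smaller radius
    obtain ⟨ε', hε'0, hε', hPε'⟩ : ∃ ε' : ℝ, 0 ≤ ε' ∧ ε' < ε ∧ P i ⊆ closedBall p ε' := by
      obtain ⟨q, hq, hmax⟩ := (hP1 i).exists_isMaxOn ⟨p, hp1⟩
        (f := fun q => dist q p) (by fun_prop)
      exact ⟨dist q p, dist_nonneg, hP4 i q hq p hp1, fun w hw => hmax hw⟩
    exact eq_zero_of_far hε'0 hPε' (g1 i hi) (g4 i hi) (by linarith)
  have e1 : ball y ε ⊆ Kᶜ := (ball_subset_ball hεε1).trans h1
  have e2 : ball z ε ⊆ Kᶜ := (ball_subset_ball hεε2).trans h2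
  have hyr : y ∈ ball x r := ball_subset_ball (by linarith) hy
  have hzr : z ∈ ball x r := ball_subset_ball (by linarith) hz
  rw [g3 y ⟨hyr, by rw [← hKT]; exact hyK⟩, g3 z ⟨hzr, by rw [← hKT]; exact hzK⟩,
    Finset.sum_eq_zero (hd0 y e1), Finset.sum_eq_zero (hd0 z e2), hc'const]

/-- totally disconnected sets contain no ball -/
lemma exists_notMem_of_td {T : Set E2} (ht : IsTotallyDisconnected T) {x : E2} {δ : ℝ}
    (hδ : 0 < δ) : ∃ y ∈ ball x δ, y ∉ T := by
  by_contra hcon
  push Not at hcon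
  have h1 := ht (ball x δ) hcon (convex_ball x δ).isPreconnected
  obtain ⟨e, he⟩ := exists_norm_eq E2 (show (0 : ℝ) ≤ δ / 2 by positivity)
  have h2 : x + e ∈ ball x δ := by
    rw [mem_ball, dist_eq_norm, add_sub_cancel_left, he]; linarith
  have h3 := h1 h2 (mem_ball_self hδ)
  have h4 : e = 0 := by simpa using h3
  rw [h4, norm_zero] at he
  linarith

/-- a locally constant real function on `U \ T` is constant -/
theorem eq_of_td {U T : Set E2} (hU : IsOpen U) (hUc : IsPreconnected U)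
    (hT : closure T ∩ U ⊆ T) (ht : IsTotallyDisconnected (T ∩ U)) {c : E2 → ℝ}
    (hc : LocConstOn (U \ T) c) {x y : E2} (hx : x ∈ U \ T) (hy : y ∈ U \ T) : c x = c y := by
  set A : Set E2 := {z | z ∈ U ∧ ∀ᶠ w in 𝓝 z, w ∉ T → c w = c x} with hA
  set B : Set E2 := {z | z ∈ U ∧ ¬ ∀ᶠ w in 𝓝 z, w ∉ T → c w = c x} with hB
  have hAo : IsOpen A := by
    have h1 : IsOpen {z : E2 | ∀ᶠ w in 𝓝 z, w ∉ T → c w = c x} := isOpen_setOfPred_eventually_nhds
    exact hU.inter h1
  have hBo : IsOpen B := by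
    rw [Metric.isOpen_iff]
    rintro z ⟨hzU, hz⟩
    obtain ⟨δ, hδ, hδU, h⟩ := local_const hU hT ht hc hzU
    refine ⟨δ, hδ, fun z' hz' => ⟨hδU hz', fun hz'' => hz ?_⟩⟩
    -- a point near `z'` off `T`
    have hev := hz''.and (isOpen_ball.mem_nhds hz')
    obtain ⟨ρ, hρ, hρ'⟩ := Metric.eventually_nhds_iff_ball.1 hev
    obtain ⟨w, hw, hwT⟩ := exists_notMem_of_td ht (x := z') hρ
    have hwδ : w ∈ ball z δ := (hρ' w hw).2
    have hwT' : w ∉ T := fun h => hwT ⟨h, hδU hwδ⟩
    have hwc : c w = c x := (hρ' w hw).1 hwT'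
    filter_upwards [isOpen_ball.mem_nhds (mem_ball_self (x := z) hδ)] with v hv hvT
    rw [← hwc]
    exact h v hv w hwδ hvT hwT'
  have hUAB : U ⊆ A ∪ B := fun z hz => by
    by_cases h : ∀ᶠ w in 𝓝 z, w ∉ T → c w = c x
    · exact Or.inl ⟨hz, h⟩
    · exact Or.inr ⟨hz, h⟩
  have hxA : x ∈ A := ⟨hx.1, (hc x hx).mono fun w hw _ => hw⟩
  have hABd : U ∩ (A ∩ B) = ∅ := by
    ext z
    simp only [mem_inter_iff, mem_empty_iff_false, iff_false]
    rintro ⟨-, h1, h2⟩
    exact h2.2 h1.2
  have hUA : U ⊆ A := by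
    rcases hUc.subset_or_subset hAo hBo (by
        rw [Set.disjoint_left]; exact fun z h1 h2 => h2.2 h1.2) hUAB with h | h
    · exact h
    · exact absurd hxA.2 (h hx.1).2
  exact ((hUA hy.1).2.self_of_nhds hy.2).symm

/-- **(TD)** in `EuclideanSpace ℝ (Fin 2)` -/
theorem td_isPreconnected_E2 {U T : Set E2} (hU : IsOpen U) (hUc : IsPreconnected U)
    (hT : closure T ∩ U ⊆ T) (ht : IsTotallyDisconnected (T ∩ U)) :
    IsPreconnected (U \ T) := by
  classical
  have hUT : IsOpen (U \ T) := by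
    have : U \ T = U \ closure T := by
      ext y
      exact ⟨fun h => ⟨h.1, fun h' => h.2 (hT ⟨h', h.1⟩)⟩,
        fun h => ⟨h.1, fun h' => h.2 (subset_closure h')⟩⟩
    rw [this]
    exact hU.sdiff isClosed_closure
  rintro u v hu hv huv ⟨a, ha, hau⟩ ⟨b, hb, hbv⟩
  by_contra hcon
  rw [not_nonempty_iff_eq_empty] at hcon
  have hc : LocConstOn (U \ T) (fun z => if z ∈ u then (1 : ℝ) else 0) := by
    intro z hz
    by_cases hzu : z ∈ u
    · filter_upwards [hu.mem_nhds hzu] with w hw
      simp [hw, hzu]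
    · have hzv : z ∈ v := (huv hz).resolve_left hzu
      filter_upwards [hv.mem_nhds hzv, hUT.mem_nhds hz] with w hw hwU
      have : w ∉ u := fun h => by
        have : w ∈ (U \ T) ∩ (u ∩ v) := ⟨hwU, h, hw⟩
        rw [hcon] at this
        exact this
      simp [this, hzu]
  have := eq_of_td hU hUc hT ht hc ha hb
  have hbu : b ∉ u := fun h => by
    have : b ∈ (U \ T) ∩ (u ∩ v) := ⟨hb, h, hbv⟩
    rw [hcon] at this
    exact this
  simp [hau, hbu] at this

/-- **(TD)**: `U ⊆ ℂ` open and preconnected, `T` relatively closed in `U` with `T ∩ U` totally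
disconnected. Then `U \ T` is preconnected. -/
theorem td_isPreconnected {U T : Set ℂ} (hU : IsOpen U) (hUc : IsPreconnected U)
    (hT : closure T ∩ U ⊆ T) (ht : IsTotallyDisconnected (T ∩ U)) :
    IsPreconnected (U \ T) := by
  let e : E2 ≃ₜ ℂ := (Complex.orthonormalBasisOneI.repr.symm).toHomeomorph
  have h1 : IsPreconnected ((e ⁻¹' U) \ (e ⁻¹' T)) := by
    refine td_isPreconnected_E2 (hU.preimage e.continuous) ?_ ?_ ?_
    · rwa [e.isPreconnected_preimage]
    · rw [← e.preimage_closure, ← preimage_inter]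
      exact preimage_mono hT
    · rw [← preimage_inter]
      have h2 : e ⁻¹' (T ∩ U) = e.symm '' (T ∩ U) := by
        rw [e.image_symm]
      rw [h2]
      exact (e.symm.isEmbedding.isTotallyDisconnected_image).2 ht
  rwa [← preimage_sdiff, e.isPreconnected_preimage] at h1



/-- cover version: if `N` is covered by two closed sets whose intersection in `N` is totally
disconnected, then one of them contains `N`. -/
theorem td_cover {N H H' : Set ℂ} (hN : IsOpen N) (hNc : IsPreconnected N) (hH : IsClosed H)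
    (hH' : IsClosed H') (hcov : N ⊆ H ∪ H') (ht : IsTotallyDisconnected (H ∩ H' ∩ N)) :
    N ⊆ H ∨ N ⊆ H' := by
  have h1 : IsPreconnected (N \ (H ∩ H')) := td_isPreconnected hN hNc
    (by rw [(hH.inter hH').closure_eq]; exact inter_subset_left) ht
  rw [isPreconnected_iff_subset_of_disjoint_closed] at h1
  have key : ∀ {H H' : Set ℂ}, N \ (H ∩ H') ⊆ H → N ⊆ H := by
    intro H H' h x hx
    by_cases hxx : x ∈ H ∩ H'
    · exact hxx.1
    · exact h ⟨hx, hxx⟩
  rcases h1 H H' hH hH' (sdiff_subset.trans hcov) (by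
    ext x
    simp only [mem_inter_iff, mem_empty_iff_false, iff_false]
    rintro ⟨hx1, hx2⟩
    exact hx1.2 hx2) with h | h
  · exact Or.inl (key h)
  · exact Or.inr (key (H' := H) (by rwa [inter_comm] at h))

/-- a totally disconnected set in the plane has empty interior -/
lemma td_interior {T : Set ℂ} (ht : IsTotallyDisconnected T) : interior T = ∅ := by
  by_contra hne
  obtain ⟨x, hx⟩ := nonempty_iff_ne_empty.2 hne
  obtain ⟨δ, hδ, h⟩ := Metric.isOpen_iff.1 isOpen_interior x hx
  have h1 := ht (ball x δ) (h.trans interior_subset) (convex_ball x δ).isPreconnected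
  have h2 : x + (δ / 2 : ℝ) ∈ ball x δ := by
    rw [mem_ball, dist_eq_norm, add_sub_cancel_left, Complex.norm_real, Real.norm_eq_abs,
      abs_of_pos (by positivity)]
    linarith
  have h3 := h1 h2 (mem_ball_self hδ)
  have h4 : ((δ / 2 : ℝ) : ℂ) = 0 := by simpa using h3
  have h5 : δ / 2 = 0 := by exact_mod_cast h4
  linarith

end Crest.Agent.R40.Topo
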