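import Crest.Agent.R40.T3Sol
import Crest.Agent.R40.T3Graph
import Crest.Agent.R40.T3Sol2
import Crest.Agent.R40.T3Geo638
import Crest.Agent.R40.T3Main
import Crest.Agent.R40.T3Pal
import Crest.Agent.R40.TopoB620

-- ▼ part R40/T3Ray467
section

/-!
# R40 / T3 : rays through a point in directions orthogonal to solid two-coloured arcs (Case III)
-/

set_option autoImplicit false

open Set Metric Topology Filter

namespace Crest.Agent.R40.T3

/-- the point `x + 2 i sin h · uv v` -/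
noncomputable def seg (x : ℂ) (v h : ℝ) : ℂ := x + uv (v + h) - uv (v - h)

lemma seg_zero (x : ℂ) (v : ℝ) : seg x v 0 = x := by simp [seg]

lemma continuous_seg (x : ℂ) (v : ℝ) : Continuous (seg x v) := by
  have := continuous_uv
  unfold seg
  fun_prop

/-- squared distance from a point of the ray to a point of the unit circle about `x` -/
lemma dist_sq_seg_uv (x : ℂ) (v h s : ℝ) :
    dist (seg x v h) (x + uv s) ^ 2 =
      1 - 4 * Real.sin h * (Real.sin (s - v) - Real.sin h) := by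
  rw [dist_sq_eq_normSq]
  have h1 : seg x v h - (x + uv s) = uv (v + h) - uv (v - h) - uv s := by rw [seg]; ring
  rw [h1, Complex.normSq_apply]
  simp only [Complex.sub_re, Complex.sub_im, uv_re, uv_im]
  rw [Real.cos_add, Real.cos_sub, Real.sin_add, Real.sin_sub, Real.sin_sub]
  have e1 := Real.sin_sq_add_cos_sq s
  have e2 := Real.sin_sq_add_cos_sq v
  linear_combination e1 + 4 * Real.sin h ^ 2 * e2

lemma seg_neg_eq (x : ℂ) (v r : ℝ) : seg x v (-r) = seg x (v + Real.pi) r := by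
  unfold seg
  have h1 : uv (v + Real.pi + r) = - uv (v + r) := by
    rw [← uv_add_pi]; congr 1; ring
  have h2 : uv (v + Real.pi - r) = - uv (v - r) := by
    rw [← uv_add_pi]; congr 1; ring
  rw [h1, h2]
  have h3 : v + -r = v - r := by ring
  have h4 : v - -r = v + r := by ring
  rw [h3, h4]; ring

/-- in an open nonempty set of angles there is one not parallel to `s` -/
lemma exists_sin_ne_467 {A : Set ℝ} (hA : IsOpen A) (hAn : A.Nonempty) (s : ℝ) :
    ∃ v ∈ A, Real.sin (s - v) ≠ 0 := by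
  obtain ⟨v, hv⟩ := hAn
  by_cases h0 : Real.sin (s - v) = 0
  · have hc : Tendsto (fun r : ℝ => v + r) (𝓝[>] 0) (𝓝 v) := by
      have : Continuous (fun r : ℝ => v + r) := by fun_prop
      have := this.tendsto 0
      rw [add_zero] at this
      exact this.mono_left nhdsWithin_le_nhds
    obtain ⟨r, ⟨hr1, hr2⟩, hr3⟩ := (((hc.eventually (hA.mem_nhds hv)).and
      (nhdsWithin_le_nhds (eventually_lt_nhds Real.pi_pos) : ∀ᶠ r : ℝ in 𝓝[>] 0, r < Real.pi)).and
      (self_mem_nhdsWithin : ∀ᶠ r : ℝ in 𝓝[>] 0, r ∈ Ioi (0:ℝ))).exists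
    have hr3 : 0 < r := hr3
    refine ⟨v + r, hr1, ?_⟩
    have e : s - (v + r) = s - v - r := by ring
    rw [e, Real.sin_sub, h0, zero_mul, zero_sub, neg_ne_zero]
    have hs : 0 < Real.sin r := Real.sin_pos_of_pos_of_lt_pi hr3 hr2
    have hc : Real.cos (s - v) ≠ 0 := by
      intro hc0
      have := Real.sin_sq_add_cos_sq (s - v)
      rw [h0, hc0] at this
      norm_num at this
    exact mul_ne_zero hc hs.ne'
  · exact ⟨v, hv, h0⟩

section
variable {U : Fin 5 → Set ℂ} {x : ℂ} {k : Fin 5}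

namespace Cov
variable (h : Cov U)
include h

/-- (F2), inner form. -/
theorem cross_inner {Q : Set ℂ} {z p : ℂ} (hQ : IsPreconnected Q) (hQF : Q ⊆ F U k)
    (hx : x ∈ Q) (hz : z ∈ Q) (hzp : dist z p < 1) :
    ∀ᶠ q in 𝓝 p, q ∈ F U k → dist q x ≤ 1 := by
  have ho : ∀ᶠ q in 𝓝 p, dist z q < 1 := by
    have hc : Continuous (fun q : ℂ => dist z q) := by fun_prop
    exact (hc.tendsto p).eventually (gt_mem_nhds hzp)
  filter_upwards [ho] with q hq hqk
  by_contra hlt
  push Not at hlt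
  exact h.not_cross hQ hQF hqk hz hx hq (by rwa [dist_comm])

/-- (F2), outer form. -/
theorem cross_outer {Q : Set ℂ} {z p : ℂ} (hQ : IsPreconnected Q) (hQF : Q ⊆ F U k)
    (hx : x ∈ Q) (hz : z ∈ Q) (hzp : 1 < dist z p) :
    ∀ᶠ q in 𝓝 p, q ∈ F U k → 1 ≤ dist q x := by
  have ho : ∀ᶠ q in 𝓝 p, 1 < dist z q := by
    have hc : Continuous (fun q : ℂ => dist z q) := by fun_prop
    exact (hc.tendsto p).eventually (lt_mem_nhds hzp)
  filter_upwards [ho] with q hq hqk
  by_contra hlt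
  push Not at hlt
  exact h.not_cross hQ hQF hqk hx hz (by rwa [dist_comm]) hq

/-- A path starting at `x` which is generically two-coloured without exact pairs is
monochromatic. -/
theorem path_mono {b d : Fin 5} {γ : ℝ → ℂ} (hγ : Continuous γ) {η : ℝ} (hη : 0 < η)
    (hJ : ∀ r ∈ Ioc 0 η, J U (γ r) ⊆ {b, d}) (hn : ∀ r ∈ Ioc 0 η, J U (γ r) ≠ {b, d}) :
    ∃ k, (k = b ∨ k = d) ∧ ∀ r ∈ Icc 0 η, γ r ∈ F U k := by
  have hQ : IsPreconnected (γ '' Ioc 0 η) := isPreconnected_Ioc.image _ hγ.continuousOn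
  have hcl : ∀ k, γ '' Ioc 0 η ⊆ U k → ∀ r ∈ Icc 0 η, γ r ∈ F U k := by
    intro k hk r hr
    have h1 : Ioc 0 η ⊆ γ ⁻¹' F U k := fun s hs => subset_F k (hk ⟨s, hs, rfl⟩)
    have h2 : IsClosed (γ ⁻¹' F U k) := (isClosed_F k).preimage hγ
    have h3 : closure (Ioc 0 η) ⊆ γ ⁻¹' F U k := closure_minimal h1 h2
    rw [closure_Ioc hη.ne] at h3
    exact h3 hr
  rcases h.mono_two hQ (i := b) (j := d) (by rintro _ ⟨r, hr, rfl⟩; exact hJ r hr)
    (by rintro _ ⟨r, hr, rfl⟩; exact hn r hr) with h1 | h1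
  · exact ⟨b, Or.inl rfl, hcl b h1⟩
  · exact ⟨d, Or.inr rfl, hcl d h1⟩

/-- points of the line through `x` orthogonal to a solid direction `v` -/
theorem seg_colour {a b c d : Fin 5} (hJ : J U x ⊆ {a, b, c, d}) (hbd : ¬ Acc U x b d) {v : ℝ}
    (hva : v ∈ Sol U a x) (hvc : v ∈ Sol U c x) :
    ∃ η > 0, ∀ r : ℝ, r ≠ 0 → |r| ≤ η → J U (seg x v r) ⊆ {b, d} ∧ J U (seg x v r) ≠ {b, d} := by
  have hev : ∀ᶠ z in 𝓝 x, J U z ⊆ {a, b, c, d} ∧ J U z ≠ {b, d} := by
    have h1 : ∀ᶠ z in 𝓝 x, J U z ≠ {b, d} := by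
      by_contra hn
      exact hbd (fun h' => hn h')
    filter_upwards [h1, J_usc (U := U) x] with z hz1 hz2 using ⟨hz2.trans hJ, hz1⟩
  have ht : Tendsto (seg x v) (𝓝 0) (𝓝 x) := by
    have := (continuous_seg x v).tendsto 0
    rwa [seg_zero] at this
  have hva' : ∀ᶠ r in 𝓝 (0 : ℝ), v + r ∈ Sol U a x := by
    have hc : Tendsto (fun r : ℝ => v + r) (𝓝 0) (𝓝 v) := by
      have : Continuous (fun r : ℝ => v + r) := by fun_prop
      simpa using this.tendsto 0
    exact hc.eventually (isOpen_Sol.mem_nhds hva)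
  have hvc' : ∀ᶠ r in 𝓝 (0 : ℝ), v + r ∈ Sol U c x := by
    have hc : Tendsto (fun r : ℝ => v + r) (𝓝 0) (𝓝 v) := by
      have : Continuous (fun r : ℝ => v + r) := by fun_prop
      simpa using this.tendsto 0
    exact hc.eventually (isOpen_Sol.mem_nhds hvc)
  obtain ⟨ε, hε, hε'⟩ := Metric.eventually_nhds_iff.1 ((ht.eventually hev).and (hva'.and hvc'))
  refine ⟨min (ε / 2) 1, lt_min (by linarith) one_pos, fun r hr hrε => ?_⟩
  have hr1 : |r| < ε := lt_of_le_of_lt (hrε.trans (min_le_left _ _)) (by linarith)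
  have hr2 : |r| ≤ 1 := hrε.trans (min_le_right _ _)
  obtain ⟨⟨h1, h2⟩, h3, h4⟩ := hε' (y := r) (by rwa [Real.dist_eq, sub_zero])
  refine ⟨fun i hi => ?_, h2⟩
  have hsin : Real.sin (v + r - (v - r)) ≠ 0 := by
    have e : v + r - (v - r) = 2 * r := by ring
    rw [e]
    obtain ⟨hl, hu⟩ := abs_le.1 hr2
    have hpi := Real.pi_gt_three
    rcases lt_or_gt_of_ne hr with hneg | hpos
    · exact (Real.sin_neg_of_neg_of_neg_pi_lt (by linarith) (by linarith)).ne
    · exact (Real.sin_pos_of_pos_of_lt_pi (by linarith) (by linarith)).ne'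
  have hp : x + uv (v + r) - uv (v - r) ∈ F U i := mem_J.1 hi
  have h5 := (h.P5 hsin hp).1
  have h6 := h1 hi
  simp only [Finset.mem_insert, Finset.mem_singleton] at h6 ⊢
  rcases h6 with rfl | rfl | rfl | rfl
  · exact absurd h3 h5
  · exact Or.inl rfl
  · exact absurd h4 h5
  · exact Or.inr rfl

/-- Both rays of the line are monochromatic. -/
theorem ray {a b c d : Fin 5} (hJ : J U x ⊆ {a, b, c, d}) (hbd : ¬ Acc U x b d) {v : ℝ}
    (hva : v ∈ Sol U a x) (hvc : v ∈ Sol U c x) :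
    ∃ η > 0, ∃ kp km, (kp = b ∨ kp = d) ∧ (km = b ∨ km = d) ∧
      (∀ r ∈ Icc 0 η, seg x v r ∈ F U kp) ∧ (∀ r ∈ Icc 0 η, seg x v (-r) ∈ F U km) := by
  obtain ⟨η, hη, hs⟩ := h.seg_colour hJ hbd hva hvc
  obtain ⟨kp, hkp, h1⟩ := h.path_mono (b := b) (d := d) (continuous_seg x v) hη
    (fun r hr => (hs r hr.1.ne' (by rw [abs_of_pos hr.1]; exact hr.2)).1)
    (fun r hr => (hs r hr.1.ne' (by rw [abs_of_pos hr.1]; exact hr.2)).2)
  obtain ⟨km, hkm, h2⟩ := h.path_mono (b := b) (d := d) (γ := fun r => seg x v (-r))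
    ((continuous_seg x v).comp continuous_neg) hη
    (fun r hr => (hs (-r) (neg_ne_zero.2 hr.1.ne') (by rw [abs_neg, abs_of_pos hr.1]; exact hr.2)).1)
    (fun r hr => (hs (-r) (neg_ne_zero.2 hr.1.ne') (by rw [abs_neg, abs_of_pos hr.1]; exact hr.2)).2)
  exact ⟨η, hη, kp, km, hkp, hkm, h1, h2⟩

/-- A monochromatic positive ray: points of its colour near the circle on the side of the ray are
inside. -/
theorem ray_inner {v η : ℝ} (hη : 0 < η) (hr : ∀ r ∈ Icc 0 η, seg x v r ∈ F U k) {s : ℝ}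
    (hs : 0 < Real.sin (s - v)) : ∀ᶠ q in 𝓝 (x + uv s), q ∈ F U k → dist q x ≤ 1 := by
  have hQ : IsPreconnected (seg x v '' Icc 0 η) :=
    isPreconnected_Icc.image _ (continuous_seg x v).continuousOn
  have hQF : seg x v '' Icc 0 η ⊆ F U k := by rintro _ ⟨r, hr', rfl⟩; exact hr r hr'
  -- choose a small parameter
  have hlim : Tendsto (fun r : ℝ => Real.sin r) (𝓝[>] 0) (𝓝 0) := by
    have := Real.continuous_sin.tendsto 0
    rw [Real.sin_zero] at this
    exact this.mono_left nhdsWithin_le_nhds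
  obtain ⟨r, ⟨⟨hr1, hr2⟩, hr3⟩, hr4⟩ := ((((hlim.eventually (gt_mem_nhds hs)).and
    (nhdsWithin_le_nhds (eventually_lt_nhds hη) : ∀ᶠ r : ℝ in 𝓝[>] 0, r < η)).and
    (nhdsWithin_le_nhds (eventually_lt_nhds Real.pi_pos) : ∀ᶠ r : ℝ in 𝓝[>] 0, r < Real.pi)).and
    (self_mem_nhdsWithin : ∀ᶠ r : ℝ in 𝓝[>] 0, r ∈ Ioi (0:ℝ))).exists
  have hr4 : 0 < r := hr4
  have hsr : 0 < Real.sin r := Real.sin_pos_of_pos_of_lt_pi hr4 hr3
  have hd : dist (seg x v r) (x + uv s) < 1 := by
    have h1 := dist_sq_seg_uv x v r s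
    have h2 : 0 < Real.sin r * (Real.sin (s - v) - Real.sin r) := mul_pos hsr (by linarith)
    nlinarith [dist_nonneg (x := seg x v r) (y := x + uv s)]
  exact h.cross_inner hQ hQF ⟨0, ⟨le_rfl, hη.le⟩, seg_zero x v⟩ ⟨r, ⟨hr4.le, hr2.le⟩, rfl⟩ hd

/-- A monochromatic positive ray: points of its colour near the circle on the other side of the
ray are outside. -/
theorem ray_outer {v η : ℝ} (hη : 0 < η) (hr : ∀ r ∈ Icc 0 η, seg x v r ∈ F U k) {s : ℝ}
    (hs : Real.sin (s - v) < 0) : ∀ᶠ q in 𝓝 (x + uv s), q ∈ F U k → 1 ≤ dist q x := by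
  have hQ : IsPreconnected (seg x v '' Icc 0 η) :=
    isPreconnected_Icc.image _ (continuous_seg x v).continuousOn
  have hQF : seg x v '' Icc 0 η ⊆ F U k := by rintro _ ⟨r, hr', rfl⟩; exact hr r hr'
  set r : ℝ := min η 1 with hrdef
  have hr0 : 0 < r := lt_min hη one_pos
  have hr1 : r ≤ 1 := min_le_right _ _
  have hsr : 0 < Real.sin r := Real.sin_pos_of_pos_of_lt_pi hr0 (by linarith [Real.pi_gt_three])
  have hd : 1 < dist (seg x v r) (x + uv s) := by
    have h1 := dist_sq_seg_uv x v r s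
    have h2 : Real.sin r * (Real.sin (s - v) - Real.sin r) < 0 :=
      mul_neg_of_pos_of_neg hsr (by linarith)
    nlinarith [dist_nonneg (x := seg x v r) (y := x + uv s)]
  exact h.cross_outer hQ hQF ⟨0, ⟨le_rfl, hη.le⟩, seg_zero x v⟩ ⟨r, ⟨hr0.le, min_le_left _ _⟩, rfl⟩ hd

theorem ray_inner' {v η : ℝ} (hη : 0 < η) (hr : ∀ r ∈ Icc 0 η, seg x v (-r) ∈ F U k) {s : ℝ}
    (hs : Real.sin (s - v) < 0) : ∀ᶠ q in 𝓝 (x + uv s), q ∈ F U k → dist q x ≤ 1 := by
  refine h.ray_inner hη (v := v + Real.pi) (fun r hr' => ?_) ?_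
  · rw [← seg_neg_eq]; exact hr r hr'
  · have : s - (v + Real.pi) = s - v - Real.pi := by ring
    rw [this, Real.sin_sub_pi]; linarith

theorem ray_outer' {v η : ℝ} (hη : 0 < η) (hr : ∀ r ∈ Icc 0 η, seg x v (-r) ∈ F U k) {s : ℝ}
    (hs : 0 < Real.sin (s - v)) : ∀ᶠ q in 𝓝 (x + uv s), q ∈ F U k → 1 ≤ dist q x := by
  refine h.ray_outer hη (v := v + Real.pi) (fun r hr' => ?_) ?_
  · rw [← seg_neg_eq]; exact hr r hr'
  · have : s - (v + Real.pi) = s - v - Real.pi := by ring
    rw [this, Real.sin_sub_pi]; linarith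

/-- (III-cd) Near the unit circle about `x`, points having both colours `b`, `d` lie on the
circle. -/
theorem III_cd {a b c d : Fin 5} (hJ : J U x ⊆ {a, b, c, d}) (hbd : ¬ Acc U x b d)
    (hA : (Sol U a x ∩ Sol U c x).Nonempty) (s : ℝ) :
    ∀ᶠ q in 𝓝 (x + uv s), q ∈ F U b → q ∈ F U d → dist q x = 1 := by
  obtain ⟨v, ⟨hva, hvc⟩, hsv⟩ := exists_sin_ne_467 (isOpen_Sol.inter isOpen_Sol) hA s
  obtain ⟨η, hη, kp, km, hkp, hkm, h1, h2⟩ := h.ray hJ hbd hva hvc
  have hmem : ∀ {k : Fin 5} {q : ℂ}, (k = b ∨ k = d) → q ∈ F U b → q ∈ F U d → q ∈ F U k := by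
    rintro k q (rfl | rfl) hb hd
    · exact hb
    · exact hd
  rcases lt_or_gt_of_ne hsv with hneg | hpos
  · filter_upwards [h.ray_outer hη h1 hneg, h.ray_inner' hη h2 hneg] with q hq1 hq2 hb hd
    exact le_antisymm (hq2 (hmem hkm hb hd)) (hq1 (hmem hkp hb hd))
  · filter_upwards [h.ray_inner hη h1 hpos, h.ray_outer' hη h2 hpos] with q hq1 hq2 hb hd
    exact le_antisymm (hq1 (hmem hkp hb hd)) (hq2 (hmem hkm hb hd))

end Cov
end

end Crest.Agent.R40.T3
end

-- ▼ part R40/T3CaseIII467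
section

/-!
# R40 / T3 : Case III, items (f), (g)
-/

set_option autoImplicit false

open Set Metric Topology Filter

namespace Crest.Agent.R40.T3

/-- `x` has exactly the four colours `a, b, c, d` and the exact pairs accumulating at `x` are the
edges of the 4-cycle `a b c d`. -/
structure C4 (U : Fin 5 → Set ℂ) (x : ℂ) (a b c d : Fin 5) : Prop where
  hab : a ≠ b
  hac : a ≠ c
  had : a ≠ d
  hbc : b ≠ c
  hbd : b ≠ d
  hcd : c ≠ d
  hJ : J U x = {a, b, c, d}
  eab : Acc U x a b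
  ebc : Acc U x b c
  ecd : Acc U x c d
  eda : Acc U x d a
  nac : ¬ Acc U x a c
  nbd : ¬ Acc U x b d

section
variable {U : Fin 5 → Set ℂ} {x : ℂ} {a b c d : Fin 5}

lemma C4.rot (h : C4 U x a b c d) : C4 U x b c d a where
  hab := h.hbc
  hac := h.hbd
  had := h.hab.symm
  hbc := h.hcd
  hbd := h.hac.symm
  hcd := h.had.symm
  hJ := by rw [h.hJ]; ext i; simp only [Finset.mem_insert, Finset.mem_singleton]; tauto
  eab := h.ebc
  ebc := h.ecd
  ecd := h.eda
  eda := h.eab
  nac := h.nbd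
  nbd := fun h' => h.nac h'.symm

lemma C4.card (h : C4 U x a b c d) : (J U x).card = 4 := by
  rw [h.hJ, Finset.card_insert_of_notMem (by simp [h.hab, h.hac, h.had]),
          Finset.card_insert_of_notMem (by simp [h.hbc, h.hbd]),
          Finset.card_insert_of_notMem (by simpa using h.hcd), Finset.card_singleton]

/-- Finite combinatorics of a palette contained in `{a,b,c,d}`. -/
lemma pal_cases {S : Finset (Fin 5)} (hS : S.card ≤ 2) (hne : S.Nonempty) :
    (∃ k, S = {k}) ∨ ∃ k l, k ≠ l ∧ S = {k, l} := by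
  have h1 : 0 < S.card := hne.card_pos
  rcases (show S.card = 1 ∨ S.card = 2 by omega) with h2 | h2
  · exact Or.inl (Finset.card_eq_one.1 h2)
  · obtain ⟨k, l, hkl, hs⟩ := Finset.card_eq_two.1 h2
    exact Or.inr ⟨k, l, hkl, hs⟩

/-- Types of generic angles: either a fifth colour occurs, or the angle is in one of the two solid
two-coloured sets. -/
theorem Cov.types (h : Cov U) (hC : C4 U x a b c d) {t : ℝ} (ht : t ∈ GenC U x)
    (hA : t ∉ Sol U a x ∩ Sol U c x) (hB : t ∉ Sol U b x ∩ Sol U d x) :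
    ∃ e, e ∉ J U x ∧ e ∈ J U (x + uv t) := by
  by_contra hcon
  push Not at hcon
  have hsub : J U (x + uv t) ⊆ J U x := by
    intro e he
    by_contra hn
    exact hcon e hn he
  have hd1 : dist (x + uv t) x = 1 := dist_add_uv x t
  rcases pal_cases (h.genC_card ht) (h.J_nonempty _) with ⟨k, hk⟩ | ⟨k, l, hkl, hkl'⟩
  · refine h.single_not_mem (y := x) (x := x + uv t) (k := k) hk.subset hd1 ?_
    exact hsub (by rw [hk]; simp)
  · have hnacc : ¬ Acc U x k l := h.not_acc (x := x + uv t) (y := x) hkl'.subset hd1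
    have hnacc' : ¬ Acc U x l k := fun h' => hnacc h'.symm
    have hk : k ∈ J U x := hsub (by rw [hkl']; simp)
    have hl : l ∈ J U x := hsub (by rw [hkl']; simp)
    rw [hC.hJ] at hk hl
    have hmem : ∀ i, i ∈ ({k, l} : Finset (Fin 5)) → t ∈ Sol U i x := by
      intro i hi
      rw [mem_Sol_iff ht, hkl']
      exact hi
    have hk1 := hmem k (by simp)
    have hl1 := hmem l (by simp)
    simp only [Finset.mem_insert, Finset.mem_singleton] at hk hl
    rcases hk with rfl | rfl | rfl | rfl <;> rcases hl with rfl | rfl | rfl | rfl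
    · exact hkl rfl
    · exact hnacc hC.eab
    · exact hA ⟨hk1, hl1⟩
    · exact hnacc' hC.eda
    · exact hnacc' hC.eab
    · exact hkl rfl
    · exact hnacc hC.ebc
    · exact hB ⟨hk1, hl1⟩
    · exact hA ⟨hl1, hk1⟩
    · exact hnacc' hC.ebc
    · exact hkl rfl
    · exact hnacc hC.ecd
    · exact hnacc hC.eda
    · exact hB ⟨hl1, hk1⟩
    · exact hnacc' hC.ecd
    · exact hkl rfl

/-- A preconnected set without frontier points of an open set `A` is contained in `A` or
disjoint from `A`. -/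
lemma subset_or_of_frontier {A I : Set ℝ} (hA : IsOpen A) (hI : IsPreconnected I)
    (hf : ∀ t ∈ I, t ∉ frontier A) : I ⊆ A ∨ ∀ t ∈ I, t ∉ A := by
  have hcov : I ⊆ A ∪ (closure A)ᶜ := by
    intro t ht
    by_cases h1 : t ∈ closure A
    · left
      by_contra h2
      apply hf t ht
      rw [hA.frontier_eq]
      exact ⟨h1, h2⟩
    · exact Or.inr h1
  have hdis : I ∩ (A ∩ (closure A)ᶜ) = ∅ := by
    ext t
    simp only [mem_inter_iff, mem_compl_iff, mem_empty_iff_false, iff_false]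
    rintro ⟨_, h1, h2⟩
    exact h2 (subset_closure h1)
  rcases isPreconnected_iff_subset_of_disjoint.1 hI _ _ hA isClosed_closure.isOpen_compl hcov hdis
    with h1 | h1
  · exact Or.inl h1
  · exact Or.inr fun t ht h2 => h1 ht (subset_closure h2)

/-- (III-g), first half: every open interval of length greater than `π/3` contains a frontier
angle. -/
theorem Cov.exists_frontier (h : Cov U) (hC : C4 U x a b c d) {l r : ℝ}
    (hlr : l + Real.pi / 3 < r) :
    ∃ t ∈ Ioo l r, t ∈ frontier (Sol U a x ∩ Sol U c x) ∨ t ∈ frontier (Sol U b x ∩ Sol U d x) := by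
  by_contra hcon
  push Not at hcon
  have hpi := Real.pi_pos
  -- a nonempty open set of `t` with `t`, `t + π/3` in the interval
  have hOne : (Ioo l (r - Real.pi / 3)).Nonempty := nonempty_Ioo.2 (by linarith)
  obtain ⟨t, ht, htg⟩ := (dense_GenW (U := U) (x := x)).inter_open_nonempty _ isOpen_Ioo hOne
  have ht1 : t ∈ Ioo l r := ⟨ht.1, by linarith [ht.2]⟩
  have ht2 : t + Real.pi / 3 ∈ Ioo l r := ⟨by linarith [ht.1], by linarith [ht.2]⟩
  rcases subset_or_of_frontier (isOpen_Sol.inter isOpen_Sol) isPreconnected_Ioo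
    (fun t ht => (hcon t ht).1) with hA | hA
  · exact (h.P3 (hA ht1).1).1 (sol_mem (hA ht2).1)
  rcases subset_or_of_frontier (isOpen_Sol.inter isOpen_Sol) isPreconnected_Ioo
    (fun t ht => (hcon t ht).2) with hB | hB
  · exact (h.P3 (hB ht1).1).1 (sol_mem (hB ht2).1)
  have hg1 : t ∈ GenC U x := genW_subset_genC htg
  have hg2 : t + Real.pi / 3 ∈ GenC U x := by simpa using htg 1
  obtain ⟨e, he, he1⟩ := h.types hC hg1 (hA t ht1) (hB t ht1)
  obtain ⟨e', he', he1'⟩ := h.types hC hg2 (hA _ ht2) (hB _ ht2)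
  have hee : e = e' := by
    by_contra hne
    have h5 : ({e, e'} : Finset (Fin 5)) ⊆ (J U x)ᶜ := by
      intro i hi
      simp only [Finset.mem_insert, Finset.mem_singleton] at hi
      rcases hi with rfl | rfl
      · simpa using he
      · simpa using he'
    have h6 := Finset.card_le_card h5
    rw [Finset.card_compl, hC.card, Finset.card_pair hne] at h6
    simp at h6
  subst hee
  exact (h.P3 ((mem_Sol_iff hg1).2 he1)).1 (mem_J.1 he1')

/-- (III-f): a frontier angle `s` of the `bd`-solid set gives a pair `k ∈ {b,d}`, `l ∈ {a,c}` such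
that near `x` all points having both colours lie on the unit circle about `x + uv s`. -/
theorem Cov.III_f (h : Cov U)
    (hb : ∀ x a b c d, C4 U x a b c d → (Sol U a x ∩ Sol U c x).Nonempty)
    (he : ∀ x a b c d, C4 U x a b c d → ∀ s ∈ frontier (Sol U b x ∩ Sol U d x),
      ∃ p q, C4 U (x + uv s) b d p q)
    (hC : C4 U x a b c d) {s : ℝ} (hs : s ∈ frontier (Sol U b x ∩ Sol U d x)) :
    ∃ k l, (k = b ∨ k = d) ∧ (l = a ∨ l = c) ∧
      ∀ᶠ z in 𝓝 x, z ∈ F U k → z ∈ F U l → dist z (x + uv s) = 1 := by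
  obtain ⟨p, q, hy⟩ := he x a b c d hC s hs
  have hxy : x + uv s + uv (s + Real.pi) = x := by rw [uv_add_pi]; ring
  -- the two non-edges `b p` and `d q` at `y`
  have h1 : ∀ᶠ z in 𝓝 x, z ∈ F U b → z ∈ F U p → dist z (x + uv s) = 1 := by
    have := h.III_cd (a := d) (b := b) (c := q) (d := p) (x := x + uv s)
      (by rw [hy.hJ]; intro i hi; simp only [Finset.mem_insert, Finset.mem_singleton] at hi ⊢; tauto)
      hy.nac (hb _ _ _ _ _ hy.rot) (s + Real.pi)
    rwa [hxy] at this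
  have h2 : ∀ᶠ z in 𝓝 x, z ∈ F U d → z ∈ F U q → dist z (x + uv s) = 1 := by
    have := h.III_cd (a := b) (b := d) (c := p) (d := q) (x := x + uv s)
      (by rw [hy.hJ]) hy.nbd (hb _ _ _ _ _ hy) (s + Real.pi)
    rwa [hxy] at this
  -- one of `p, q` is in `{a, c}`
  have hp : p ≠ b ∧ p ≠ d := ⟨hy.hac.symm, hy.hbc.symm⟩
  have hq : q ≠ b ∧ q ≠ d := ⟨hy.had.symm, hy.hbd.symm⟩
  have hfin : (p = a ∨ p = c) ∨ (q = a ∨ q = c) := by
    by_contra hn
    push Not at hn
    obtain ⟨⟨hpa, hpc⟩, hqa, hqc⟩ := hn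
    have h5 : ({p, q} : Finset (Fin 5)) ⊆ (J U x)ᶜ := by
      intro i hi
      simp only [Finset.mem_insert, Finset.mem_singleton] at hi
      rw [Finset.mem_compl, hC.hJ]
      simp only [Finset.mem_insert, Finset.mem_singleton]
      rcases hi with rfl | rfl
      · tauto
      · tauto
    have h6 := Finset.card_le_card h5
    rw [Finset.card_compl, hC.card, Finset.card_pair hy.hcd] at h6
    simp at h6
  rcases hfin with h3 | h3
  · exact ⟨b, p, Or.inl rfl, h3, h1⟩
  · exact ⟨d, q, Or.inr rfl, h3, h2⟩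

lemma uv_injOn {s t : ℝ} (h0 : 0 < s) (h1 : s < 2 * Real.pi) (h2 : 0 < t) (h3 : t < 2 * Real.pi)
    (hst : uv s = uv t) : s = t := by
  have hc : Real.cos s = Real.cos t := by rw [← uv_re, ← uv_re, hst]
  have hs : Real.sin s = Real.sin t := by rw [← uv_im, ← uv_im, hst]
  have h4 : Real.cos (s - t) = 1 := by
    rw [Real.cos_sub, hc, hs]
    have := Real.sin_sq_add_cos_sq t
    linarith
  have h5 := (Real.cos_eq_one_iff_of_lt_of_lt (by linarith) (by linarith)).1 h4
  linarith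

/-- (III-g) Case III from (III-b) and (III-e). -/
theorem Cov.caseIII_of (h : Cov U)
    (hb : ∀ x a b c d, C4 U x a b c d → (Sol U a x ∩ Sol U c x).Nonempty)
    (he : ∀ x a b c d, C4 U x a b c d → ∀ s ∈ frontier (Sol U b x ∩ Sol U d x),
      ∃ p q, C4 U (x + uv s) b d p q)
    (x : ℂ) (a b c d : Fin 5) (hC : C4 U x a b c d) : False := by
  have hpi := Real.pi_pos
  -- five disjoint arcs
  have h1 : ∀ j : Fin 5, ∃ s ∈ Ioo (2 * Real.pi * (j : ℝ) / 5) (2 * Real.pi * ((j : ℝ) + 1) / 5),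
      ∃ kl : Fin 5 × Fin 5, kl ∈ ({(b, a), (b, c), (d, a), (d, c)} : Finset (Fin 5 × Fin 5)) ∧
        ∀ᶠ z in 𝓝 x, z ∈ F U kl.1 → z ∈ F U kl.2 → dist z (x + uv s) = 1 := by
    intro j
    obtain ⟨s, hs, hs'⟩ := h.exists_frontier hC (l := 2 * Real.pi * (j : ℝ) / 5)
      (r := 2 * Real.pi * ((j : ℝ) + 1) / 5) (by linarith)
    refine ⟨s, hs, ?_⟩
    rcases hs' with hs' | hs'
    · have hC' := hC.rot
      rw [inter_comm] at hs'
      obtain ⟨k, l, hk, hl, hz⟩ := h.III_f hb he hC' hs'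
      refine ⟨(l, k), ?_, by filter_upwards [hz] with z hz h1 h2 using hz h2 h1⟩
      simp only [Finset.mem_insert, Finset.mem_singleton, Prod.mk.injEq]
      tauto
    · obtain ⟨k, l, hk, hl, hz⟩ := h.III_f hb he hC hs'
      refine ⟨(k, l), ?_, hz⟩
      simp only [Finset.mem_insert, Finset.mem_singleton, Prod.mk.injEq]
      tauto
  choose s hs kl hkl hz using h1
  -- pigeonhole
  obtain ⟨i, _, j, _, hij, hklij⟩ := Finset.exists_ne_map_eq_of_card_lt_of_maps_to
    (s := (Finset.univ : Finset (Fin 5)))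
    (t := ({(b, a), (b, c), (d, a), (d, c)} : Finset (Fin 5 × Fin 5))) (f := kl)
    (lt_of_le_of_lt Finset.card_le_four (by simp)) (fun i _ => hkl i)
  have hI : ∀ i : Fin 5, 0 < s i ∧ s i < 2 * Real.pi := by
    intro i
    have h2 : (0:ℝ) ≤ (i : ℝ) := by positivity
    have h3 : (i : ℝ) + 1 ≤ 5 := by
      have := i.2
      exact_mod_cast this
    constructor
    · refine lt_of_le_of_lt ?_ (hs i).1
      positivity
    · refine lt_of_lt_of_le (hs i).2 ?_
      rw [div_le_iff₀ (by norm_num)]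
      nlinarith
  have hne : x + uv (s i) ≠ x + uv (s j) := by
    intro heq
    have h2 := uv_injOn (hI i).1 (hI i).2 (hI j).1 (hI j).2 (add_left_cancel heq)
    have key : ∀ i j : Fin 5, i < j → s i < s j := by
      intro i j hlt
      refine lt_of_lt_of_le (hs i).2 (le_trans ?_ (hs j).1.le)
      have : (i : ℝ) + 1 ≤ (j : ℝ) := by
        have : (i : ℕ) + 1 ≤ (j : ℕ) := hlt
        exact_mod_cast this
      gcongr
    rcases lt_or_gt_of_ne hij with h3 | h3
    · exact (key _ _ h3).ne h2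
    · exact (key _ _ h3).ne' h2
  have hacc : Acc U x (kl i).1 (kl i).2 := by
    have := hkl i
    simp only [Finset.mem_insert, Finset.mem_singleton] at this
    rcases this with h3 | h3 | h3 | h3 <;> rw [h3]
    · exact hC.eab.symm
    · exact hC.ebc
    · exact hC.eda
    · exact hC.ecd.symm
  have hcirc := T3Geo.two_circles hne (x := x) (by rw [dist_comm]; exact dist_add_uv x _)
    (by rw [dist_comm]; exact dist_add_uv x _)
  have hzj := hz j
  rw [← hklij] at hzj
  rw [eventually_nhdsWithin_iff] at hcirc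
  obtain ⟨z, hz1, hz2, hz3, hz4⟩ :=
    (hacc.and_eventually (hcirc.and ((hz i).and hzj))).exists
  have hzx : z ≠ x := by
    rintro rfl
    have h3 := hC.card
    rw [hz1] at h3
    have h4 := Finset.card_le_two (a := (kl i).1) (b := (kl i).2)
    omega
  have m1 : z ∈ F U (kl i).1 := mem_J.1 (by rw [hz1]; simp)
  have m2 : z ∈ F U (kl i).2 := mem_J.1 (by rw [hz1]; simp)
  exact hz2 hzx ⟨hz3 m1 m2, hz4 m1 m2⟩

end

end Crest.Agent.R40.T3
end

-- ▼ part R40/T3C4e
section

/-!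
# R40 / T3 : Case III (e)
-/

set_option autoImplicit false

open Set Metric Topology Filter

namespace Crest.Agent.R40.T3

/-- Connectedness of the outer side of the unit circle about `x` near a point of the circle. -/
lemma isPreconnected_ball_out {x y : ℂ} (hxy : dist y x = 1) (r : ℝ) :
    IsPreconnected (ball y r ∩ {z | 1 < dist z x}) := by
  rcases le_or_gt r 0 with hr | hr
  · rw [ball_eq_empty.2 hr, empty_inter]; exact isPreconnected_empty
  set u : ℂ := y - x with hu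
  have hu1 : ‖u‖ = 1 := by rw [hu, ← dist_eq_norm, hxy]
  have hu0 : u ≠ 0 := by rw [← norm_pos_iff, hu1]; exact one_pos
  have hyx : y = x + u := by rw [hu]; ring
  -- squared distance
  have hsq : ∀ ρ t : ℝ, dist (x + ρ * Complex.exp (t * Complex.I) * u) y ^ 2
      = ρ ^ 2 + 1 - 2 * ρ * Real.cos t := by
    intro ρ t
    rw [dist_eq_norm, hyx]
    have h1 : x + ρ * Complex.exp (t * Complex.I) * u - (x + u)
        = (ρ * Complex.exp (t * Complex.I) - 1) * u := by ring
    rw [h1, norm_mul, hu1, mul_one, Complex.sq_norm, Complex.exp_mul_I, Complex.normSq_apply]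
    simp only [← Complex.ofReal_cos, ← Complex.ofReal_sin, Complex.sub_re, Complex.sub_im,
      Complex.mul_re, Complex.mul_im, Complex.add_re, Complex.add_im, Complex.ofReal_re,
      Complex.ofReal_im, Complex.I_re, Complex.I_im, Complex.one_re, Complex.one_im]
    have := Real.sin_sq_add_cos_sq t
    linear_combination (ρ ^ 2) * this
  have hdx : ∀ ρ t : ℝ, 0 ≤ ρ → dist (x + ρ * Complex.exp (t * Complex.I) * u) x = ρ := by
    intro ρ t hρ
    rw [dist_eq_norm, add_sub_cancel_left, norm_mul, norm_mul, hu1,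
      Complex.norm_exp_ofReal_mul_I, mul_one, mul_one, Complex.norm_real, Real.norm_eq_abs,
      abs_of_nonneg hρ]
  have hray : (fun ρ : ℝ => x + ρ * Complex.exp ((0 : ℝ) * Complex.I) * u) '' Ioo 1 (1 + r)
      ⊆ ball y r ∩ {z | 1 < dist z x} := by
    rintro _ ⟨ρ, hρ, rfl⟩
    refine ⟨?_, ?_⟩
    · rw [mem_ball]
      have h1 := hsq ρ 0
      rw [Real.cos_zero] at h1
      have h2 : dist (x + ρ * Complex.exp ((0 : ℝ) * Complex.I) * u) y ^ 2 < r ^ 2 := by
        rw [h1]; nlinarith [hρ.1, hρ.2]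
      exact lt_of_pow_lt_pow_left₀ 2 hr.le h2
    · have := hdx ρ 0 (by linarith [hρ.1])
      show 1 < dist _ _
      rw [this]; exact hρ.1
  have hmid : (1 + r / 2) ∈ Ioo 1 (1 + r) := ⟨by linarith, by linarith⟩
  refine isPreconnected_of_forall
    ((fun ρ : ℝ => x + ρ * Complex.exp ((0 : ℝ) * Complex.I) * u) (1 + r / 2)) ?_
  rintro z ⟨hz1, hz2⟩
  set ρ : ℝ := ‖(z - x) / u‖ with hρ
  set φ : ℝ := Complex.arg ((z - x) / u) with hφ
  have hz : z = x + ρ * Complex.exp (φ * Complex.I) * u := by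
    rw [hρ, hφ, Complex.norm_mul_exp_arg_mul_I]
    field_simp
    ring
  have hρ1 : 1 < ρ := by
    rw [hρ, norm_div, hu1, div_one, ← dist_eq_norm]; exact hz2
  have hρr : ρ < 1 + r := by
    have h1 : dist z x ≤ dist z y + dist y x := dist_triangle _ _ _
    rw [hxy] at h1
    have h2 : ρ = dist z x := by rw [hρ, norm_div, hu1, div_one, ← dist_eq_norm]
    rw [h2]
    have := mem_ball.1 hz1
    linarith
  have hρ0 : 0 < ρ := by linarith
  refine ⟨((fun t : ℝ => x + ρ * Complex.exp (t * Complex.I) * u) '' uIcc 0 φ) ∪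
    ((fun ρ : ℝ => x + ρ * Complex.exp ((0 : ℝ) * Complex.I) * u) '' Ioo 1 (1 + r)), ?_, ?_, ?_, ?_⟩
  · apply union_subset _ hray
    rintro _ ⟨t, ht, rfl⟩
    refine ⟨?_, ?_⟩
    · rw [mem_ball]
      have h1 := hsq ρ t
      have h2 := hsq ρ φ
      rw [← hz] at h2
      have h3 : Real.cos φ ≤ Real.cos t := by
        rw [← Real.cos_abs φ, ← Real.cos_abs t]
        apply Real.cos_le_cos_of_nonneg_of_le_pi (abs_nonneg _) (Complex.abs_arg_le_pi _)
        rcases le_total 0 φ with h0 | h0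
        · rw [uIcc_of_le h0] at ht
          rw [abs_of_nonneg ht.1, abs_of_nonneg h0]; exact ht.2
        · rw [uIcc_of_ge h0] at ht
          rw [abs_of_nonpos ht.2, abs_of_nonpos h0]; linarith [ht.1]
      have h4 : dist z y < r := mem_ball.1 hz1
      have h5 : dist (x + ρ * Complex.exp (t * Complex.I) * u) y ^ 2 < r ^ 2 := by
        have h6 : dist z y ^ 2 < r ^ 2 := by
          apply pow_lt_pow_left₀ h4 dist_nonneg (by norm_num)
        nlinarith
      exact lt_of_pow_lt_pow_left₀ 2 hr.le h5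
    · have := hdx ρ t hρ0.le
      show 1 < dist _ _
      rw [this]; exact hρ1
  · exact Or.inr ⟨_, hmid, rfl⟩
  · exact Or.inl ⟨φ, right_mem_uIcc, hz.symm⟩
  · refine IsPreconnected.union (x + ρ * Complex.exp ((0 : ℝ) * Complex.I) * u)
      ⟨0, left_mem_uIcc, rfl⟩ ⟨ρ, ⟨hρ1, hρr⟩, rfl⟩ ?_ ?_
    · exact isPreconnected_uIcc.image _ (by fun_prop)
    · exact isPreconnected_Ioo.image _ (by fun_prop)

lemma isPreconnected_ball_in (x y : ℂ) (r : ℝ) :
    IsPreconnected (ball y r ∩ {z | dist z x < 1}) := by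
  have : ball y r ∩ {z | dist z x < 1} = ball y r ∩ ball x 1 := rfl
  rw [this]
  exact ((convex_ball y r).inter (convex_ball x 1)).isPreconnected


section
variable {U : Fin 5 → Set ℂ}

/-- the radial path through `z` -/
lemma tendsto_radial (x z : ℂ) : Tendsto (fun t : ℝ => x + (t : ℂ) * (z - x)) (𝓝 1) (𝓝 z) := by
  have hc : Continuous (fun t : ℝ => x + (t : ℂ) * (z - x)) := by fun_prop
  have := hc.tendsto 1
  simpa using this

lemma dist_radial {x z : ℂ} (hz : dist z x = 1) {t : ℝ} (ht : 0 ≤ t) :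
    dist (x + (t : ℂ) * (z - x)) x = t := by
  rw [dist_eq_norm, add_sub_cancel_left, norm_mul, ← dist_eq_norm z x, hz, mul_one,
    Complex.norm_real, Real.norm_eq_abs, abs_of_nonneg ht]

/-- a nonempty open set contains a point off the unit circle about `x` -/
lemma exists_off {O : Set ℂ} (hO : IsOpen O) (hO' : O.Nonempty) (x : ℂ) :
    ∃ z ∈ O, dist z x ≠ 1 := by
  obtain ⟨z, hz⟩ := hO'
  by_cases hzx : dist z x = 1
  · have h1 : ∀ᶠ t : ℝ in 𝓝[<] 1, x + (t : ℂ) * (z - x) ∈ O :=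
      nhdsWithin_le_nhds ((tendsto_radial x z).eventually (hO.mem_nhds hz))
    have h2 : ∀ᶠ t : ℝ in 𝓝[<] 1, t < 1 := self_mem_nhdsWithin
    have h3 : ∀ᶠ t : ℝ in 𝓝[<] 1, 0 < t := nhdsWithin_le_nhds (eventually_gt_nhds one_pos)
    obtain ⟨t, h1, h2, h3⟩ := (h1.and (h2.and h3)).exists
    exact ⟨_, h1, by rw [dist_radial hzx h3.le]; exact h2.ne⟩
  · exact ⟨z, hz, hzx⟩

/-- points of the circle are limits of inner points -/
lemma mem_closure_in {x y z : ℂ} {r : ℝ} (hz : z ∈ ball y r) (hzx : dist z x = 1) {H : Set ℂ}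
    (hH : IsClosed H) (hsub : ball y r ∩ {z | dist z x < 1} ⊆ H) : z ∈ H := by
  rw [← hH.closure_eq, mem_closure_iff_frequently]
  have h1 : ∀ᶠ t : ℝ in 𝓝[<] 1, x + (t : ℂ) * (z - x) ∈ ball y r :=
    nhdsWithin_le_nhds ((tendsto_radial x z).eventually (isOpen_ball.mem_nhds hz))
  have h2 : ∀ᶠ t : ℝ in 𝓝[<] 1, t < 1 := self_mem_nhdsWithin
  have h3 : ∀ᶠ t : ℝ in 𝓝[<] 1, 0 < t := nhdsWithin_le_nhds (eventually_gt_nhds one_pos)
  have h4 : ∀ᶠ t : ℝ in 𝓝[<] 1, x + (t : ℂ) * (z - x) ∈ H := by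
    filter_upwards [h1, h2, h3] with t h1 h2 h3
    exact hsub ⟨h1, by rw [mem_ofPred_eq, dist_radial hzx h3.le]; exact h2⟩
  exact ((tendsto_radial x z).mono_left nhdsWithin_le_nhds).frequently h4.frequently

/-- points of the circle are limits of outer points -/
lemma mem_closure_out {x y z : ℂ} {r : ℝ} (hz : z ∈ ball y r) (hzx : dist z x = 1) {H : Set ℂ}
    (hH : IsClosed H) (hsub : ball y r ∩ {z | 1 < dist z x} ⊆ H) : z ∈ H := by
  rw [← hH.closure_eq, mem_closure_iff_frequently]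
  have h1 : ∀ᶠ t : ℝ in 𝓝[>] 1, x + (t : ℂ) * (z - x) ∈ ball y r :=
    nhdsWithin_le_nhds ((tendsto_radial x z).eventually (isOpen_ball.mem_nhds hz))
  have h2 : ∀ᶠ t : ℝ in 𝓝[>] 1, 1 < t := self_mem_nhdsWithin
  have h4 : ∀ᶠ t : ℝ in 𝓝[>] 1, x + (t : ℂ) * (z - x) ∈ H := by
    filter_upwards [h1, h2] with t h1 h2
    exact hsub ⟨h1, by rw [mem_ofPred_eq, dist_radial hzx (by linarith)]; exact h2⟩
  exact ((tendsto_radial x z).mono_left nhdsWithin_le_nhds).frequently h4.frequently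

lemma rot_one (x : ℂ) (t : ℝ) : rot x 1 t = x + Complex.exp (t * Complex.I) := by
  rw [rot, mul_one]

/-- `x + uv t` is within unit distance of `x`. -/
lemma dist_add_exp (x : ℂ) (t : ℝ) : dist (x + Complex.exp (t * Complex.I)) x = 1 := by
  rw [dist_eq_norm, add_sub_cancel_left, Complex.norm_exp_ofReal_mul_I]

namespace Cov
variable (h : Cov U)
include h

/-- (III-e), core: at a boundary direction of `B = Sol b ∩ Sol d` the exact pairs `bd` accumulate
and `bd` is not a bridge of the graph `E(y)`. -/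
theorem III_e_core {x : ℂ} {b d : Fin 5} (hbd : b ≠ d) {s : ℝ}
    (hs : s ∈ closure (interior {t : ℝ | x + Complex.exp (t * Complex.I) ∈ F U b} ∩
      interior {t : ℝ | x + Complex.exp (t * Complex.I) ∈ F U d}))
    (hs' : s ∉ interior {t : ℝ | x + Complex.exp (t * Complex.I) ∈ F U b} ∩
      interior {t : ℝ | x + Complex.exp (t * Complex.I) ∈ F U d})
    (hN : ∀ᶠ q in 𝓝 (x + Complex.exp (s * Complex.I)), J U q = {b, d} → dist q x = 1) :
    Acc U (x + Complex.exp (s * Complex.I)) b d ∧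
    ∀ P : Finset (Fin 5), b ∈ P → d ∉ P → ∃ i ∈ P, ∃ j ∉ P, ¬ (i = b ∧ j = d) ∧
      Acc U (x + Complex.exp (s * Complex.I)) i j := by
  classical
  set y : ℂ := x + Complex.exp (s * Complex.I) with hy
  have hyx : dist y x = 1 := dist_add_exp x s
  have hcont : Continuous (fun t : ℝ => x + Complex.exp (t * Complex.I)) := by fun_prop
  -- generic points of `B` near `s`
  have hgenB : ∀ O : Set ℂ, IsOpen O → y ∈ O → ∃ t : ℝ, x + Complex.exp (t * Complex.I) ∈ O ∧
      J U (x + Complex.exp (t * Complex.I)) = {b, d} := by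
    intro O hO hyO
    have h1 : IsOpen ((fun t : ℝ => x + Complex.exp (t * Complex.I)) ⁻¹' O) := hO.preimage hcont
    obtain ⟨t, ht1, ht2⟩ := mem_closure_iff.1 hs _ h1 hyO
    obtain ⟨t', ht', hg⟩ := exists_gen (U := U) {(x, 1)}
      ((h1.inter (isOpen_interior.inter isOpen_interior))) ⟨t, ht1, ht2⟩
    have hg := hg (x, 1) (by simp)
    simp only at hg
    refine ⟨t', ht'.1, ?_⟩
    have hb : b ∈ J U (rot x 1 t') := by
      rw [mem_J, rot_one]
      exact interior_subset (s := {t : ℝ | x + Complex.exp (t * Complex.I) ∈ F U b}) ht'.2.1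
    have hd : d ∈ J U (rot x 1 t') := by
      rw [mem_J, rot_one]
      exact interior_subset (s := {t : ℝ | x + Complex.exp (t * Complex.I) ∈ F U d}) ht'.2.2
    have hcard := h.card_le_two one_ne_zero hg
    rw [← rot_one]
    refine (Finset.eq_of_subset_of_card_le ?_ ?_).symm
    · intro i hi
      simp only [Finset.mem_insert, Finset.mem_singleton] at hi
      rcases hi with rfl | rfl <;> assumption
    · rw [Finset.card_pair hbd]; exact hcard
  refine ⟨?_, ?_⟩
  · intro hev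
    obtain ⟨O, hOs, hO, hyO⟩ := _root_.mem_nhds_iff.1 hev
    obtain ⟨t, ht, ht'⟩ := hgenB O hO hyO
    exact hOs ht ht'
  intro P hbP hdP
  by_contra hcon
  push Not at hcon
  -- a good ball
  have hgood : ∀ᶠ z in 𝓝 y, (J U z = {b, d} → dist z x = 1) ∧
      (∀ i j : Fin 5, i ≠ j → J U z = {i, j} → (EG U y).Adj i j) := hN.and (eventually_adj y)
  obtain ⟨r, hr, hball⟩ := Metric.eventually_nhds_iff_ball.1 hgood
  set H : Set ℂ := ⋃ i ∈ P, F U i with hH
  set H' : Set ℂ := ⋃ i ∈ Pᶜ, F U i with hH'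
  have hHc : IsClosed H := P.finite_toSet.isClosed_biUnion fun i _ => isClosed_F i
  have hH'c : IsClosed H' := (Pᶜ).finite_toSet.isClosed_biUnion fun i _ => isClosed_F i
  have hcov : ∀ z, z ∈ H ∪ H' := by
    intro z
    obtain ⟨i, hi⟩ := h.cover z
    by_cases hiP : i ∈ P
    · exact Or.inl (mem_iUnion₂.2 ⟨i, hiP, hi⟩)
    · exact Or.inr (mem_iUnion₂.2 ⟨i, Finset.mem_compl.2 hiP, hi⟩)
  -- pairs across the partition
  have hpair : ∀ z ∈ ball y r, z ∈ H → z ∈ H' → (J U z).card ≤ 2 → J U z = {b, d} := by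
    intro z hz hzH hzH' hcard
    obtain ⟨i, hiP, hi⟩ := mem_iUnion₂.1 hzH
    obtain ⟨j, hjP, hj⟩ := mem_iUnion₂.1 hzH'
    rw [Finset.mem_compl] at hjP
    have hij : i ≠ j := fun hij => hjP (hij ▸ hiP)
    have hJ : J U z = {i, j} := by
      refine (Finset.eq_of_subset_of_card_le ?_ ?_).symm
      · intro k hk
        simp only [Finset.mem_insert, Finset.mem_singleton] at hk
        rcases hk with rfl | rfl
        · exact mem_J.2 hi
        · exact mem_J.2 hj
      · rw [Finset.card_pair hij]; exact hcard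
    have hadj := (hball z hz).2 i j hij hJ
    by_cases hbdij : i = b ∧ j = d
    · rw [hJ, hbdij.1, hbdij.2]
    · exact absurd hadj.2 (hcon i hiP j hjP (fun h1 h2 => hbdij ⟨h1, h2⟩))
  -- off the circle the intersection is contained in `Th`
  have hTh : ∀ N : Set ℂ, N ⊆ ball y r → (∀ z ∈ N, dist z x ≠ 1) →
      IsTotallyDisconnected (H ∩ H' ∩ N) := by
    intro N hN1 hN2
    refine fun t ht htp => h.isTotallyDisconnected_Th t (ht.trans ?_) htp
    rintro z ⟨⟨hz1, hz2⟩, hz3⟩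
    by_contra hz4
    have hcard : (J U z).card ≤ 2 := by
      simp only [Th, mem_ofPred_eq, not_le] at hz4
      omega
    exact hN2 z hz3 ((hball z (hN1 hz3)).1 (hpair z (hN1 hz3) hz1 hz2 hcard))
  have hoin : IsOpen (ball y r ∩ {z | dist z x < 1}) :=
    isOpen_ball.inter (isOpen_lt (by fun_prop) continuous_const)
  have hoout : IsOpen (ball y r ∩ {z | 1 < dist z x}) :=
    isOpen_ball.inter (isOpen_lt continuous_const (by fun_prop))
  have hin := Topo.td_cover hoin (isPreconnected_ball_in x y r) hHc hH'c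
    (fun z _ => hcov z) (hTh _ inter_subset_left (fun z hz => ne_of_lt hz.2))
  have hout := Topo.td_cover hoout (isPreconnected_ball_out hyx r) hHc hH'c
    (fun z _ => hcov z) (hTh _ inter_subset_left (fun z hz => ne_of_gt hz.2))
  -- the two colours really occur on the two sides
  obtain ⟨t₀, ht₀, hJ₀⟩ := hgenB (ball y r) isOpen_ball (mem_ball_self hr)
  have hoff : ∀ e ∈ ({b, d} : Finset (Fin 5)), ∃ z ∈ ball y r, dist z x ≠ 1 ∧ J U z = {e} := by
    intro e he
    have h1 : x + Complex.exp (t₀ * Complex.I) ∈ F U e := by rw [← mem_J, hJ₀]; exact he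
    have h2 : ∀ᶠ z in 𝓝 (x + Complex.exp (t₀ * Complex.I)), z ∈ ball y r ∧ J U z ⊆ {b, d} := by
      have := J_usc (U := U) (x + Complex.exp (t₀ * Complex.I))
      rw [hJ₀] at this
      have h0 : ∀ᶠ z in 𝓝 (x + Complex.exp (t₀ * Complex.I)), z ∈ ball y r :=
        isOpen_ball.mem_nhds ht₀
      exact h0.and this
    obtain ⟨O, hOs, hO, hO'⟩ := _root_.mem_nhds_iff.1 h2
    have h3 : (O ∩ U e).Nonempty := mem_closure_iff.1 h1 O hO hO'
    obtain ⟨z, ⟨hzO, hze⟩, hzx⟩ := exists_off (hO.inter (h.isOpen e)) h3 x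
    obtain ⟨hz1, hz2⟩ := hOs hzO
    refine ⟨z, hz1, hzx, ?_⟩
    have hze' : e ∈ J U z := mem_J.2 (subset_F e hze)
    have hne : J U z ≠ {b, d} := fun h' => hzx ((hball z hz1).1 h')
    have hlt : (J U z).card < 2 := by
      have := Finset.card_lt_card (Finset.ssubset_iff_subset_ne.2 ⟨hz2, hne⟩)
      rwa [Finset.card_pair hbd] at this
    have hc1 : (J U z).card = 1 := by
      have := Finset.card_pos.2 ⟨e, hze'⟩
      omega
    obtain ⟨e', he'⟩ := Finset.card_eq_one.1 hc1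
    rw [he', Finset.mem_singleton] at hze'
    rw [he', hze']
  have hside : ∀ K : Set ℂ, ball y r ∩ {z | dist z x < 1} ⊆ K →
      ball y r ∩ {z | 1 < dist z x} ⊆ K → ∀ z ∈ ball y r, dist z x ≠ 1 → z ∈ K := by
    intro K h1 h2 z hz hzx
    rcases lt_or_gt_of_ne hzx with h3 | h3
    · exact h1 ⟨hz, h3⟩
    · exact h2 ⟨hz, h3⟩
  -- the circle is contained in both
  have hboth : ∀ z ∈ ball y r, dist z x = 1 → z ∈ H ∧ z ∈ H' := by
    rcases hin with hin | hin <;> rcases hout with hout | hout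
    · exfalso
      obtain ⟨z, hz1, hz2, hz3⟩ := hoff d (by simp)
      obtain ⟨i, hiP, hi⟩ := mem_iUnion₂.1 (hside H hin hout z hz1 hz2)
      have : i ∈ J U z := mem_J.2 hi
      rw [hz3, Finset.mem_singleton] at this
      exact hdP (this ▸ hiP)
    · intro z hz hzx
      exact ⟨mem_closure_in hz hzx hHc hin, mem_closure_out hz hzx hH'c hout⟩
    · intro z hz hzx
      exact ⟨mem_closure_out hz hzx hHc hout, mem_closure_in hz hzx hH'c hin⟩
    · exfalso
      obtain ⟨z, hz1, hz2, hz3⟩ := hoff b (by simp)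
      obtain ⟨i, hiP, hi⟩ := mem_iUnion₂.1 (hside H' hin hout z hz1 hz2)
      have : i ∈ J U z := mem_J.2 hi
      rw [hz3, Finset.mem_singleton] at this
      rw [this, Finset.mem_compl] at hiP
      exact hiP hbP
  -- so all directions near `s` are in `F b ∩ F d`
  have hopen : IsOpen ((fun t : ℝ => x + Complex.exp (t * Complex.I)) ⁻¹' ball y r) :=
    isOpen_ball.preimage hcont
  have hs0 : s ∈ (fun t : ℝ => x + Complex.exp (t * Complex.I)) ⁻¹' ball y r :=
    mem_ball_self hr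
  have hclose : ∀ e ∈ ({b, d} : Finset (Fin 5)),
      (fun t : ℝ => x + Complex.exp (t * Complex.I)) ⁻¹' ball y r ⊆
        {t : ℝ | x + Complex.exp (t * Complex.I) ∈ F U e} := by
    intro e he t ht
    have hcl : IsClosed {t : ℝ | x + Complex.exp (t * Complex.I) ∈ F U e} :=
      (isClosed_F e).preimage hcont
    rw [← hcl.closure_eq, _root_.mem_closure_iff]
    intro O hO htO
    obtain ⟨t', ht', hg⟩ := exists_gen (U := U) {(x, 1)} (hO.inter hopen) ⟨t, htO, ht⟩
    have hg := hg (x, 1) (by simp)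
    simp only at hg
    have hcard := h.card_le_two one_ne_zero hg
    rw [rot_one] at hcard
    obtain ⟨h1, h2⟩ := hboth _ ht'.2 (dist_add_exp x t')
    have h3 := hpair _ ht'.2 h1 h2 hcard
    refine ⟨t', ht'.1, ?_⟩
    rw [mem_ofPred_eq, ← mem_J, h3]
    exact he
  exact hs' ⟨interior_maximal (hclose b (by simp)) hopen hs0,
    interior_maximal (hclose d (by simp)) hopen hs0⟩

omit h in
/-- Finite graph lemma: a non-bridge edge `bd` of a triangle-free graph on five vertices, not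
lying on a 5-cycle through all vertices, lies on a 4-cycle. -/
lemma exists_quad {r : Fin 5 → Fin 5 → Prop} (hsymm : ∀ i j, r i j → r j i) {b d : Fin 5}
    (hbd : b ≠ d) (hr : r b d)
    (hbr : ∀ P : Finset (Fin 5), b ∈ P → d ∉ P → ∃ i ∈ P, ∃ j ∉ P, ¬ (i = b ∧ j = d) ∧ r i j)
    (hT : ∀ i j k, i ≠ j → i ≠ k → j ≠ k → r i j → r j k → r k i → False)
    (hP : ∀ q i j, b ≠ d → b ≠ q → b ≠ i → b ≠ j → d ≠ q → d ≠ i → d ≠ j → q ≠ i → q ≠ j →
      i ≠ j → r b q → r q i → r i j → ∀ k, k ≠ b → k ≠ d → r k d → False) :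
    ∃ p q, b ≠ p ∧ b ≠ q ∧ d ≠ p ∧ d ≠ q ∧ p ≠ q ∧ r d p ∧ r p q ∧ r q b ∧ ¬ r b p ∧ ¬ r d q := by
  classical
  -- the ball of radius two about `b` avoiding `d`
  obtain ⟨i, hi, j, hj, hij, hrij⟩ := hbr
    (Finset.univ.filter fun k => k = b ∨ (k ≠ d ∧ r b k) ∨
      (k ≠ d ∧ ∃ q, q ≠ d ∧ q ≠ b ∧ r b q ∧ r q k)) (by simp) (by
        simp only [Finset.mem_filter, Finset.mem_univ, true_and]
        rintro (h1 | h1 | h1)
        · exact hbd h1.symm
        · exact h1.1 rfl
        · exact h1.1 rfl)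
  simp only [Finset.mem_filter, Finset.mem_univ, true_and, not_or, not_and, not_exists] at hi hj
  obtain ⟨hjb, hj1, hj2⟩ := hj
  have hib : i ≠ b := by
    rintro rfl
    by_cases hjd : j = d
    · exact hij ⟨rfl, hjd⟩
    · exact hj1 hjd hrij
  have hne : i ≠ j := by
    rintro rfl
    rcases hi with h1 | h1 | ⟨h1, q, hq1, hq2, hq3, hq4⟩
    · exact hjb h1
    · exact hj1 h1.1 h1.2
    · exact hj2 h1 q hq1 hq2 hq3 hq4
  rcases hi with h1 | ⟨hid, hbi⟩ | ⟨hid, q, hqd, hqb, hbq, hqi⟩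
  · exact absurd h1 hib
  · -- `i` is a neighbour of `b`
    by_cases hjd : j = d
    · subst hjd
      exact absurd (hT b i j hib.symm hbd hne hbi hrij (hsymm _ _ hr)) id
    · exact absurd hrij (hj2 hjd i hid hib hbi)
  · have hqi' : q ≠ i := by
      rintro rfl
      by_cases hjd : j = d
      · subst hjd
        exact hT b q j hqb.symm hbd hqd hbq hrij (hsymm _ _ hr)
      · exact hj2 hjd q hqd hqb hbq hrij
    by_cases hjd : j = d
    · subst hjd
      refine ⟨i, q, hib.symm, hqb.symm, hid.symm, hqd.symm, hqi'.symm, hsymm _ _ hrij,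
        hsymm _ _ hqi, hsymm _ _ hbq, ?_, ?_⟩
      · intro hbi
        exact hT b q i hqb.symm hib.symm hqi' hbq hqi (hsymm _ _ hbi)
      · intro hdq
        exact hT j q b hqd.symm hbd.symm hqb hdq (hsymm _ _ hbq) hr
    · exfalso
      have hqj : q ≠ j := by
        rintro rfl
        exact hj1 hjd hbq
      obtain ⟨k, hk, l, hl, hkl, hrkl⟩ := hbr (Finset.univ.erase d) (by simp [hbd]) (by simp)
      simp only [Finset.mem_erase, Finset.mem_univ, and_true, not_not] at hk hl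
      subst hl
      exact hP q i j hbd hqb.symm hib.symm (Ne.symm hjb) hqd.symm hid.symm (Ne.symm hjd)
        hqi' hqj hne hbq hqi hrij k (fun hkb => hkl ⟨hkb, rfl⟩) hk hrkl

/-- (III-e). -/
theorem III_e {x : ℂ} {b d : Fin 5} (hbd : b ≠ d) {s : ℝ}
    (hs : s ∈ closure (interior {t : ℝ | x + Complex.exp (t * Complex.I) ∈ F U b} ∩
      interior {t : ℝ | x + Complex.exp (t * Complex.I) ∈ F U d}))
    (hs' : s ∉ interior {t : ℝ | x + Complex.exp (t * Complex.I) ∈ F U b} ∩
      interior {t : ℝ | x + Complex.exp (t * Complex.I) ∈ F U d})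
    (hN : ∀ᶠ q in 𝓝 (x + Complex.exp (s * Complex.I)), J U q = {b, d} → dist q x = 1)
    (hT : ∀ i j k, i ≠ j → i ≠ k → j ≠ k → Acc U (x + Complex.exp (s * Complex.I)) i j →
      Acc U (x + Complex.exp (s * Complex.I)) j k → Acc U (x + Complex.exp (s * Complex.I)) k i →
      False)
    (hII : J U (x + Complex.exp (s * Complex.I)) = Finset.univ →
      (∀ i j k l, i ≠ j → i ≠ k → i ≠ l → j ≠ k → j ≠ l → k ≠ l →
        Acc U (x + Complex.exp (s * Complex.I)) i j → Acc U (x + Complex.exp (s * Complex.I)) j k →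
        Acc U (x + Complex.exp (s * Complex.I)) k l → Acc U (x + Complex.exp (s * Complex.I)) l i →
        False) ∧
      (∀ i j k l m, i ≠ j → i ≠ k → i ≠ l → i ≠ m → j ≠ k → j ≠ l → j ≠ m → k ≠ l → k ≠ m → l ≠ m →
        Acc U (x + Complex.exp (s * Complex.I)) i j → Acc U (x + Complex.exp (s * Complex.I)) j k →
        Acc U (x + Complex.exp (s * Complex.I)) k l → Acc U (x + Complex.exp (s * Complex.I)) l m →
        Acc U (x + Complex.exp (s * Complex.I)) m i → False)) :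
    ∃ p q, b ≠ p ∧ b ≠ q ∧ d ≠ p ∧ d ≠ q ∧ p ≠ q ∧
      J U (x + Complex.exp (s * Complex.I)) = {b, d, p, q} ∧
      Acc U (x + Complex.exp (s * Complex.I)) b d ∧ Acc U (x + Complex.exp (s * Complex.I)) d p ∧
      Acc U (x + Complex.exp (s * Complex.I)) p q ∧ Acc U (x + Complex.exp (s * Complex.I)) q b ∧
      ¬ Acc U (x + Complex.exp (s * Complex.I)) b p ∧
      ¬ Acc U (x + Complex.exp (s * Complex.I)) d q := by
  obtain ⟨hacc, hbr⟩ := h.III_e_core hbd hs hs' hN
  set y : ℂ := x + Complex.exp (s * Complex.I) with hy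
  have hsymm : ∀ i j, Acc U y i j → Acc U y j i := fun i j hij => by
    have : ({i, j} : Finset (Fin 5)) = {j, i} := Finset.pair_comm i j
    rw [Acc, ← this]; exact hij
  have hmem : ∀ i j, Acc U y i j → i ∈ J U y := fun i j hij => by
    obtain ⟨z, hz1, hz2⟩ := (Filter.Frequently.and_eventually hij (J_usc (U := U) y)).exists
    rw [hz1] at hz2
    exact hz2 (by simp)
  obtain ⟨p, q, hbp, hbq, hdp, hdq, hpq, h1, h2, h3, h4, h5⟩ := exists_quad (r := Acc U y) hsymm
    hbd hacc hbr hT (by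
      intro q i j _ hbq hbi hbj hdq hdi hdj hqi hqj hij h1 h2 h3 k hkb hkd h4
      have hsub : ({b, d, q, i, j} : Finset (Fin 5)) ⊆ J U y := by
        intro k hk
        simp only [Finset.mem_insert, Finset.mem_singleton] at hk
        rcases hk with rfl | rfl | rfl | rfl | rfl
        · exact hmem _ _ h1
        · exact hmem _ _ (hsymm _ _ hacc)
        · exact hmem _ _ h2
        · exact hmem _ _ h3
        · exact hmem _ _ (hsymm _ _ h3)
      have hc : ({b, d, q, i, j} : Finset (Fin 5)).card = 5 := by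
        rw [Finset.card_insert_of_notMem (by simp [hbd, hbq, hbi, hbj]),
          Finset.card_insert_of_notMem (by simp [hdq, hdi, hdj]),
          Finset.card_insert_of_notMem (by simp [hqi, hqj]),
          Finset.card_insert_of_notMem (by simpa using hij), Finset.card_singleton]
      have hfull : ({b, d, q, i, j} : Finset (Fin 5)) = Finset.univ :=
        Finset.eq_univ_of_card _ (by rw [hc]; rfl)
      have hJ : J U y = Finset.univ := by
        rw [← Finset.univ_subset_iff, ← hfull]; exact hsub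
      have hk : k ∈ ({b, d, q, i, j} : Finset (Fin 5)) := by rw [hfull]; simp
      simp only [Finset.mem_insert, Finset.mem_singleton] at hk
      rcases hk with rfl | rfl | rfl | rfl | rfl
      · exact hkb rfl
      · exact hkd rfl
      · exact hT b k d hbq hbd hkd h1 h4 (hsymm _ _ hacc)
      · exact (hII hJ).1 b q k d hbq hbi hbd hqi hdq.symm hkd h1 h2 h4 (hsymm _ _ hacc)
      · exact (hII hJ).2 b q i k d hbq hbi hbj hbd hqi hqj hdq.symm hij hdi.symm hkd h1 h2 h3 h4
          (hsymm _ _ hacc))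
  refine ⟨p, q, hbp, hbq, hdp, hdq, hpq, ?_, hacc, h1, h2, h3, h4, h5⟩
  have hsub : ({b, d, p, q} : Finset (Fin 5)) ⊆ J U y := by
    intro k hk
    simp only [Finset.mem_insert, Finset.mem_singleton] at hk
    rcases hk with rfl | rfl | rfl | rfl
    · exact hmem _ _ hacc
    · exact hmem _ _ h1
    · exact hmem _ _ h2
    · exact hmem _ _ h3
  have hc : ({b, d, p, q} : Finset (Fin 5)).card = 4 := by
    rw [Finset.card_insert_of_notMem (by simp [hbd, hbp, hbq]),
      Finset.card_insert_of_notMem (by simp [hdp, hdq]),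
      Finset.card_insert_of_notMem (by simpa using hpq), Finset.card_singleton]
  refine (Finset.eq_of_subset_of_card_le hsub ?_).symm
  rw [hc]
  by_contra hlt
  push Not at hlt
  have hJ : J U y = Finset.univ := by
    apply Finset.eq_univ_of_card
    have := Finset.card_le_univ (J U y)
    simp only [Fintype.card_fin] at this ⊢
    omega
  exact (hII hJ).1 b d p q hbd hbp hbq hdp hdq hpq hacc h1 h2 h3

end Cov
end

end Crest.Agent.R40.T3
end

-- ▼ part R40/T3CaseIIIe467
section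

/-!
# R40 / T3 : Case III from (III-b), Case I and Case II
-/

set_option autoImplicit false

open Set Metric Topology Filter

namespace Crest.Agent.R40.T3

section
variable {U : Fin 5 → Set ℂ}

/-- (III-e) in terms of `C4`. -/
theorem Cov.III_e' (h : Cov U)
    (hb : ∀ x a b c d, C4 U x a b c d → (Sol U a x ∩ Sol U c x).Nonempty)
    (hI : ∀ x, ¬ Tri (Acc U x))
    (hII : ∀ x, J U x = Finset.univ → ¬ Quad (Acc U x) ∧ ¬ Pent (Acc U x))
    (x : ℂ) (a b c d : Fin 5) (hC : C4 U x a b c d) (s : ℝ)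
    (hs : s ∈ frontier (Sol U b x ∩ Sol U d x)) :
    ∃ p q, C4 U (x + uv s) b d p q := by
  have hN := h.III_cd hC.hJ.subset hC.nbd (hb x a b c d hC) s
  have hs1 : s ∈ closure (Sol U b x ∩ Sol U d x) := frontier_subset_closure hs
  have hs2 : s ∉ Sol U b x ∩ Sol U d x := by
    rw [(isOpen_Sol.inter isOpen_Sol).frontier_eq] at hs
    exact hs.2
  obtain ⟨p, q, h1, h2, h3, h4, h5, h6, h7, h8, h9, h10, h11, h12⟩ :=
    h.III_e (x := x) (b := b) (d := d) (s := s) hC.hbd hs1 hs2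
    (by
      have hN' : ∀ᶠ q in 𝓝 (x + uv s), J U q = {b, d} → dist q x = 1 := by
        filter_upwards [hN] with q hq hJq
        exact hq (mem_J.1 (by rw [hJq]; simp)) (mem_J.1 (by rw [hJq]; simp))
      exact hN')
    (fun i j k hij hik hjk e1 e2 e3 => hI _ ⟨i, j, k, hij, hik, hjk, e1, e2, e3⟩)
    (fun hJ => ⟨fun i j k l n1 n2 n3 n4 n5 n6 e1 e2 e3 e4 =>
        (hII _ hJ).1 ⟨i, j, k, l, n1, n2, n3, n4, n5, n6, e1, e2, e3, e4⟩,
      fun i j k l m n1 n2 n3 n4 n5 n6 n7 n8 n9 n10 e1 e2 e3 e4 e5 =>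
        (hII _ hJ).2 ⟨i, j, k, l, m, n1, n2, n3, n4, n5, n6, n7, n8, n9, n10, e1, e2, e3, e4, e5⟩⟩)
  exact ⟨p, q, ⟨hC.hbd, h1, h2, h3, h4, h5, h6, h7, h8, h9, h10, h11, h12⟩⟩

/-- Case III in the form needed by `T3_false_of`, from (III-b). -/
theorem Cov.caseIII_of_b (h : Cov U)
    (hb : ∀ x a b c d, C4 U x a b c d → (Sol U a x ∩ Sol U c x).Nonempty)
    (hI : ∀ x, ¬ Tri (Acc U x))
    (hII : ∀ x, J U x = Finset.univ → ¬ Quad (Acc U x) ∧ ¬ Pent (Acc U x)) :
    ∀ x (a b c d : Fin 5), a ≠ b → a ≠ c → a ≠ d → b ≠ c → b ≠ d → c ≠ d →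
      J U x = {a, b, c, d} → Acc U x a b → Acc U x b c → Acc U x c d → Acc U x d a →
      ¬ Acc U x a c → ¬ Acc U x b d → False :=
  fun x a b c d n1 n2 n3 n4 n5 n6 hJ e1 e2 e3 e4 e5 e6 =>
    h.caseIII_of hb (h.III_e' hb hI hII) x a b c d
      ⟨n1, n2, n3, n4, n5, n6, hJ, e1, e2, e3, e4, e5, e6⟩

end

end Crest.Agent.R40.T3
end

-- ▼ part R40/T3Sep
section

/-!
# R40 / T3 : separation by the circle `C(y)` near the centre `x` (SEP)

`y = x + uv (t + π/3)`.  If rectangles (or just curves) of one colour `k` accumulate at `y` on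
the correct side, then near `x` the class `F k` lies on one side of the circle `C(y)`.
-/

set_option autoImplicit false

open Set Metric Topology Filter
open scoped Real

namespace Crest.Agent.R40.T3.Sep

section

lemma uv_add (a b : ℝ) : uv (a + b) = uv a * uv b := by
  simp only [uv]
  rw [← Complex.exp_add]
  congr 1
  push_cast
  ring

lemma norm_uv (t : ℝ) : ‖uv t‖ = 1 := Complex.norm_exp_ofReal_mul_I t

lemma uv_re (t : ℝ) : (uv t).re = Real.cos t := by
  simp [uv, Complex.exp_ofReal_mul_I_re]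

lemma uv_im (t : ℝ) : (uv t).im = Real.sin t := by
  simp [uv, Complex.exp_ofReal_mul_I_im]

lemma norm_sq_uv_add (a b : ℝ) : ‖uv a + uv b‖ ^ 2 = 2 + 2 * Real.cos (a - b) := by
  rw [Complex.sq_norm, Complex.normSq_apply]
  simp only [Complex.add_re, Complex.add_im, uv_re, uv_im]
  rw [Real.cos_sub]
  have h1 := Real.sin_sq_add_cos_sq a
  have h2 := Real.sin_sq_add_cos_sq b
  nlinarith


/-- `e^{it} + e^{i(t+2π/3)} = e^{i(t+π/3)}` -/
lemma uv_add_uv (t : ℝ) : uv t + uv (t + 2 * π / 3) = uv (t + π / 3) := by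
  have h1 : uv t = uv (t + π / 3) * uv (-(π / 3)) := by
    rw [← uv_add]; congr 1; ring
  have h2 : uv (t + 2 * π / 3) = uv (t + π / 3) * uv (π / 3) := by
    rw [← uv_add]; congr 1; ring
  rw [h1, h2, ← mul_add]
  have h3 : uv (-(π / 3)) + uv (π / 3) = 1 := by
    apply Complex.ext
    · simp only [Complex.add_re, uv_re, Real.cos_neg, Real.cos_pi_div_three, Complex.one_re]
      norm_num
    · simp only [Complex.add_im, uv_im, Real.sin_neg, Complex.one_im]
      ring
  rw [h3, mul_one]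

end

section
variable {U : Fin 5 → Set ℂ}

/-- general form: `G p q` two-parameter family, `G t t = y`, `G s t` strictly inside `D(x)`;
curves `p ↦ G p q` of colour `k` for `q → t`. -/
lemma sep_aux (h : Cov U) {x y : ℂ} {k : Fin 5} {G : ℝ → ℝ → ℂ}
    (hG : Continuous (fun pq : ℝ × ℝ => G pq.1 pq.2)) {s t : ℝ} (hy : G t t = y)
    (hs : dist (G s t) x < 1) {f : Filter ℝ} (hf : f ≤ 𝓝 t)
    (hk : ∃ᶠ q in f, ∀ p ∈ uIoo s t, G p q ∈ U k) :
    ∀ᶠ z in 𝓝 x, z ∈ F U k → dist z y ≤ 1 := by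
  have h1 : ∀ᶠ z in 𝓝 x, dist (G s t) z < 1 := by
    have : Continuous (fun z => dist (G s t) z) := by fun_prop
    exact this.continuousAt.eventually_lt continuousAt_const hs
  filter_upwards [h1] with z hz hzk
  by_contra hcon
  push Not at hcon
  have hq1 : ∀ᶠ q in 𝓝 t, dist (G s q) z < 1 := by
    have hc : Continuous (fun q => dist (G s q) z) :=
      (hG.comp (continuous_const.prodMk continuous_id)).dist continuous_const
    exact hc.continuousAt.eventually_lt continuousAt_const hz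
  have hq2 : ∀ᶠ q in 𝓝 t, 1 < dist (G t q) z := by
    have hc : Continuous (fun q => dist (G t q) z) :=
      (hG.comp (continuous_const.prodMk continuous_id)).dist continuous_const
    refine continuousAt_const.eventually_lt hc.continuousAt ?_
    simp only [hy]
    rwa [dist_comm]
  obtain ⟨q, hq, hqs, hqt⟩ := (hk.and_eventually (hf (hq1.and hq2))).exists
  have hc : Continuous (fun p => dist (G p q) z) :=
    (hG.comp (continuous_id.prodMk continuous_const)).dist continuous_const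
  have hst : s ≠ t := by
    rintro rfl
    linarith
  obtain ⟨p, hp, hp1⟩ : ∃ p ∈ uIoo s t, dist (G p q) z = 1 := by
    rcases lt_or_gt_of_ne hst with hlt | hgt
    · rw [uIoo_of_lt hlt]
      exact intermediate_value_Ioo hlt.le hc.continuousOn ⟨hqs, hqt⟩
    · rw [uIoo_of_gt hgt]
      exact intermediate_value_Ioo' hgt.le hc.continuousOn ⟨hqs, hqt⟩
  exact h.dist_ne_of_mem hzk (hq p hp) (by rw [dist_comm]; exact hp1)

lemma sep_aux' (h : Cov U) {x y : ℂ} {k : Fin 5} {G : ℝ → ℝ → ℂ}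
    (hG : Continuous (fun pq : ℝ × ℝ => G pq.1 pq.2)) {s t : ℝ} (hy : G t t = y)
    (hs : 1 < dist (G s t) x) {f : Filter ℝ} (hf : f ≤ 𝓝 t)
    (hk : ∃ᶠ q in f, ∀ p ∈ uIoo s t, G p q ∈ U k) :
    ∀ᶠ z in 𝓝 x, z ∈ F U k → 1 ≤ dist z y := by
  have h1 : ∀ᶠ z in 𝓝 x, 1 < dist (G s t) z := by
    have : Continuous (fun z => dist (G s t) z) := by fun_prop
    exact continuousAt_const.eventually_lt this.continuousAt hs
  filter_upwards [h1] with z hz hzk
  by_contra hcon
  push Not at hcon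
  have hq1 : ∀ᶠ q in 𝓝 t, 1 < dist (G s q) z := by
    have hc : Continuous (fun q => dist (G s q) z) :=
      (hG.comp (continuous_const.prodMk continuous_id)).dist continuous_const
    exact continuousAt_const.eventually_lt hc.continuousAt hz
  have hq2 : ∀ᶠ q in 𝓝 t, dist (G t q) z < 1 := by
    have hc : Continuous (fun q => dist (G t q) z) :=
      (hG.comp (continuous_const.prodMk continuous_id)).dist continuous_const
    refine hc.continuousAt.eventually_lt continuousAt_const ?_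
    simp only [hy]
    rwa [dist_comm]
  obtain ⟨q, hq, hqs, hqt⟩ := (hk.and_eventually (hf (hq1.and hq2))).exists
  have hc : Continuous (fun p => dist (G p q) z) :=
    (hG.comp (continuous_id.prodMk continuous_const)).dist continuous_const
  have hst : s ≠ t := by
    rintro rfl
    linarith
  obtain ⟨p, hp, hp1⟩ : ∃ p ∈ uIoo s t, dist (G p q) z = 1 := by
    rcases lt_or_gt_of_ne hst with hlt | hgt
    · rw [uIoo_of_lt hlt]
      exact intermediate_value_Ioo' hlt.le hc.continuousOn ⟨hqt, hqs⟩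
    · rw [uIoo_of_gt hgt]
      exact intermediate_value_Ioo hgt.le hc.continuousOn ⟨hqt, hqs⟩
  exact h.dist_ne_of_mem hzk (hq p hp) (by rw [dist_comm]; exact hp1)

lemma cos_two_pi_div_three' : Real.cos (2 * π / 3) = -1 / 2 := by
  rw [show 2 * π / 3 = π - π / 3 by ring, Real.cos_pi_sub, Real.cos_pi_div_three]
  norm_num

lemma cos_lt_of {δ : ℝ} (h0 : 0 < δ) (h1 : δ ≤ π / 3) : Real.cos (2 * π / 3 + δ) < -1 / 2 := by
  rw [← cos_two_pi_div_three']
  have := Real.pi_pos
  exact Real.cos_lt_cos_of_nonneg_of_le_pi (by positivity) (by linarith) (by linarith)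

lemma lt_cos_of {δ : ℝ} (h0 : 0 < δ) (h1 : δ ≤ π / 3) : -1 / 2 < Real.cos (2 * π / 3 - δ) := by
  rw [← cos_two_pi_div_three']
  have := Real.pi_pos
  exact Real.cos_lt_cos_of_nonneg_of_le_pi (by linarith) (by linarith) (by linarith)

lemma dist_mixed_sq (x : ℂ) (p q : ℝ) :
    dist (x + uv p + uv (q + 2 * π / 3)) x ^ 2 = 2 + 2 * Real.cos (2 * π / 3 + (q - p)) := by
  rw [dist_eq_norm, show x + uv p + uv (q + 2 * π / 3) - x = uv p + uv (q + 2 * π / 3) by ring,
    norm_sq_uv_add, ← Real.cos_neg]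
  congr 3
  ring

lemma mixed_lt_one (x : ℂ) {p q : ℝ} (h0 : p < q) (h1 : q ≤ p + π / 3) :
    dist (x + uv p + uv (q + 2 * π / 3)) x < 1 := by
  have h2 := dist_mixed_sq x p q
  have h3 := cos_lt_of (δ := q - p) (by linarith) (by linarith)
  have h4 : dist (x + uv p + uv (q + 2 * π / 3)) x ^ 2 < 1 ^ 2 := by linarith
  exact lt_of_pow_lt_pow_left₀ 2 zero_le_one h4

lemma one_lt_mixed (x : ℂ) {p q : ℝ} (h0 : q < p) (h1 : p ≤ q + π / 3) :
    1 < dist (x + uv p + uv (q + 2 * π / 3)) x := by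
  have h2 := dist_mixed_sq x p q
  have h3 := lt_cos_of (δ := p - q) (by linarith) (by linarith)
  have h5 : 2 * π / 3 + (q - p) = 2 * π / 3 - (p - q) := by ring
  rw [h5] at h2
  have h4 : 1 ^ 2 < dist (x + uv p + uv (q + 2 * π / 3)) x ^ 2 := by linarith
  exact lt_of_pow_lt_pow_left₀ 2 dist_nonneg h4

lemma continuous_uv' : Continuous uv := by unfold uv; fun_prop

lemma continuous_mixed (x : ℂ) :
    Continuous (fun pq : ℝ × ℝ => x + uv pq.1 + uv (pq.2 + 2 * π / 3)) := by
  have := continuous_uv'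
  fun_prop

lemma continuous_mixed' (x : ℂ) :
    Continuous (fun pq : ℝ × ℝ => x + uv pq.2 + uv (pq.1 + 2 * π / 3)) := by
  have := continuous_uv'
  fun_prop

lemma mixed_diag (x : ℂ) (t : ℝ) : x + uv t + uv (t + 2 * π / 3) = x + uv (t + π / 3) := by
  rw [add_assoc, uv_add_uv]

/-- SEP, inside: curves with `p` left of `t`, `q → t` (usually from the right). -/
lemma sep_minus (h : Cov U) {x : ℂ} {k : Fin 5} {t δ : ℝ} (hδ : 0 < δ) {f : Filter ℝ}
    (hf : f ≤ 𝓝 t)
    (hk : ∃ᶠ q in f, ∀ p ∈ Ioo (t - δ) t, x + uv p + uv (q + 2 * π / 3) ∈ U k) :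
    ∀ᶠ z in 𝓝 x, z ∈ F U k → dist z (x + uv (t + π / 3)) ≤ 1 := by
  have hpi := Real.pi_pos
  have hm : 0 < min δ (π / 3) := lt_min hδ (by positivity)
  have hm1 := min_le_left δ (π / 3)
  have hm2 := min_le_right δ (π / 3)
  refine sep_aux h (G := fun p q => x + uv p + uv (q + 2 * π / 3)) (continuous_mixed x) (s := t - min δ (π / 3)) (mixed_diag x t) ?_
    hf ?_
  · exact mixed_lt_one x (by linarith) (by linarith)
  · refine hk.mono fun q hq p hp => hq p ?_
    rw [uIoo_of_lt (by linarith)] at hp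
    exact ⟨by linarith [hp.1], hp.2⟩


/-- SEP, outside: `p → t` (usually from the right), curves with `q` left of `t`. -/
lemma sep_plus (h : Cov U) {x : ℂ} {k : Fin 5} {t δ : ℝ} (hδ : 0 < δ) {f : Filter ℝ}
    (hf : f ≤ 𝓝 t)
    (hk : ∃ᶠ p in f, ∀ q ∈ Ioo (t - δ) t, x + uv p + uv (q + 2 * π / 3) ∈ U k) :
    ∀ᶠ z in 𝓝 x, z ∈ F U k → 1 ≤ dist z (x + uv (t + π / 3)) := by
  have hpi := Real.pi_pos
  have hm : 0 < min δ (π / 3) := lt_min hδ (by positivity)
  have hm1 := min_le_left δ (π / 3)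
  have hm2 := min_le_right δ (π / 3)
  refine sep_aux' h (G := fun p q => x + uv q + uv (p + 2 * π / 3)) (continuous_mixed' x) (s := t - min δ (π / 3)) (mixed_diag x t) ?_
    hf ?_
  · exact one_lt_mixed x (by linarith) (by linarith)
  · refine hk.mono fun q hq p hp => hq p ?_
    rw [uIoo_of_lt (by linarith)] at hp
    exact ⟨by linarith [hp.1], hp.2⟩


/-- pigeonhole for the colour of accumulating curves -/
lemma frequently_exists_fin {α : Type*} {f : Filter α} {P : α → Fin 5 → Prop}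
    (hP : ∃ᶠ a in f, ∃ k, P a k) : ∃ k, ∃ᶠ a in f, P a k := by
  by_contra hcon
  push Not at hcon
  apply hP
  have : ∀ᶠ a in f, ∀ k, ¬ P a k := by
    rw [eventually_all]
    intro k
    exact hcon k
  filter_upwards [this] with a ha
  push Not
  exact ha

/-- a class near `x` cannot lie on a unit circle. -/
lemma sep_ne (h : Cov U) {x y : ℂ} {k : Fin 5} (hk : k ∈ J U x)
    (h1 : ∀ᶠ z in 𝓝 x, z ∈ F U k → dist z y ≤ 1)
    (h2 : ∀ᶠ z in 𝓝 x, z ∈ F U k → 1 ≤ dist z y) : False := by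
  have hx : x ∈ closure (U k) := mem_J.1 hk
  obtain ⟨O, hO, hOo, hxO⟩ := _root_.eventually_nhds_iff.1 (h1.and h2)
  obtain ⟨z, hzO, hzU⟩ := mem_closure_iff.1 hx O hOo hxO
  have hW : O ∩ U k ∈ 𝓝 z := (hOo.inter (h.isOpen k)).mem_nhds ⟨hzO, hzU⟩
  have hd : ∀ z' ∈ O ∩ U k, dist z' y = 1 := fun z' hz' =>
    le_antisymm ((hO z' hz'.1).1 (subset_closure hz'.2)) ((hO z' hz'.1).2 (subset_closure hz'.2))
  -- move radially
  have hc : Continuous (fun s : ℝ => y + ((1 + s : ℝ) : ℂ) * (z - y)) := by fun_prop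
  have h0 : (fun s : ℝ => y + ((1 + s : ℝ) : ℂ) * (z - y)) 0 = z := by simp
  have hev : ∀ᶠ s in 𝓝 (0 : ℝ), (fun s : ℝ => y + ((1 + s : ℝ) : ℂ) * (z - y)) s ∈ O ∩ U k := by
    apply hc.continuousAt.eventually
    rw [h0]
    exact hW
  have hev2 : ∀ᶠ s in 𝓝[>] (0 : ℝ), (fun s : ℝ => y + ((1 + s : ℝ) : ℂ) * (z - y)) s ∈ O ∩ U k :=
    hev.filter_mono nhdsWithin_le_nhds
  obtain ⟨s, hs, hs0⟩ := (hev2.and self_mem_nhdsWithin).exists
  have h3 := hd _ hs
  have h4 := hd z ⟨hzO, hzU⟩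
  have hs0' : (0 : ℝ) < s := hs0
  rw [dist_eq_norm] at h3 h4
  simp only [add_sub_cancel_left, norm_mul, h4, mul_one, Complex.norm_real, Real.norm_eq_abs] at h3
  rw [abs_of_pos (by linarith)] at h3
  linarith

end

end Crest.Agent.R40.T3.Sep
end

-- ▼ part R40/T3C4b

/-!
# R40 / T3 : Case III, item (b)

If `J x = {a,b,c,d}` and the accumulating pairs at `x` are exactly `ab, bc, cd, da`, then both
`Sol a ∩ Sol c` and `Sol b ∩ Sol d` are nonempty.
-/

set_option autoImplicit false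

open Set Metric Topology Filter
open scoped Real

namespace Crest.Agent.R40.T3.C4b

open T3.Sep

/-! ## Regularity of solid sets -/

section
variable {U : Fin 5 → Set ℂ}

lemma isClosed_pre (k : Fin 5) (x : ℂ) : IsClosed {t : ℝ | x + uv t ∈ F U k} := by
  have := continuous_uv'
  exact (isClosed_F k).preimage (by fun_prop : Continuous fun t : ℝ => x + uv t)

lemma mem_of_mem_Sol {k : Fin 5} {x : ℂ} {t : ℝ} (h : t ∈ Sol U k x) : x + uv t ∈ F U k :=
  interior_subset (s := {t : ℝ | x + uv t ∈ F U k}) h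

lemma closure_Sol_subset (k : Fin 5) (x : ℂ) : closure (Sol U k x) ⊆ {t : ℝ | x + uv t ∈ F U k} :=
  closure_minimal interior_subset (isClosed_pre k x)

/-- solid sets are regular open -/
lemma subset_Sol_of_subset_closure {k : Fin 5} {x : ℂ} {O : Set ℝ} (hO : IsOpen O)
    (h : O ⊆ closure (Sol U k x)) : O ⊆ Sol U k x :=
  interior_maximal (h.trans (closure_Sol_subset k x)) hO

/-- the alternating situation of Case III (b) -/
structure Alt (U : Fin 5 → Set ℂ) (x : ℂ) (a b c d e : Fin 5) : Prop where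
  cov : Cov U
  nodup : [a, b, c, d, e].Nodup
  hJ : J U x = {a, b, c, d}
  hbd : ¬ Acc U x b d
  gen : ∀ t ∈ GenC U x, t ∈ Sol U e x ∨ t ∈ Sol U a x ∩ Sol U c x

namespace Alt
variable {x : ℂ} {a b c d e : Fin 5} (H : Alt U x a b c d e)
include H

lemma five (k : Fin 5) : k = a ∨ k = b ∨ k = c ∨ k = d ∨ k = e := by
  have h1 := H.nodup
  revert h1
  clear H
  revert a b c d e k
  decide

lemma subset_bd {S : Finset (Fin 5)} (ha : a ∉ S) (hc : c ∉ S) (he : e ∉ S) : S ⊆ {b, d} := by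
  intro k hk
  rcases H.five k with rfl | rfl | rfl | rfl | rfl
  · exact absurd hk ha
  · simp
  · exact absurd hk hc
  · simp
  · exact absurd hk he

lemma ne_ab : a ≠ b := by
  have := H.nodup
  simp only [List.nodup_cons, List.mem_cons, not_or] at this
  tauto
lemma ne_ad : a ≠ d := by
  have := H.nodup
  simp only [List.nodup_cons, List.mem_cons, not_or] at this
  tauto
lemma ne_bd : b ≠ d := by
  have := H.nodup
  simp only [List.nodup_cons, List.mem_cons, not_or] at this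
  tauto
lemma ne_be : b ≠ e := by
  have := H.nodup
  simp only [List.nodup_cons, List.mem_cons, not_or] at this
  tauto
lemma ne_de : d ≠ e := by
  have := H.nodup
  simp only [List.nodup_cons, List.mem_cons, not_or] at this
  tauto
lemma ne_ac : a ≠ c := by
  have := H.nodup
  simp only [List.nodup_cons, List.mem_cons, not_or] at this
  tauto
lemma ne_ae : a ≠ e := by
  have := H.nodup
  simp only [List.nodup_cons, List.mem_cons, not_or] at this
  tauto
lemma ne_ce : c ≠ e := by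
  have := H.nodup
  simp only [List.nodup_cons, List.mem_cons, not_or] at this
  tauto

lemma e_not_mem : e ∉ J U x := by
  rw [H.hJ]
  have := H.nodup
  simp only [List.nodup_cons, List.mem_cons, not_or] at this
  simp only [Finset.mem_insert, Finset.mem_singleton, not_or]
  tauto

/-- near `x` there is no colour `e` and no `bd`-point -/
lemma near_x : ∀ᶠ z in 𝓝 x, e ∉ J U z ∧ J U z ≠ {b, d} := by
  have h1 : ∀ᶠ z in 𝓝 x, J U z ≠ {b, d} := not_frequently.1 H.hbd
  filter_upwards [h1, J_usc (U := U) x] with z hz hz'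
  exact ⟨fun hc => H.e_not_mem (hz' hc), hz⟩

lemma dense_union : Dense (Sol U e x ∪ (Sol U a x ∩ Sol U c x)) :=
  (dense_GenC (U := U) (x := x)).mono H.gen

omit H in
lemma isOpen_A : IsOpen (Sol U a x ∩ Sol U c x) := (isOpen_Sol).inter (isOpen_Sol)

lemma disj : Disjoint (Sol U e x) (Sol U a x ∩ Sol U c x) := by
  rw [Set.disjoint_iff]
  intro t ht
  obtain ⟨s, hs, hsg⟩ := (dense_GenC (U := U) (x := x)).inter_open_nonempty _
    ((isOpen_Sol).inter isOpen_A) ⟨t, ht⟩
  have h1 := H.cov.genC_card hsg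
  have h2 : ({a, c, e} : Finset (Fin 5)) ⊆ J U (x + uv s) := by
    intro k hk
    simp only [Finset.mem_insert, Finset.mem_singleton] at hk
    rcases hk with rfl | rfl | rfl
    · exact mem_J.2 (mem_of_mem_Sol hs.2.1)
    · exact mem_J.2 (mem_of_mem_Sol hs.2.2)
    · exact mem_J.2 (mem_of_mem_Sol hs.1)
  have h3 := Finset.card_le_card h2
  rw [Finset.card_insert_of_notMem, Finset.card_pair H.ne_ce] at h3
  · omega
  · simp [H.ne_ac, H.ne_ae]

lemma A_of_disjoint {O : Set ℝ} (hO : IsOpen O) (hd : Disjoint O (Sol U e x)) :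
    O ⊆ Sol U a x ∩ Sol U c x := by
  have h1 : O ⊆ closure (Sol U a x ∩ Sol U c x) := by
    intro t ht
    rw [_root_.mem_closure_iff]
    intro V hV htV
    obtain ⟨s, hs, hs'⟩ := H.dense_union.inter_open_nonempty _ (hO.inter hV) ⟨t, ht, htV⟩
    rcases hs' with hs' | hs'
    · exact absurd hs' (Set.disjoint_left.1 hd hs.1)
    · exact ⟨s, hs.2, hs'⟩
  intro t ht
  refine ⟨subset_Sol_of_subset_closure hO (h1.trans (closure_mono inter_subset_left)) ht,
    subset_Sol_of_subset_closure hO (h1.trans (closure_mono inter_subset_right)) ht⟩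

lemma E_of_disjoint {O : Set ℝ} (hO : IsOpen O) (hd : Disjoint O (Sol U a x ∩ Sol U c x)) :
    O ⊆ Sol U e x := by
  refine subset_Sol_of_subset_closure hO ?_
  intro t ht
  rw [_root_.mem_closure_iff]
  intro V hV htV
  obtain ⟨s, hs, hs'⟩ := H.dense_union.inter_open_nonempty _ (hO.inter hV) ⟨t, ht, htV⟩
  rcases hs' with hs' | hs'
  · exact ⟨s, hs.2, hs'⟩
  · exact absurd hs' (Set.disjoint_left.1 hd hs.1)

lemma A_shift {t : ℝ} (ht : t ∈ Sol U a x ∩ Sol U c x) : t + π / 3 ∈ Sol U e x := by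
  have hO : IsOpen ((fun s : ℝ => s - π / 3) ⁻¹' (Sol U a x ∩ Sol U c x)) :=
    isOpen_A.preimage (by fun_prop)
  refine H.E_of_disjoint hO ?_ (by simpa using ht)
  rw [Set.disjoint_left]
  intro s hs hs'
  have h1 := (H.cov.P3 hs.1).1
  rw [sub_add_cancel] at h1
  exact h1 (mem_of_mem_Sol hs'.1)

lemma E_shift {t : ℝ} (ht : t ∈ Sol U e x) : t + π / 3 ∈ Sol U a x ∩ Sol U c x := by
  have hO : IsOpen ((fun s : ℝ => s - π / 3) ⁻¹' (Sol U e x)) :=
    (isOpen_Sol).preimage (by fun_prop)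
  refine H.A_of_disjoint hO ?_ (by simpa using ht)
  rw [Set.disjoint_left]
  intro s hs hs'
  have h1 := (H.cov.P3 (k := e) (x := x) (a := s - π / 3) hs).1
  rw [sub_add_cancel] at h1
  exact h1 (mem_of_mem_Sol hs')

lemma E_shift2 {t : ℝ} (ht : t ∈ Sol U e x) : t + 2 * π / 3 ∈ Sol U e x := by
  have := H.A_shift (H.E_shift ht)
  rwa [show t + π / 3 + π / 3 = t + 2 * π / 3 by ring] at this

lemma A_shift2 {t : ℝ} (ht : t ∈ Sol U a x ∩ Sol U c x) :
    t + 2 * π / 3 ∈ Sol U a x ∩ Sol U c x := by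
  have := H.E_shift (H.A_shift ht)
  rwa [show t + π / 3 + π / 3 = t + 2 * π / 3 by ring] at this

lemma E_shift3 {t : ℝ} (ht : t ∈ Sol U e x) : t + π ∈ Sol U a x ∩ Sol U c x := by
  have := H.A_shift2 (H.E_shift ht)
  rwa [show t + π / 3 + 2 * π / 3 = t + π by ring] at this

lemma A_nonempty : (Sol U a x ∩ Sol U c x).Nonempty := by
  obtain ⟨t, ht⟩ := (dense_GenC (U := U) (x := x)).nonempty
  rcases H.gen t ht with h1 | h1
  · exact ⟨_, H.E_shift h1⟩
  · exact ⟨_, h1⟩

/-- circle points have one of the colours `a`, `e` -/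
lemma circle_ne {s : ℝ} : J U (x + uv s) ≠ {b, d} := by
  intro hs
  have h1 : s ∈ closure (Sol U e x ∪ (Sol U a x ∩ Sol U c x)) := H.dense_union s
  rw [closure_union] at h1
  rcases h1 with h1 | h1
  · have h2 : e ∈ J U (x + uv s) := mem_J.2 (closure_Sol_subset e x h1)
    rw [hs] at h2
    simp only [Finset.mem_insert, Finset.mem_singleton] at h2
    rcases h2 with h2 | h2
    · exact H.ne_be h2.symm
    · exact H.ne_de h2.symm
  · have h2 : a ∈ J U (x + uv s) :=
      mem_J.2 (closure_Sol_subset a x (closure_mono inter_subset_left h1))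
    rw [hs] at h2
    simp only [Finset.mem_insert, Finset.mem_singleton] at h2
    rcases h2 with h2 | h2
    · exact H.ne_ab h2
    · exact H.ne_ad h2

/-- the wedge at a generic angle -/
lemma wedge {v : ℝ} (hv : v ∈ Sol U e x ∪ (Sol U a x ∩ Sol U c x)) :
    ∀ᶠ r in 𝓝 (0 : ℝ), r ≠ 0 → J U (x + uv (v + r) - uv (v - r)) ⊆ {b, d} := by
  have hc := continuous_uv'
  have h1 : ∀ᶠ r in 𝓝 (0 : ℝ), e ∉ J U (x + uv (v + r) - uv (v - r)) := by
    have hcc : Continuous (fun r : ℝ => x + uv (v + r) - uv (v - r)) := by fun_prop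
    have h0 : Tendsto (fun r : ℝ => x + uv (v + r) - uv (v - r)) (𝓝 0) (𝓝 x) := by
      have := hcc.tendsto 0
      simpa using this
    exact (h0.eventually H.near_x).mono fun r hr => hr.1
  have h2 : ∀ᶠ r in 𝓝 (0 : ℝ), r ≠ 0 → Real.sin ((v + r) - (v - r)) ≠ 0 := by
    have h3 : ∀ᶠ r in 𝓝 (0 : ℝ), |r| < 1 := by
      have : Continuous (fun r : ℝ => |r|) := continuous_abs
      exact this.continuousAt.eventually_lt continuousAt_const (by simp)
    filter_upwards [h3] with r hr hr0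
    rw [show (v + r) - (v - r) = 2 * r by ring]
    have hpi := Real.pi_gt_three
    rw [abs_lt] at hr
    intro hsin
    rw [Real.sin_eq_zero_iff_of_lt_of_lt (by linarith [hr.1]) (by linarith [hr.2])] at hsin
    exact hr0 (by linarith)
  rcases hv with hv | hv
  · have h4 : ∀ᶠ r in 𝓝 (0 : ℝ), v - r ∈ Sol U e x := by
      have hcc : Continuous (fun r : ℝ => v - r) := by fun_prop
      apply hcc.continuousAt.eventually_mem
      rw [sub_zero]
      exact (isOpen_Sol).mem_nhds hv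
    filter_upwards [h1, h2, h4] with r hr1 hr2 hr4 hr0
    have h5 := H.E_shift3 hr4
    refine H.subset_bd (fun hk => ?_) (fun hk => ?_) hr1
    · exact (H.cov.P5 (hr2 hr0) (mem_J.1 hk)).2 h5.1
    · exact (H.cov.P5 (hr2 hr0) (mem_J.1 hk)).2 h5.2
  · have h4 : ∀ᶠ r in 𝓝 (0 : ℝ), v + r ∈ Sol U a x ∩ Sol U c x := by
      have hcc : Continuous (fun r : ℝ => v + r) := by fun_prop
      apply hcc.continuousAt.eventually_mem
      rw [add_zero]
      exact isOpen_A.mem_nhds hv
    filter_upwards [h1, h2, h4] with r hr1 hr2 hr4 hr0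
    refine H.subset_bd (fun hk => ?_) (fun hk => ?_) hr1
    · exact (H.cov.P5 (hr2 hr0) (mem_J.1 hk)).1 hr4.1
    · exact (H.cov.P5 (hr2 hr0) (mem_J.1 hk)).1 hr4.2

/-- no `bd`-point near the unit circle -/
lemma no_pair (s : ℝ) : ∀ᶠ q in 𝓝 (x + uv s), J U q ≠ {b, d} := by
  obtain ⟨v, hv, hvs⟩ : ∃ v ∈ Sol U e x ∪ (Sol U a x ∩ Sol U c x), Real.sin (v - s) ≠ 0 := by
    obtain ⟨v, hv⟩ := H.A_nonempty
    by_cases h0 : Real.sin (v - s) = 0
    · refine ⟨v + π / 3, Or.inl (H.A_shift hv), ?_⟩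
      rw [show v + π / 3 - s = (v - s) + π / 3 by ring, Real.sin_add, h0, zero_mul, zero_add]
      have h1 : Real.cos (v - s) ≠ 0 := by
        intro h2
        have := Real.sin_sq_add_cos_sq (v - s)
        rw [h0, h2] at this
        norm_num at this
      exact mul_ne_zero h1 (by rw [Real.sin_pi_div_three]; positivity)
    · exact ⟨v, Or.inr hv, h0⟩
  obtain ⟨ρ, hρ, hw⟩ := Metric.eventually_nhds_iff.1 (H.wedge hv)
  filter_upwards [exists_cross (x := x) hvs hρ] with q hq hJq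
  obtain ⟨r, hr, hd, hr0⟩ := hq
  have hqx : dist q x ≠ 1 := by
    intro hqx
    have hn : ‖q - x‖ = 1 := by rw [← dist_eq_norm]; exact hqx
    have h1 : q = x + uv (Complex.arg (q - x)) := by
      have h2 := Complex.norm_mul_exp_arg_mul_I (q - x)
      rw [hn] at h2
      simp only [Complex.ofReal_one, one_mul] at h2
      rw [uv, h2]
      ring
    rw [h1] at hJq
    exact H.circle_ne hJq
  have h3 := hw (y := r) (by rw [Real.dist_eq, sub_zero]; exact hr) (hr0 hqx)
  obtain ⟨k, hk, hkb, hkd⟩ := H.cov.exists_other hJq hd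
  have := h3 hk
  simp only [Finset.mem_insert, Finset.mem_singleton] at this
  tauto

/-- a transition angle `A | E` -/
lemma exists_transition : ∃ t δ : ℝ, 0 < δ ∧ Ioo (t - δ) t ⊆ Sol U a x ∩ Sol U c x ∧
    ∃ᶠ q in 𝓝[>] t, q ∈ Sol U e x := by
  obtain ⟨t₁, ht₁⟩ := H.A_nonempty
  set A := Sol U a x ∩ Sol U c x with hAdef
  have hAo : IsOpen A := isOpen_A
  set S := Aᶜ ∩ Ici t₁ with hS
  have hSc : IsClosed S := hAo.isClosed_compl.inter isClosed_Ici
  have hSne : S.Nonempty := by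
    refine ⟨t₁ + π / 3, ?_, ?_⟩
    · intro hc
      exact Set.disjoint_left.1 H.disj (H.A_shift ht₁) hc
    · have := Real.pi_pos
      change t₁ ≤ t₁ + π / 3
      linarith [this, div_pos this (by norm_num : (0:ℝ) < 3)]
  have hSb : BddBelow S := ⟨t₁, fun s hs => hs.2⟩
  set t := sInf S with ht
  have htS : t ∈ S := hSc.csInf_mem hSne hSb
  have htt : t₁ < t := by
    rcases (lt_or_eq_of_le (show t₁ ≤ t from htS.2)) with h1 | h1
    · exact h1
    · exact absurd (h1 ▸ ht₁) htS.1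
  have hsub : Ioo (t - (t - t₁)) t ⊆ A := by
    intro s hs
    by_contra hcon
    have : t ≤ s := csInf_le hSb ⟨hcon, by have := hs.1; change t₁ ≤ s; linarith⟩
    exact absurd hs.2 (not_lt.2 this)
  refine ⟨t, t - t₁, by linarith, hsub, ?_⟩
  by_contra hcon
  rw [not_frequently] at hcon
  obtain ⟨u, hu, hu'⟩ := (mem_nhdsGT_iff_exists_Ioo_subset).1 hcon
  have hu0 : t < u := hu
  have h1 : Ioo t u ⊆ A := by
    refine H.A_of_disjoint isOpen_Ioo ?_
    rw [Set.disjoint_left]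
    intro s hs hs'
    exact hu' hs hs'
  have h2 : Ioo t₁ u ⊆ closure A := by
    intro s hs
    rcases lt_trichotomy s t with h3 | h3 | h3
    · exact subset_closure (hsub ⟨by linarith [hs.1], h3⟩)
    · rw [h3]
      have h4 : t ∈ closure (Ioo t u) := by
        rw [closure_Ioo hu0.ne]
        exact left_mem_Icc.2 hu0.le
      exact closure_mono h1 h4
    · exact subset_closure (h1 ⟨h3, hs.2⟩)
  have h3 : Ioo t₁ u ⊆ A := fun s hs =>
    ⟨subset_Sol_of_subset_closure isOpen_Ioo (h2.trans (closure_mono inter_subset_left)) hs,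
      subset_Sol_of_subset_closure isOpen_Ioo (h2.trans (closure_mono inter_subset_right)) hs⟩
  exact htS.1 (h3 ⟨htt, hu0⟩)

lemma mixed_sub {p q : ℝ} (hs : Real.sin (p - (q + 2 * π / 3)) ≠ 0)
    (hp : (p ∈ Sol U a x ∩ Sol U c x ∧ q ∈ Sol U e x) ∨
      (p ∈ Sol U e x ∧ q ∈ Sol U a x ∩ Sol U c x)) :
    J U (x + uv p + uv (q + 2 * π / 3)) ⊆ {b, d} := by
  rcases hp with ⟨hp, hq⟩ | ⟨hp, hq⟩
  · refine H.subset_bd (fun hk => ?_) (fun hk => ?_) (fun hk => ?_)
    · exact (H.cov.R hs (mem_J.1 hk)).1 hp.1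
    · exact (H.cov.R hs (mem_J.1 hk)).1 hp.2
    · exact (H.cov.R hs (mem_J.1 hk)).2 (H.E_shift2 hq)
  · refine H.subset_bd (fun hk => ?_) (fun hk => ?_) (fun hk => ?_)
    · exact (H.cov.R hs (mem_J.1 hk)).2 (H.A_shift2 hq).1
    · exact (H.cov.R hs (mem_J.1 hk)).2 (H.A_shift2 hq).2
    · exact (H.cov.R hs (mem_J.1 hk)).1 hp

lemma sep_at {t δ : ℝ} (hδ : 0 < δ) (hA : Ioo (t - δ) t ⊆ Sol U a x ∩ Sol U c x)
    (hE : ∃ᶠ q in 𝓝[>] t, q ∈ Sol U e x) :
    ∃ k k' : Fin 5, ((k = b ∧ k' = d) ∨ (k = d ∧ k' = b)) ∧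
      (∀ᶠ z in 𝓝 x, z ∈ F U k → dist z (x + uv (t + π / 3)) ≤ 1) ∧
      (∀ᶠ z in 𝓝 x, z ∈ F U k' → 1 ≤ dist z (x + uv (t + π / 3))) := by
  have hN : ∀ᶠ pq in 𝓝 ((t, t) : ℝ × ℝ), J U (x + uv pq.1 + uv (pq.2 + 2 * π / 3)) ≠ {b, d} := by
    have h1 := (continuous_mixed x).tendsto (t, t)
    simp only [mixed_diag] at h1
    exact h1.eventually (H.no_pair (t + π / 3))
  obtain ⟨η, hη, hN'⟩ := Metric.eventually_nhds_iff.1 hN
  have hN2 : ∀ p q : ℝ, |p - t| < η → |q - t| < η →
      J U (x + uv p + uv (q + 2 * π / 3)) ≠ {b, d} := by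
    intro p q hp hq
    refine hN' (y := (p, q)) ?_
    rw [Prod.dist_eq]
    exact max_lt hp hq
  set δ' := min δ (min η (1 / 2)) with hδ'
  have hδ0 : 0 < δ' := lt_min hδ (lt_min hη (by norm_num))
  have hδ1 : δ' ≤ δ := min_le_left _ _
  have hδ2 : δ' ≤ η := (min_le_right _ _).trans (min_le_left _ _)
  have hδ3 : δ' ≤ 1 / 2 := (min_le_right _ _).trans (min_le_right _ _)
  have hpi := Real.pi_gt_three
  have hpi4 := Real.pi_le_four
  have hE' : ∃ᶠ q in 𝓝[>] t, q ∈ Sol U e x ∧ q ∈ Ioo t (t + δ') :=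
    hE.and_eventually (Ioo_mem_nhdsGT (by linarith))
  -- inside
  have hin : ∃ᶠ q in 𝓝[>] t, ∃ k, (k = b ∨ k = d) ∧
      ∀ p ∈ Ioo (t - δ') t, x + uv p + uv (q + 2 * π / 3) ∈ U k := by
    refine hE'.mono ?_
    rintro q ⟨hqE, hq1, hq2⟩
    have hpre : IsPreconnected ((fun p : ℝ => x + uv p + uv (q + 2 * π / 3)) '' Ioo (t - δ') t) := by
      refine isPreconnected_Ioo.image _ ?_
      have := continuous_uv'
      fun_prop
    have hsub : ∀ z ∈ (fun p : ℝ => x + uv p + uv (q + 2 * π / 3)) '' Ioo (t - δ') t,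
        J U z ⊆ {b, d} ∧ J U z ≠ {b, d} := by
      rintro _ ⟨p, hp, rfl⟩
      constructor
      · refine H.mixed_sub ?_ (Or.inl ⟨hA ⟨by linarith [hp.1], hp.2⟩, hqE⟩)
        have h1 : Real.sin (p - (q + 2 * π / 3)) < 0 :=
          Real.sin_neg_of_neg_of_neg_pi_lt (by linarith [hp.2]) (by linarith [hp.1])
        exact h1.ne
      · refine hN2 p q ?_ ?_
        · rw [abs_lt]; constructor <;> linarith [hp.1, hp.2]
        · rw [abs_lt]; constructor <;> linarith
    rcases H.cov.mono_two hpre (fun z hz => (hsub z hz).1) (fun z hz => (hsub z hz).2) with h1 | h1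
    · exact ⟨b, Or.inl rfl, fun p hp => h1 ⟨p, hp, rfl⟩⟩
    · exact ⟨d, Or.inr rfl, fun p hp => h1 ⟨p, hp, rfl⟩⟩
  -- outside
  have hout : ∃ᶠ p in 𝓝[>] t, ∃ k, (k = b ∨ k = d) ∧
      ∀ q ∈ Ioo (t - δ') t, x + uv p + uv (q + 2 * π / 3) ∈ U k := by
    refine hE'.mono ?_
    rintro p ⟨hpE, hp1, hp2⟩
    have hpre : IsPreconnected ((fun q : ℝ => x + uv p + uv (q + 2 * π / 3)) '' Ioo (t - δ') t) := by
      refine isPreconnected_Ioo.image _ ?_
      have := continuous_uv'
      fun_prop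
    have hsub : ∀ z ∈ (fun q : ℝ => x + uv p + uv (q + 2 * π / 3)) '' Ioo (t - δ') t,
        J U z ⊆ {b, d} ∧ J U z ≠ {b, d} := by
      rintro _ ⟨q, hq, rfl⟩
      constructor
      · refine H.mixed_sub ?_ (Or.inr ⟨hpE, hA ⟨by linarith [hq.1], hq.2⟩⟩)
        have h1 : Real.sin (p - (q + 2 * π / 3)) < 0 :=
          Real.sin_neg_of_neg_of_neg_pi_lt (by linarith [hq.1]) (by linarith [hq.2])
        exact h1.ne
      · refine hN2 p q ?_ ?_
        · rw [abs_lt]; constructor <;> linarith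
        · rw [abs_lt]; constructor <;> linarith [hq.1, hq.2]
    rcases H.cov.mono_two hpre (fun z hz => (hsub z hz).1) (fun z hz => (hsub z hz).2) with h1 | h1
    · exact ⟨b, Or.inl rfl, fun q hq => h1 ⟨q, hq, rfl⟩⟩
    · exact ⟨d, Or.inr rfl, fun q hq => h1 ⟨q, hq, rfl⟩⟩
  obtain ⟨k, hk⟩ := frequently_exists_fin hin
  obtain ⟨k', hk'⟩ := frequently_exists_fin hout
  have hkbd : k = b ∨ k = d := hk.exists.choose_spec.1
  have hkbd' : k' = b ∨ k' = d := hk'.exists.choose_spec.1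
  have hs1 := sep_minus H.cov (x := x) (k := k) (t := t) hδ0 nhdsWithin_le_nhds
    (hk.mono fun q hq => hq.2)
  have hs2 := sep_plus H.cov (x := x) (k := k') (t := t) hδ0 nhdsWithin_le_nhds
    (hk'.mono fun q hq => hq.2)
  refine ⟨k, k', ?_, hs1, hs2⟩
  have hbJ : b ∈ J U x := by rw [H.hJ]; simp
  have hdJ : d ∈ J U x := by rw [H.hJ]; simp
  rcases hkbd with rfl | rfl <;> rcases hkbd' with rfl | rfl
  · exact (sep_ne H.cov hbJ hs1 hs2).elim
  · exact Or.inl ⟨rfl, rfl⟩
  · exact Or.inr ⟨rfl, rfl⟩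
  · exact (sep_ne H.cov hdJ hs1 hs2).elim

omit H in
lemma dist_sq_wedge (x : ℂ) (v r θ : ℝ) :
    dist (x + uv (v + r) - uv (v - r)) (x + uv θ) ^ 2
      = 1 + 4 * Real.sin r * (Real.sin r - Real.sin (θ - v)) := by
  rw [dist_eq_norm, Complex.sq_norm, Complex.normSq_apply]
  simp only [Complex.add_re, Complex.add_im, Complex.sub_re, Complex.sub_im, uv_re, uv_im]
  rw [Real.cos_add, Real.cos_sub, Real.sin_add, Real.sin_sub, Real.sin_sub]
  have h1 := Real.sin_sq_add_cos_sq v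
  have h2 := Real.sin_sq_add_cos_sq θ
  linear_combination (4 * Real.sin r ^ 2) * h1 + h2

omit H in
lemma wedge_inside (x : ℂ) {v θ : ℝ} (hs : 0 < Real.sin (θ - v)) :
    ∀ᶠ r in 𝓝[>] (0 : ℝ), dist (x + uv (v + r) - uv (v - r)) (x + uv θ) < 1 := by
  have h1 : ∀ᶠ r in 𝓝[>] (0 : ℝ), Real.sin r < Real.sin (θ - v) := by
    refine Filter.Eventually.filter_mono nhdsWithin_le_nhds ?_
    exact Real.continuous_sin.continuousAt.eventually_lt continuousAt_const (by simpa using hs)
  have h2 : ∀ᶠ r in 𝓝[>] (0 : ℝ), r ∈ Ioo (0 : ℝ) 1 := Ioo_mem_nhdsGT one_pos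
  filter_upwards [h1, h2] with r hr1 hr2
  have hpi := Real.pi_gt_three
  have hsr : 0 < Real.sin r := Real.sin_pos_of_pos_of_lt_pi hr2.1 (by linarith [hr2.2])
  have h3 := dist_sq_wedge x v r θ
  have h4 : dist (x + uv (v + r) - uv (v - r)) (x + uv θ) ^ 2 < 1 ^ 2 := by
    rw [h3]
    nlinarith
  exact lt_of_pow_lt_pow_left₀ 2 zero_le_one h4

omit H in
lemma wedge_outside (x : ℂ) {v θ : ℝ} (hs : Real.sin (θ - v) < 0) :
    ∀ᶠ r in 𝓝[>] (0 : ℝ), 1 < dist (x + uv (v + r) - uv (v - r)) (x + uv θ) := by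
  have h2 : ∀ᶠ r in 𝓝[>] (0 : ℝ), r ∈ Ioo (0 : ℝ) 1 := Ioo_mem_nhdsGT one_pos
  filter_upwards [h2] with r hr2
  have hpi := Real.pi_gt_three
  have hsr : 0 < Real.sin r := Real.sin_pos_of_pos_of_lt_pi hr2.1 (by linarith [hr2.2])
  have h3 := dist_sq_wedge x v r θ
  have h4 : 1 ^ 2 < dist (x + uv (v + r) - uv (v - r)) (x + uv θ) ^ 2 := by
    rw [h3]
    nlinarith
  exact lt_of_pow_lt_pow_left₀ 2 dist_nonneg h4

theorem false : False := by
  obtain ⟨t, δ, hδ, hA, hE⟩ := H.exists_transition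
  obtain ⟨k, k', hkk, hk, hk'⟩ := H.sep_at hδ hA hE
  have hA2 : Ioo (t + 2 * π / 3 - δ) (t + 2 * π / 3) ⊆ Sol U a x ∩ Sol U c x := by
    intro s hs
    have h1 := H.A_shift2 (hA (show s - 2 * π / 3 ∈ Ioo (t - δ) t from
      ⟨by linarith [hs.1], by linarith [hs.2]⟩))
    rwa [sub_add_cancel] at h1
  have hE2 : ∃ᶠ q in 𝓝[>] (t + 2 * π / 3), q ∈ Sol U e x := by
    rw [frequently_nhdsWithin_iff] at hE ⊢
    have hmap : Tendsto (fun s : ℝ => s + 2 * π / 3) (𝓝 t) (𝓝 (t + 2 * π / 3)) := by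
      have : Continuous (fun s : ℝ => s + 2 * π / 3) := by fun_prop
      exact this.tendsto t
    refine hmap.frequently (hE.mono ?_)
    rintro q ⟨hq1, hq2⟩
    refine ⟨H.E_shift2 hq1, ?_⟩
    change t + 2 * π / 3 < q + 2 * π / 3
    have : t < q := hq2
    linarith
  obtain ⟨l, l', hll, hl, hl'⟩ := H.sep_at hδ hA2 hE2
  have hpi := Real.pi_pos
  -- the two directions
  obtain ⟨v₁, hv₁, hv₁'⟩ := H.dense_union.inter_open_nonempty
    (Ioo t (t + π / 3)) isOpen_Ioo (nonempty_Ioo.2 (by linarith))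
  obtain ⟨v₂, hv₂, hv₂'⟩ := H.dense_union.inter_open_nonempty
    (Ioo (t - 2 * π / 3) t) isOpen_Ioo (nonempty_Ioo.2 (by linarith))
  have key : ∀ v : ℝ, v ∈ Sol U e x ∪ (Sol U a x ∩ Sol U c x) →
      ∀ᶠ r in 𝓝[>] (0 : ℝ), (∃ m ∈ J U (x + uv (v + r) - uv (v - r)), m = b ∨ m = d) ∧
        (x + uv (v + r) - uv (v - r) ∈ F U k →
          dist (x + uv (v + r) - uv (v - r)) (x + uv (t + π / 3)) ≤ 1) ∧
        (x + uv (v + r) - uv (v - r) ∈ F U k' →
          1 ≤ dist (x + uv (v + r) - uv (v - r)) (x + uv (t + π / 3))) ∧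
        (x + uv (v + r) - uv (v - r) ∈ F U l →
          dist (x + uv (v + r) - uv (v - r)) (x + uv (t + 2 * π / 3 + π / 3)) ≤ 1) ∧
        (x + uv (v + r) - uv (v - r) ∈ F U l' →
          1 ≤ dist (x + uv (v + r) - uv (v - r)) (x + uv (t + 2 * π / 3 + π / 3))) := by
    intro v hv
    have h0 : Tendsto (fun r : ℝ => x + uv (v + r) - uv (v - r)) (𝓝[>] 0) (𝓝 x) := by
      have := continuous_uv'
      have hcc : Continuous (fun r : ℝ => x + uv (v + r) - uv (v - r)) := by fun_prop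
      have h1 := hcc.tendsto 0
      simp only [add_zero, sub_zero, add_sub_cancel_right] at h1
      exact h1.mono_left nhdsWithin_le_nhds
    have hw : ∀ᶠ r in 𝓝[>] (0 : ℝ), r ≠ 0 → J U (x + uv (v + r) - uv (v - r)) ⊆ {b, d} :=
      (H.wedge hv).filter_mono nhdsWithin_le_nhds
    filter_upwards [hw, self_mem_nhdsWithin, h0.eventually hk, h0.eventually hk',
      h0.eventually hl, h0.eventually hl'] with r hr1 hr2 hr3 hr4 hr5 hr6
    refine ⟨?_, hr3, hr4, hr5, hr6⟩
    obtain ⟨m, hm⟩ := H.cov.J_nonempty (x + uv (v + r) - uv (v - r))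
    have h2 := hr1 (ne_of_gt hr2) hm
    simp only [Finset.mem_insert, Finset.mem_singleton] at h2
    exact ⟨m, hm, h2⟩
  have hbd := H.ne_bd
  -- first direction: both centres inside
  have e1 : k = l := by
    have i1 := wedge_inside x (v := v₁) (θ := t + π / 3)
      (Real.sin_pos_of_pos_of_lt_pi (by linarith [hv₁.2]) (by linarith [hv₁.1]))
    have i2 := wedge_inside x (v := v₁) (θ := t + 2 * π / 3 + π / 3)
      (Real.sin_pos_of_pos_of_lt_pi (by linarith [hv₁.2]) (by linarith [hv₁.1]))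
    obtain ⟨r, ⟨⟨m, hm, hmbd⟩, h1, h2, h3, h4⟩, h5, h6⟩ := ((key v₁ hv₁').and (i1.and i2)).exists
    have n1 : m ≠ k' := by
      rintro rfl
      exact absurd (h2 (mem_J.1 hm)) (not_le.2 h5)
    have n2 : m ≠ l' := by
      rintro rfl
      exact absurd (h4 (mem_J.1 hm)) (not_le.2 h6)
    rcases hkk with ⟨rfl, rfl⟩ | ⟨rfl, rfl⟩ <;> rcases hll with ⟨rfl, rfl⟩ | ⟨rfl, rfl⟩ <;>
      rcases hmbd with rfl | rfl <;> simp_all
  have e2 : k ≠ l := by
    have i1 := wedge_inside x (v := v₂) (θ := t + π / 3)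
      (Real.sin_pos_of_pos_of_lt_pi (by linarith [hv₂.2]) (by linarith [hv₂.1]))
    have i2 := wedge_outside x (v := v₂) (θ := t + 2 * π / 3 + π / 3) (by
      have h1 : 0 < Real.sin (t + 2 * π / 3 + π / 3 - v₂ - π) :=
        Real.sin_pos_of_pos_of_lt_pi (by linarith [hv₂.2]) (by linarith [hv₂.1])
      rw [Real.sin_sub_pi] at h1
      linarith)
    obtain ⟨r, ⟨⟨m, hm, hmbd⟩, h1, h2, h3, h4⟩, h5, h6⟩ := ((key v₂ hv₂').and (i1.and i2)).exists
    have n1 : m ≠ k' := by
      rintro rfl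
      exact absurd (h2 (mem_J.1 hm)) (not_le.2 h5)
    have n2 : m ≠ l := by
      rintro rfl
      exact absurd (h3 (mem_J.1 hm)) (not_le.2 h6)
    rcases hkk with ⟨rfl, rfl⟩ | ⟨rfl, rfl⟩ <;> rcases hll with ⟨rfl, rfl⟩ | ⟨rfl, rfl⟩ <;>
      rcases hmbd with rfl | rfl <;> simp_all
  exact e2 e1

end Alt

/-- one half of III (b) -/
theorem half (h : Cov U) {x : ℂ} {a b c d e : Fin 5} (hn : [a, b, c, d, e].Nodup)
    (hJ : J U x = {a, b, c, d}) (hab : Acc U x a b) (hbc : Acc U x b c) (hcd : Acc U x c d)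
    (hda : Acc U x d a) (hbd : ¬ Acc U x b d) : (Sol U b x ∩ Sol U d x).Nonempty := by
  by_contra hcon
  have H : Alt U x a b c d e := by
    refine ⟨h, hn, hJ, hbd, ?_⟩
    intro t ht
    have five : ∀ k : Fin 5, k = a ∨ k = b ∨ k = c ∨ k = d ∨ k = e := by
      revert hn
      clear hcon hda hcd hbc hab hJ hbd
      revert a b c d e
      decide
    by_cases heS : e ∈ J U (x + uv t)
    · exact Or.inl ((mem_Sol_iff ht).2 heS)
    right
    have hdist : dist (x + uv t) x = 1 := by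
      rw [dist_eq_norm, add_sub_cancel_left, norm_uv]
    have hcard := h.genC_card ht
    have hne := h.J_nonempty (x + uv t)
    have hpos := Finset.card_pos.2 hne
    have hsing : ∀ k, k ≠ e → J U (x + uv t) ≠ {k} := by
      intro k hk hS
      have h1 := h.single_not_mem hS.subset hdist
      apply h1
      rw [hJ]
      rcases five k with rfl | rfl | rfl | rfl | rfl <;> simp_all
    have hpair : ∀ i j, Acc U x i j → J U (x + uv t) ≠ {i, j} := by
      intro i j hij hS
      exact h.not_acc hS.subset hdist hij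
    have hac' : J U (x + uv t) = {a, c} := by
      rcases (show (J U (x + uv t)).card = 1 ∨ (J U (x + uv t)).card = 2 by omega) with h1 | h1
      · obtain ⟨k, hk⟩ := Finset.card_eq_one.1 h1
        by_cases hke : k = e
        · exfalso; apply heS; rw [hk, hke]; simp
        · exact absurd hk (hsing k hke)
      · obtain ⟨i, j, hij, hS⟩ := Finset.card_eq_two.1 h1
        have hbd' : J U (x + uv t) ≠ {b, d} := by
          intro hS'
          apply hcon
          refine ⟨t, (mem_Sol_iff ht).2 ?_, (mem_Sol_iff ht).2 ?_⟩ <;> rw [hS'] <;> simp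
        have q1 := hpair a b hab
        have q2 := hpair b c hbc
        have q3 := hpair c d hcd
        have q4 := hpair d a hda
        have hi : i ≠ e := by rintro rfl; apply heS; rw [hS]; simp
        have hj : j ≠ e := by rintro rfl; apply heS; rw [hS]; simp
        rw [hS] at q1 q2 q3 q4 hbd' ⊢
        rcases five i with h2 | h2 | h2 | h2 | h2 <;> rcases five j with h3 | h3 | h3 | h3 | h3 <;>
          subst h2 <;> subst h3 <;>
          first
          | exact absurd rfl hij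
          | exact absurd rfl hi
          | exact absurd rfl hj
          | rfl
          | exact Finset.pair_comm _ _
          | exact absurd rfl q1
          | exact absurd rfl q2
          | exact absurd rfl q3
          | exact absurd rfl q4
          | exact absurd rfl hbd'
          | exact absurd (Finset.pair_comm _ _) q1
          | exact absurd (Finset.pair_comm _ _) q2
          | exact absurd (Finset.pair_comm _ _) q3
          | exact absurd (Finset.pair_comm _ _) q4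
          | exact absurd (Finset.pair_comm _ _) hbd'
    exact ⟨(mem_Sol_iff ht).2 (by rw [hac']; simp), (mem_Sol_iff ht).2 (by rw [hac']; simp)⟩
  exact H.false

/-- **III (b)** -/
theorem III_b (h : Cov U) {x : ℂ} {a b c d e : Fin 5} (hn : [a, b, c, d, e].Nodup)
    (hJ : J U x = {a, b, c, d}) (hab : Acc U x a b) (hbc : Acc U x b c) (hcd : Acc U x c d)
    (hda : Acc U x d a) (hac : ¬ Acc U x a c) (hbd : ¬ Acc U x b d) :
    (Sol U a x ∩ Sol U c x).Nonempty ∧ (Sol U b x ∩ Sol U d x).Nonempty := by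
  refine ⟨?_, half h hn hJ hab hbc hcd hda hbd⟩
  have hn' : [b, c, d, a, e].Nodup := by
    simp only [List.nodup_cons, List.mem_cons, List.not_mem_nil, or_false, not_or] at hn ⊢
    tauto
  have hJ' : J U x = {b, c, d, a} := by
    rw [hJ]
    ext k
    simp only [Finset.mem_insert, Finset.mem_singleton]
    tauto
  have hac' : ¬ Acc U x c a := by
    intro h1
    apply hac
    unfold Acc at h1 ⊢
    rwa [Finset.pair_comm] at h1
  have := half h hn' hJ' hbc hcd hda hab hac'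
  rwa [inter_comm] at this

end

end Crest.Agent.R40.T3.C4b
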