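import Crest.Agent.R40.T3Pal

/-!
# R40 / T3 : circle calculus (angles on the unit circle about a point)
-/

set_option autoImplicit false

open Set Metric Topology Filter

namespace Crest.Agent.R40.T3

/-- The unit vector of angle `t`. -/
noncomputable def uv (t : ℝ) : ℂ := Complex.exp (t * Complex.I)

lemma continuous_uv : Continuous uv := by
  unfold uv; fun_prop

@[simp] lemma norm_uv (t : ℝ) : ‖uv t‖ = 1 := Complex.norm_exp_ofReal_mul_I t

lemma uv_re (t : ℝ) : (uv t).re = Real.cos t := Complex.exp_ofReal_mul_I_re t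

lemma uv_im (t : ℝ) : (uv t).im = Real.sin t := Complex.exp_ofReal_mul_I_im t


lemma uv_add (s t : ℝ) : uv (s + t) = uv s * uv t := by
  unfold uv; rw [← Complex.exp_add]; push_cast; ring_nf

lemma uv_add_pi (t : ℝ) : uv (t + Real.pi) = -uv t := by
  apply Complex.ext <;> simp [uv_re, uv_im]


lemma uv_add_two_pi (t : ℝ) : uv (t + 2 * Real.pi) = uv t := by
  apply Complex.ext <;> simp [uv_re, uv_im]

lemma uv_add_int_two_pi (t : ℝ) (n : ℤ) : uv (t + n * (2 * Real.pi)) = uv t := by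
  apply Complex.ext <;> simp [uv_re, uv_im, Real.cos_add_int_mul_two_pi, Real.sin_add_int_mul_two_pi]

lemma uv_ne_zero (t : ℝ) : uv t ≠ 0 := by
  rw [← norm_ne_zero_iff, norm_uv]; exact one_ne_zero

lemma uv_eq_rot (x : ℂ) (t : ℝ) : x + uv t = rot x 1 t := by
  simp [rot, uv]

lemma uv_add_third (t : ℝ) : uv (t + Real.pi / 3) = uv t + uv (t + 2 * (Real.pi / 3)) := by
  have h1 : Real.cos (2 * (Real.pi / 3)) = -(1 / 2) := by
    rw [Real.cos_two_mul, Real.cos_pi_div_three]; norm_num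
  have h2 : Real.sin (2 * (Real.pi / 3)) = Real.sqrt 3 / 2 := by
    rw [Real.sin_two_mul, Real.cos_pi_div_three, Real.sin_pi_div_three]; ring
  apply Complex.ext
  · simp only [uv_re, Complex.add_re]
    rw [Real.cos_add, Real.cos_add, h1, h2, Real.cos_pi_div_three, Real.sin_pi_div_three]; ring
  · simp only [uv_im, Complex.add_im]
    rw [Real.sin_add, Real.sin_add, h1, h2, Real.cos_pi_div_three, Real.sin_pi_div_three]; ring

lemma uv_sub_third (t : ℝ) : uv (t - Real.pi / 3) = uv t + uv (t - 2 * (Real.pi / 3)) := by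
  have h1 : Real.cos (2 * (Real.pi / 3)) = -(1 / 2) := by
    rw [Real.cos_two_mul, Real.cos_pi_div_three]; norm_num
  have h2 : Real.sin (2 * (Real.pi / 3)) = Real.sqrt 3 / 2 := by
    rw [Real.sin_two_mul, Real.cos_pi_div_three, Real.sin_pi_div_three]; ring
  apply Complex.ext
  · simp only [uv_re, Complex.add_re]
    rw [Real.cos_sub, Real.cos_sub, h1, h2, Real.cos_pi_div_three, Real.sin_pi_div_three]; ring
  · simp only [uv_im, Complex.add_im]
    rw [Real.sin_sub, Real.sin_sub, h1, h2, Real.cos_pi_div_three, Real.sin_pi_div_three]; ring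

lemma dist_add_uv (x : ℂ) (t : ℝ) : dist (x + uv t) x = 1 := by
  rw [dist_eq_norm, add_sub_cancel_left, norm_uv]

/-- every point at distance one is of the form `x + uv t` -/
lemma exists_uv {x y : ℂ} (h : dist y x = 1) : ∃ t : ℝ, y = x + uv t := by
  refine ⟨Complex.arg (y - x), ?_⟩
  have h1 : ‖y - x‖ = 1 := by rw [← dist_eq_norm]; exact h
  have h2 := Complex.norm_mul_exp_arg_mul_I (y - x)
  rw [h1] at h2
  unfold uv
  rw [← sub_eq_iff_eq_add']
  simpa using h2.symm

/-- colour `k` holds on an interval of angles of the unit circle about `x` -/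
def Sol (U : Fin 5 → Set ℂ) (k : Fin 5) (x : ℂ) : Set ℝ := interior {t : ℝ | x + uv t ∈ F U k}

/-- generic angles -/
def GenC (U : Fin 5 → Set ℂ) (x : ℂ) : Set ℝ :=
  {t : ℝ | ∀ᶠ s in 𝓝 t, J U (x + uv s) = J U (x + uv t)}

/-- angles all of whose rotations by multiples of 60 degrees are generic -/
def GenW (U : Fin 5 → Set ℂ) (x : ℂ) : Set ℝ :=
  {t : ℝ | ∀ j : ℤ, t + j * (Real.pi / 3) ∈ GenC U x}

section
variable {U : Fin 5 → Set ℂ} {x : ℂ} {k : Fin 5}

lemma isOpen_Sol : IsOpen (Sol U k x) := isOpen_interior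

lemma sol_mem {t : ℝ} (ht : t ∈ Sol U k x) : x + uv t ∈ F U k := by
  have : t ∈ {t : ℝ | x + uv t ∈ F U k} := interior_subset ht
  exact this

lemma mem_Sol_of_eventually {t : ℝ} (ht : ∀ᶠ s in 𝓝 t, x + uv s ∈ F U k) : t ∈ Sol U k x :=
  mem_interior_iff_mem_nhds.2 ht

lemma eventually_of_mem_Sol {t : ℝ} (ht : t ∈ Sol U k x) : ∀ᶠ s in 𝓝 t, x + uv s ∈ F U k :=
  mem_interior_iff_mem_nhds.1 ht

lemma exists_Ioo_of_mem_Sol {t : ℝ} (ht : t ∈ Sol U k x) :
    ∃ δ > 0, ∀ s, |s - t| < δ → x + uv s ∈ F U k := by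
  obtain ⟨δ, hδ, h⟩ := Metric.eventually_nhds_iff.1 (eventually_of_mem_Sol ht)
  exact ⟨δ, hδ, fun s hs => h (by rwa [Real.dist_eq])⟩


lemma isOpen_GenC : IsOpen (GenC U x) := by
  rw [isOpen_iff_mem_nhds]
  intro t ht
  have ht' : ∀ᶠ s in 𝓝 t, J U (x + uv s) = J U (x + uv t) := ht
  filter_upwards [ht'.eventually_nhds, ht'] with s hs hs'
  show ∀ᶠ r in 𝓝 s, J U (x + uv r) = J U (x + uv s)
  filter_upwards [hs] with r hr
  rw [hr, hs']

lemma dense_GenC : Dense (GenC U x) := by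
  rw [dense_iff_inter_open]
  intro O hO hOn
  obtain ⟨t, ht, hg⟩ := exists_gen (U := U) {((x : ℂ), (1 : ℂ))} hO hOn
  refine ⟨t, ht, ?_⟩
  have := hg (x, 1) (by simp)
  show ∀ᶠ s in 𝓝 t, J U (x + uv s) = J U (x + uv t)
  have h2 : ∀ᶠ s in 𝓝 t, J U (rot x 1 s) = J U (rot x 1 t) := this
  filter_upwards [h2] with s hs
  rw [uv_eq_rot, uv_eq_rot, hs]

lemma gen_of_genC {t : ℝ} (ht : t ∈ GenC U x) : Gen U x 1 t := by
  have ht' : ∀ᶠ s in 𝓝 t, J U (x + uv s) = J U (x + uv t) := ht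
  show ∀ᶠ s in 𝓝 t, J U (rot x 1 s) = J U (rot x 1 t)
  filter_upwards [ht'] with s hs
  rw [← uv_eq_rot, ← uv_eq_rot, hs]

lemma genC_periodic {t c : ℝ} (hc : ∀ s : ℝ, uv (s + c) = uv s) (ht : t ∈ GenC U x) :
    t + c ∈ GenC U x := by
  have ht' : ∀ᶠ s in 𝓝 t, J U (x + uv s) = J U (x + uv t) := ht
  have hcont : Tendsto (fun s : ℝ => s - c) (𝓝 (t + c)) (𝓝 t) := by
    have : Continuous (fun s : ℝ => s - c) := by fun_prop
    have := this.tendsto (t + c)
    simpa using this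
  show ∀ᶠ s in 𝓝 (t + c), J U (x + uv s) = J U (x + uv (t + c))
  filter_upwards [hcont.eventually ht'] with s hs
  have := hc (s - c)
  rw [sub_add_cancel] at this
  rw [this, hc, hs]

lemma mem_Sol_iff {t : ℝ} (ht : t ∈ GenC U x) : t ∈ Sol U k x ↔ k ∈ J U (x + uv t) := by
  constructor
  · intro h
    exact mem_J.2 (sol_mem h)
  · intro h
    apply mem_Sol_of_eventually
    have ht' : ∀ᶠ s in 𝓝 t, J U (x + uv s) = J U (x + uv t) := ht
    filter_upwards [ht'] with s hs
    rw [← mem_J, hs]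
    exact h

/-- finitely many open dense conditions: rotations by multiples of 60 degrees -/
lemma mem_GenW_iff {t : ℝ} : t ∈ GenW U x ↔ ∀ j ∈ Finset.range 6,
    t + (j : ℝ) * (Real.pi / 3) ∈ GenC U x := by
  constructor
  · intro h j _
    have := h (j : ℤ)
    simpa using this
  · intro h j
    have h6 : j % 6 + 6 * (j / 6) = j := Int.emod_add_mul_ediv j 6
    have hnn : 0 ≤ j % 6 := Int.emod_nonneg _ (by norm_num)
    have hlt : j % 6 < 6 := Int.emod_lt_of_pos _ (by norm_num)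
    obtain ⟨m, hm⟩ := Int.eq_ofNat_of_zero_le hnn
    have hm6 : m < 6 := by omega
    have h1 := h m (Finset.mem_range.2 hm6)
    have h2 := genC_periodic (c := ((j / 6 : ℤ) : ℝ) * (2 * Real.pi))
      (fun s => uv_add_int_two_pi s _) h1
    have h3 : t + (m : ℝ) * (Real.pi / 3) + ((j / 6 : ℤ) : ℝ) * (2 * Real.pi)
        = t + (j : ℝ) * (Real.pi / 3) := by
      have : (j : ℝ) = (m : ℝ) + 6 * ((j / 6 : ℤ) : ℝ) := by
        have h4 : (j : ℤ) = (m : ℤ) + 6 * (j / 6) := by omega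
        exact_mod_cast h4
      rw [this]; ring
    rwa [h3] at h2


lemma dense_GenW : Dense (GenW U x) := by
  rw [dense_iff_inter_open]
  intro O hO hOn
  obtain ⟨t, ht, hg⟩ := exists_gen (U := U)
    ((Finset.range 6).image (fun j : ℕ => ((x : ℂ), uv ((j : ℝ) * (Real.pi / 3))))) hO hOn
  refine ⟨t, ht, mem_GenW_iff.2 fun j hj => ?_⟩
  have h1 := hg (x, uv ((j : ℝ) * (Real.pi / 3))) (Finset.mem_image_of_mem _ hj)
  have h2 : ∀ᶠ s in 𝓝 t, J U (rot x (uv ((j : ℝ) * (Real.pi / 3))) s)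
      = J U (rot x (uv ((j : ℝ) * (Real.pi / 3))) t) := h1
  have hrot : ∀ s : ℝ, rot x (uv ((j : ℝ) * (Real.pi / 3))) s = x + uv (s + (j : ℝ) * (Real.pi / 3)) := by
    intro s
    rw [uv_add]; rfl
  have hcont : Tendsto (fun s : ℝ => s - (j : ℝ) * (Real.pi / 3))
      (𝓝 (t + (j : ℝ) * (Real.pi / 3))) (𝓝 t) := by
    have : Continuous (fun s : ℝ => s - (j : ℝ) * (Real.pi / 3)) := by fun_prop
    have := this.tendsto (t + (j : ℝ) * (Real.pi / 3))
    simpa using this
  show ∀ᶠ s in 𝓝 (t + (j : ℝ) * (Real.pi / 3)), _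
  filter_upwards [hcont.eventually h2] with s hs
  rw [hrot, hrot, sub_add_cancel] at hs
  exact hs

lemma genW_subset_genC : GenW U x ⊆ GenC U x := by
  intro t ht
  simpa using ht 0

lemma genW_shift {t : ℝ} (ht : t ∈ GenW U x) (i : ℤ) : t + i * (Real.pi / 3) ∈ GenW U x := by
  intro j
  have := ht (i + j)
  convert this using 1
  push_cast
  ring

end

/-! ### The basic distance identity -/

lemma dist_sq_uv_add_uv' (x : ℂ) (t a b : ℝ) :
    dist (x + uv t) (x + uv a + uv b) ^ 2 =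
      3 + 2 * Real.cos (a - b) - 2 * Real.cos (t - a) - 2 * Real.cos (t - b) := by
  rw [dist_sq_eq_normSq]
  have h1 : x + uv t - (x + uv a + uv b) = uv t - uv a - uv b := by ring
  rw [h1, Complex.normSq_apply]
  simp only [Complex.sub_re, Complex.sub_im, uv_re, uv_im]
  rw [Real.cos_sub, Real.cos_sub, Real.cos_sub]
  have e1 := Real.sin_sq_add_cos_sq t
  have e2 := Real.sin_sq_add_cos_sq a
  have e3 := Real.sin_sq_add_cos_sq b
  linear_combination e1 + e2 + e3

/-- `|e^{iθ} - e^{iα} - e^{iβ}|² = 1 + 8 sin((θ-α)/2) sin((θ-β)/2) cos((α-β)/2)` -/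
lemma dist_sq_uv_add_uv (x : ℂ) (t a b : ℝ) :
    dist (x + uv t) (x + uv a + uv b) ^ 2 =
      1 + 8 * Real.sin ((t - a) / 2) * Real.sin ((t - b) / 2) * Real.cos ((a - b) / 2) := by
  rw [dist_sq_uv_add_uv']
  set A := (t - a) / 2 with hA
  set B := (t - b) / 2 with hB
  have ha : t - a = 2 * A := by rw [hA]; ring
  have hb : t - b = 2 * B := by rw [hB]; ring
  have hab : (a - b) / 2 = B - A := by rw [hA, hB]; ring
  have hab' : a - b = 2 * (B - A) := by rw [hA, hB]; ring
  rw [hab, hab', ha, hb, Real.cos_two_mul, Real.cos_two_mul, Real.cos_two_mul, Real.cos_sub]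
  have e2 := Real.sin_sq_add_cos_sq A
  have e3 := Real.sin_sq_add_cos_sq B
  have e2' : Real.cos A ^ 2 = 1 - Real.sin A ^ 2 := by linarith
  have e3' : Real.cos B ^ 2 = 1 - Real.sin B ^ 2 := by linarith
  have h1 : 4 * (Real.cos B * Real.cos A + Real.sin B * Real.sin A) ^ 2
      - 8 * Real.sin A * Real.sin B * (Real.cos B * Real.cos A + Real.sin B * Real.sin A)
      = 4 * (Real.cos A ^ 2 * Real.cos B ^ 2) - 4 * Real.sin A ^ 2 * Real.sin B ^ 2 := by ring
  have h2 : Real.cos A ^ 2 * Real.cos B ^ 2 = (1 - Real.sin A ^ 2) * (1 - Real.sin B ^ 2) := by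
    rw [e2', e3']
  rw [h2] at h1
  linear_combination h1 - 4 * e2 - 4 * e3

/-- Near `a` the half-angle sine changes sign. -/
lemma sin_half_pos {t a : ℝ} (h0 : a < t) (h1 : t < a + 2 * Real.pi) : 0 < Real.sin ((t - a) / 2) :=
  Real.sin_pos_of_pos_of_lt_pi (by linarith) (by linarith)

lemma sin_half_neg {t a : ℝ} (h0 : t < a) (h1 : a < t + 2 * Real.pi) : Real.sin ((t - a) / 2) < 0 :=
  Real.sin_neg_of_neg_of_neg_pi_lt (by linarith) (by linarith)

/-- crossing of the circle about `x` by the circle about `x + uv a + uv b` at `x + uv a` -/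
lemma exists_both_sides (x : ℂ) {a b : ℝ} (hs : Real.sin (a - b) ≠ 0) {δ : ℝ} (hδ : 0 < δ) :
    ∃ t t', |t - a| < δ ∧ |t' - a| < δ ∧ dist (x + uv t) (x + uv a + uv b) < 1 ∧
      1 < dist (x + uv t') (x + uv a + uv b) := by
  have h2 : Real.sin (a - b) = 2 * Real.sin ((a - b) / 2) * Real.cos ((a - b) / 2) := by
    have := Real.sin_two_mul ((a - b) / 2)
    rw [← this]; ring_nf
  set K : ℝ := Real.sin ((a - b) / 2) * Real.cos ((a - b) / 2) with hK
  have hK0 : K ≠ 0 := by
    intro h0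
    apply hs
    rw [h2, mul_assoc, ← hK, h0, mul_zero]
  -- the product `sin((t-b)/2) cos((a-b)/2)` has the sign of `K` near `a`
  have hcont : Tendsto (fun t : ℝ => (Real.sin ((t - b) / 2) * Real.cos ((a - b) / 2)) * K) (𝓝 a)
      (𝓝 (K * K)) := by
    have : Continuous (fun t : ℝ => (Real.sin ((t - b) / 2) * Real.cos ((a - b) / 2)) * K) := by
      fun_prop
    have := this.tendsto a
    rwa [← hK] at this
  have hev : ∀ᶠ t in 𝓝 a, 0 < (Real.sin ((t - b) / 2) * Real.cos ((a - b) / 2)) * K :=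
    hcont.eventually (lt_mem_nhds (mul_self_pos.2 hK0))
  obtain ⟨ε, hε, hev'⟩ := Metric.eventually_nhds_iff.1 hev
  set η : ℝ := min (min (δ / 2) (ε / 2)) 1 with hη
  have hη0 : 0 < η := lt_min (lt_min (by linarith) (by linarith)) one_pos
  have hηδ : η < δ := lt_of_le_of_lt ((min_le_left _ _).trans (min_le_left _ _)) (by linarith)
  have hηε : η < ε := lt_of_le_of_lt ((min_le_left _ _).trans (min_le_right _ _)) (by linarith)
  have hη1 : η ≤ 1 := min_le_right _ _
  have hpi := Real.pi_gt_three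
  have hp := hev' (y := a + η) (by rw [Real.dist_eq]; simpa [abs_of_pos hη0] using hηε)
  have hm := hev' (y := a - η) (by
    rw [Real.dist_eq, sub_sub_cancel_left, abs_neg, abs_of_pos hη0]; exact hηε)
  have sp : 0 < Real.sin ((a + η - a) / 2) := sin_half_pos (by linarith) (by linarith)
  have sm : Real.sin ((a - η - a) / 2) < 0 := sin_half_neg (by linarith) (by linarith)
  have dp := dist_sq_uv_add_uv x (a + η) a b
  have dm := dist_sq_uv_add_uv x (a - η) a b
  have np := dist_nonneg (x := x + uv (a + η)) (y := x + uv a + uv b)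
  have nm := dist_nonneg (x := x + uv (a - η)) (y := x + uv a + uv b)
  have ap : |a + η - a| < δ := by simpa [abs_of_pos hη0] using hηδ
  have am : |a - η - a| < δ := by rw [sub_sub_cancel_left, abs_neg, abs_of_pos hη0]; exact hηδ
  set X := Real.sin ((a + η - b) / 2) * Real.cos ((a - b) / 2) with hX
  set Y := Real.sin ((a - η - b) / 2) * Real.cos ((a - b) / 2) with hY
  have dp' : dist (x + uv (a + η)) (x + uv a + uv b) ^ 2
      = 1 + 8 * (Real.sin ((a + η - a) / 2) * X) := by rw [dp, hX]; ring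
  have dm' : dist (x + uv (a - η)) (x + uv a + uv b) ^ 2
      = 1 + 8 * (Real.sin ((a - η - a) / 2) * Y) := by rw [dm, hY]; ring
  rcases lt_or_gt_of_ne hK0 with hneg | hpos
  · have hXn : X < 0 := by nlinarith
    have hYn : Y < 0 := by nlinarith
    refine ⟨a + η, a - η, ap, am, ?_, ?_⟩
    · have : Real.sin ((a + η - a) / 2) * X < 0 := mul_neg_of_pos_of_neg sp hXn
      nlinarith
    · have : 0 < Real.sin ((a - η - a) / 2) * Y := mul_pos_of_neg_of_neg sm hYn
      nlinarith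
  · have hXn : 0 < X := by nlinarith
    have hYn : 0 < Y := by nlinarith
    refine ⟨a - η, a + η, am, ap, ?_, ?_⟩
    · have : Real.sin ((a - η - a) / 2) * Y < 0 := mul_neg_of_neg_of_pos sm hYn
      nlinarith
    · have : 0 < Real.sin ((a + η - a) / 2) * X := mul_pos sp hXn
      nlinarith

lemma isPreconnected_arc (x a : ℂ) (t δ : ℝ) :
    IsPreconnected ((fun s : ℝ => x + a * uv s) '' {s | |s - t| < δ}) := by
  have h1 : {s : ℝ | |s - t| < δ} = Ioo (t - δ) (t + δ) := by
    ext s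
    simp only [mem_ofPred_eq, mem_Ioo, abs_lt]
    constructor
    · rintro ⟨h1, h2⟩; constructor <;> linarith
    · rintro ⟨h1, h2⟩; constructor <;> linarith
  rw [h1]
  have hc := continuous_uv
  exact isPreconnected_Ioo.image _ (by fun_prop)

section
variable {U : Fin 5 → Set ℂ} {x : ℂ} {k : Fin 5}

namespace Cov
variable (h : Cov U)
include h

theorem R {a b : ℝ} (hs : Real.sin (a - b) ≠ 0) (hp : x + uv a + uv b ∈ F U k) :
    a ∉ Sol U k x ∧ b ∉ Sol U k x := by
  have key : ∀ {a b : ℝ}, Real.sin (a - b) ≠ 0 → x + uv a + uv b ∈ F U k → a ∉ Sol U k x := by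
    intro a b hs hp ha
    obtain ⟨δ, hδ, hF⟩ := exists_Ioo_of_mem_Sol ha
    obtain ⟨t, t', ht, ht', h1, h2⟩ := exists_both_sides x hs hδ
    have hQ := isPreconnected_arc x 1 a δ
    simp only [one_mul] at hQ
    refine h.not_cross hQ ?_ hp ⟨t, ht, rfl⟩ ⟨t', ht', rfl⟩ h1 h2
    rintro _ ⟨s, hs, rfl⟩
    exact hF s hs
  refine ⟨key hs hp, ?_⟩
  apply key (a := b) (b := a)
  · rw [← neg_sub, Real.sin_neg, neg_ne_zero]; exact hs
  · have : x + uv b + uv a = x + uv a + uv b := by ring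
    rw [this]; exact hp

theorem P3 {a : ℝ} (ha : a ∈ Sol U k x) :
    x + uv (a + Real.pi / 3) ∉ F U k ∧ x + uv (a - Real.pi / 3) ∉ F U k := by
  have h2 : Real.sin (2 * (Real.pi / 3)) ≠ 0 := by
    rw [Real.sin_two_mul, Real.cos_pi_div_three, Real.sin_pi_div_three]
    have : 0 < Real.sqrt 3 := Real.sqrt_pos.2 (by norm_num)
    positivity
  constructor
  · intro hp
    rw [uv_add_third, ← add_assoc] at hp
    refine (h.R ?_ hp).1 ha
    rw [sub_add_cancel_left, Real.sin_neg, neg_ne_zero]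
    exact h2
  · intro hp
    rw [uv_sub_third, ← add_assoc] at hp
    refine (h.R ?_ hp).1 ha
    rw [sub_sub_cancel]
    exact h2

theorem P5 {a b : ℝ} (hs : Real.sin (a - b) ≠ 0) (hp : x + uv a - uv b ∈ F U k) :
    a ∉ Sol U k x ∧ b + Real.pi ∉ Sol U k x := by
  apply h.R
  · have : a - (b + Real.pi) = a - b - Real.pi := by ring
    rw [this, Real.sin_sub_pi, neg_ne_zero]
    exact hs
  · rw [uv_add_pi, ← sub_eq_add_neg]
    exact hp


theorem genC_card {t : ℝ} (ht : t ∈ GenC U x) : (J U (x + uv t)).card ≤ 2 := by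
  rw [uv_eq_rot]
  exact h.card_le_two one_ne_zero (gen_of_genC ht)

theorem mono_two {i j : Fin 5} {Q : Set ℂ} (hQ : IsPreconnected Q)
    (hJ : ∀ z ∈ Q, J U z ⊆ {i, j}) (hn : ∀ z ∈ Q, J U z ≠ {i, j}) : Q ⊆ U i ∨ Q ⊆ U j := by
  have hcov : Q ⊆ F U i ∪ F U j := by
    intro z hz
    obtain ⟨l, hl⟩ := h.cover z
    have := hJ z hz (mem_J.2 hl)
    simp only [Finset.mem_insert, Finset.mem_singleton] at this
    rcases this with rfl | rfl
    · exact Or.inl hl
    · exact Or.inr hl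
  have hdis : Q ∩ (F U i ∩ F U j) = ∅ := by
    ext z
    simp only [mem_inter_iff, mem_empty_iff_false, iff_false]
    rintro ⟨hz, h1, h2⟩
    apply hn z hz
    apply Finset.Subset.antisymm (hJ z hz)
    intro l hl
    simp only [Finset.mem_insert, Finset.mem_singleton] at hl
    rcases hl with rfl | rfl
    · exact mem_J.2 h1
    · exact mem_J.2 h2
  have hfin : ∀ {i j : Fin 5}, (∀ z ∈ Q, J U z ⊆ {i, j}) → Q ∩ (F U i ∩ F U j) = ∅ → Q ⊆ F U i →
      Q ⊆ U i := by
    intro i j hJ hdis hsub z hz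
    apply h.mem_of_J_subset
    intro l hl
    have h1 := hJ z hz hl
    simp only [Finset.mem_insert, Finset.mem_singleton] at h1
    rcases h1 with rfl | rfl
    · simp
    · exfalso
      have : z ∈ Q ∩ (F U i ∩ F U l) := ⟨hz, hsub hz, mem_J.1 hl⟩
      rw [hdis] at this
      exact this
  rw [isPreconnected_iff_subset_of_disjoint_closed] at hQ
  rcases hQ _ _ (isClosed_F i) (isClosed_F j) hcov hdis with h1 | h1
  · exact Or.inl (hfin hJ hdis h1)
  · refine Or.inr (hfin (j := i) ?_ ?_ h1)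
    · intro z hz
      rw [Finset.pair_comm]
      exact hJ z hz
    · rw [inter_comm (F U j)]
      exact hdis

/-- consecutive letters of the hexagon word are disjoint -/
theorem word_disjoint {t : ℝ} (ht : t ∈ GenW U x) (j : ℤ) :
    Disjoint (J U (x + uv (t + j * (Real.pi / 3))))
      (J U (x + uv (t + (j + 1 : ℤ) * (Real.pi / 3)))) := by
  rw [Finset.disjoint_left]
  intro c hc hc'
  have h1 := (mem_Sol_iff (ht j)).2 hc
  apply (h.P3 h1).1
  have : t + (j : ℝ) * (Real.pi / 3) + Real.pi / 3 = t + ((j + 1 : ℤ) : ℝ) * (Real.pi / 3) := by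
    push_cast; ring
  rw [this]
  exact mem_J.1 hc'

end Cov
end

/-! ### The two-parameter chart `(a, b) ↦ x + uv a + uv b` -/

lemma hasStrictDerivAt_uv (t : ℝ) : HasStrictDerivAt uv (uv t * Complex.I) t := by
  have h1 : HasStrictDerivAt (fun s : ℝ => (s : ℂ) * Complex.I) (1 * Complex.I) t :=
    (Complex.ofRealCLM.hasStrictDerivAt (x := t)).mul_const Complex.I
  have h2 : HasStrictDerivAt uv (uv t * (1 * Complex.I)) t := h1.cexp
  rwa [one_mul] at h2

/-- the chart is open at non-degenerate parameters -/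
lemma map_nhds_chart (x : ℂ) {a₀ b₀ : ℝ} (hs : Real.sin (a₀ - b₀) ≠ 0) :
    map (fun q : ℝ × ℝ => x + uv q.1 + uv q.2) (𝓝 (a₀, b₀)) = 𝓝 (x + uv a₀ + uv b₀) := by
  set L : ℝ × ℝ →L[ℝ] ℂ :=
    (ContinuousLinearMap.toSpanSingleton ℝ (uv a₀ * Complex.I)).comp (ContinuousLinearMap.fst ℝ ℝ ℝ) +
    (ContinuousLinearMap.toSpanSingleton ℝ (uv b₀ * Complex.I)).comp (ContinuousLinearMap.snd ℝ ℝ ℝ)
    with hL
  have h1 : HasStrictFDerivAt (fun q : ℝ × ℝ => x + uv q.1 + uv q.2) L (a₀, b₀) := by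
    have e1 := (hasStrictDerivAt_uv a₀).hasStrictFDerivAt.comp (a₀, b₀)
        (hasStrictFDerivAt_fst (𝕜 := ℝ) (E := ℝ) (F := ℝ) (p := (a₀, b₀)))
    have e2 := (hasStrictDerivAt_uv b₀).hasStrictFDerivAt.comp (a₀, b₀)
        (hasStrictFDerivAt_snd (𝕜 := ℝ) (E := ℝ) (F := ℝ) (p := (a₀, b₀)))
    exact (e1.const_add x).add e2
  have h2 : L.range = ⊤ := by
    rw [LinearMap.range_eq_top]
    intro w
    have hs' : Real.sin (b₀ - a₀) ≠ 0 := by
      rw [← neg_sub, Real.sin_neg, neg_ne_zero]; exact hs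
    set S := Real.sin (b₀ - a₀) with hS
    set C := Real.cos (b₀ - a₀) with hC
    -- `u = -i w e^{-i a₀}`, coordinates `t = Im u / S`, `s = Re u - t C`
    set ur : ℝ := w.im * Real.cos a₀ - w.re * Real.sin a₀ with hur
    set ui : ℝ := - (w.re * Real.cos a₀ + w.im * Real.sin a₀) with hui
    refine ⟨(ur - ui / S * C, ui / S), ?_⟩
    have hb : b₀ = a₀ + (b₀ - a₀) := by ring
    have hcb : Real.cos b₀ = Real.cos a₀ * C - Real.sin a₀ * S := by
      rw [hb, Real.cos_add]
    have hsb : Real.sin b₀ = Real.sin a₀ * C + Real.cos a₀ * S := by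
      rw [hb, Real.sin_add]
    have e := Real.sin_sq_add_cos_sq a₀
    apply Complex.ext
    · have : (L (ur - ui / S * C, ui / S)).re
          = -((ur - ui / S * C) * Real.sin a₀) - (ui / S) * Real.sin b₀ := by
        simp [hL, uv_re, uv_im]
        ring
      change (L (ur - ui / S * C, ui / S)).re = w.re
      rw [this, hsb, hur, hui]
      field_simp
      linear_combination (w.re * S) * e
    · have : (L (ur - ui / S * C, ui / S)).im
          = ((ur - ui / S * C) * Real.cos a₀) + (ui / S) * Real.cos b₀ := by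
        simp [hL, uv_re, uv_im]
      change (L (ur - ui / S * C, ui / S)).im = w.im
      rw [this, hcb, hur, hui]
      field_simp
      linear_combination (w.im * S) * e
  exact h1.map_nhds_eq_of_surj h2

end Crest.Agent.R40.T3
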