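import Mathlib
import Crest.Agent.R40.T1Glue
import Crest.Agent.R40.T1BMain
import Crest.Agent.R40.T1Uniq
import Crest.Agent.R40.T1EFinal
import Crest.Agent.R40.T3Main
import Crest.Agent.R40.T3Sol
import Crest.Agent.R40.T3CaseIIa
import Crest.Agent.R40.T3Sol2

-- ▼ part R40/T1Assembly
section

/-!
# R40 / T1: assembly

`hT1_of`: the statement T1 (in the form used in `T3Main.S0054_of`) from the spectral theorem
(`SpectralTarget`, `UniqTarget`) and the theorem on characters of `ℚ(i)` (`EHyp`).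
-/

set_option autoImplicit false

open MeasureTheory Filter Topology

namespace Crest.Agent.R40.T1Glue

open Crest.Agent.R40.T1

theorem m5_of {y : ℕ → E} (hE : T1B.EHyp y) (hy0 : ∀ n, y n ≠ 0) : M5Target := by
  intro ν hν hrot
  obtain ⟨q, hq, hqx⟩ := T1B.main hE hy0 hrot
  exact ⟨q, hq.continuous, hqx⟩

/-- T1 in the form used by `T3Main.S0054_of` -/
theorem hT1_of {y : ℕ → E} (hE : T1B.EHyp y) (hy0 : ∀ n, y n ≠ 0) (hspec : SpectralTarget)
    (huniq : UniqTarget) (c : ℂ → Fin 5) (hc : ∀ x y : ℂ, ‖x - y‖ = 1 → c x ≠ c y) :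
    ∃ A : Fin 5 → Set ℂ, (∀ i, MeasurableSet (A i)) ∧
      (∀ i, ∀ᵐ p : ℂ × ℝ, ¬ (p.1 ∈ A i ∧ p.1 + Complex.exp (Complex.I * p.2) ∈ A i)) ∧
      ∀ᵐ z, ∃ i, z ∈ A i := by
  obtain ⟨P, hP, hT, hU, hav⟩ := exists_invariant c hc
  obtain ⟨A, hA, hcov, hA2⟩ := exists_sets P hT hav
    (fun i => exists_spec P hT hU hspec huniq (m5_of hE hy0) i)
  refine ⟨A, hA, fun i => ?_, hcov⟩
  have hm : MeasurableSet {p : ℂ × ℝ |
      ¬ (p.1 ∈ A i ∧ p.1 + Complex.exp (Complex.I * p.2) ∈ A i)} := by
    refine MeasurableSet.compl (MeasurableSet.inter ?_ ?_)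
    · exact measurable_fst (hA i)
    · have h2 : Measurable (fun p : ℂ × ℝ => p.1 + Complex.exp (Complex.I * p.2)) :=
        measurable_fst.add (Complex.measurable_exp.comp
          ((Complex.measurable_ofReal.comp measurable_snd).const_mul _))
      exact h2 (hA i)
  rw [Measure.volume_eq_prod, Measure.ae_prod_iff_ae_ae hm]
  filter_upwards [hA2 i] with z hz
  filter_upwards [hz] with θ hθ
  rw [mul_comm Complex.I]
  exact hθ

end Crest.Agent.R40.T1Glue
end

-- ▼ part R40/T1Targets967
section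

/-!
# R40 / T1: the targets `SpectralTarget`, `UniqTarget` of `T1Glue`
-/

set_option autoImplicit false

open MeasureTheory Filter

namespace Crest.Agent.R40.T1Glue

open Crest.Agent.R40.T1

theorem uniqTarget : UniqTarget := fun _ _ _ _ h => ext_of_fourier h

theorem spectralTarget : SpectralTarget := by
  intro Ω _ P _ T hT hadd f hf h0 h1
  -- replace `T 0` by the identity
  let T' : F → Ω → Ω := fun x ω => T x ω
  have hC : ∀ ω, |f ω| ≤ 1 := fun ω => by rw [abs_of_nonneg (h0 ω)]; exact h1 ω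
  exact exists_spectral' (sep_subfield F) P T hT hadd f hf hC

end Crest.Agent.R40.T1Glue
end

-- ▼ part R40/T1Final
section

/-!
# R40 / T1: final statement (arbitrary proper 5-colouring of the plane ⇒ measurable one), no open input
-/

set_option autoImplicit false

open MeasureTheory

namespace Crest.Agent.R40.T1Final

theorem hT1 (c : ℂ → Fin 5) (hc : ∀ x y : ℂ, ‖x - y‖ = 1 → c x ≠ c y) :
    ∃ A : Fin 5 → Set ℂ, (∀ i, MeasurableSet (A i)) ∧
      (∀ i, ∀ᵐ p : ℂ × ℝ, ¬ (p.1 ∈ A i ∧ p.1 + Complex.exp (Complex.I * p.2) ∈ A i)) ∧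
      ∀ᵐ z, ∃ i, z ∈ A i :=
  T1Glue.hT1_of T1EFinal.ehyp T1EGlue.yseq_ne T1Glue.spectralTarget T1Glue.uniqTarget c hc

end Crest.Agent.R40.T1Final
end

-- ▼ part R40/Top772Grid
section

/-!
# R40 / T3, block TOP (helper772): the combinatorial part.

`grid_contradiction` : Sperner parity on the square grid `{0..N} × {0..N}` together with
a mod-2 cycle argument in clusters.
-/

namespace Crest.Agent.R40.Top

open Finset

/-- the mod-2 boundary sum over a lower triangle `(a,b),(a+1,b),(a,b+1)`. -/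
def bdL (f : ℕ × ℕ → ℕ × ℕ → ZMod 2) (a b : ℕ) : ZMod 2 :=
  f (a, b) (a + 1, b) + f (a, b) (a, b + 1) + f (a + 1, b) (a, b + 1)

/-- the mod-2 boundary sum over an upper triangle `(a+1,b),(a,b+1),(a+1,b+1)`. -/
def bdU (f : ℕ × ℕ → ℕ × ℕ → ZMod 2) (a b : ℕ) : ZMod 2 :=
  f (a, b + 1) (a + 1, b + 1) + f (a + 1, b) (a + 1, b + 1) + f (a + 1, b) (a, b + 1)

lemma zmod2_add_self (x : ZMod 2) : x + x = 0 := by
  revert x; decide

lemma tele_range (g : ℕ → ZMod 2) (N : ℕ) :
    ∑ b ∈ range N, (g b + g (b + 1)) = g 0 + g N := by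
  induction N with
  | zero => simp [zmod2_add_self]
  | succ n ih =>
    rw [sum_range_succ, ih]
    have := zmod2_add_self (g n)
    linear_combination this

/-- telescoping: the sum of the boundary sums of all triangles of the square is the
boundary sum of the square. -/
lemma tele (f : ℕ × ℕ → ℕ × ℕ → ZMod 2) (N : ℕ) :
    ∑ a ∈ range N, ∑ b ∈ range N, (bdL f a b + bdU f a b)
      = ∑ a ∈ range N, (f (a, 0) (a + 1, 0) + f (a, N) (a + 1, N))
        + ∑ b ∈ range N, (f (0, b) (0, b + 1) + f (N, b) (N, b + 1)) := by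
  have h1 : ∀ a b, bdL f a b + bdU f a b
      = (f (a, b) (a + 1, b) + f (a, b + 1) (a + 1, b + 1))
        + (f (a, b) (a, b + 1) + f (a + 1, b) (a + 1, b + 1)) := by
    intro a b
    unfold bdL bdU
    have := zmod2_add_self (f (a + 1, b) (a, b + 1))
    linear_combination this
  have h2 : ∑ a ∈ range N, ∑ b ∈ range N, (bdL f a b + bdU f a b)
      = ∑ a ∈ range N, ∑ b ∈ range N, (f (a, b) (a + 1, b) + f (a, b + 1) (a + 1, b + 1))
        + ∑ a ∈ range N, ∑ b ∈ range N, (f (a, b) (a, b + 1) + f (a + 1, b) (a + 1, b + 1)) := by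
    rw [← sum_add_distrib]
    apply sum_congr rfl
    intro a _
    rw [← sum_add_distrib]
    apply sum_congr rfl
    intro b _
    exact h1 a b
  rw [h2, sum_comm (f := fun a b => f (a, b) (a, b + 1) + f (a + 1, b) (a + 1, b + 1))]
  congr 1
  · apply sum_congr rfl
    intro a _
    exact tele_range (fun b => f (a, b) (a + 1, b)) N
  · apply sum_congr rfl
    intro b _
    exact tele_range (fun a => f (a, b) (a, b + 1)) N

/-- the indicator of `{ℓ v, ℓ w} = {x, y}` (for `x ≠ y`), mod 2 -/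
def ind {κ : Type*} [DecidableEq κ] (x y : κ) (ℓ : ℕ × ℕ → κ) (v w : ℕ × ℕ) : ZMod 2 :=
  (if ℓ v = x then 1 else 0) * (if ℓ w = y then 1 else 0)
    + (if ℓ v = y then 1 else 0) * (if ℓ w = x then 1 else 0)

/-- For labels with Sperner boundary conditions, the total is odd. -/
lemma sperner (N : ℕ) (ℓ : ℕ × ℕ → Fin 3)
    (hL : ∀ b ≤ N, ℓ (0, b) ≠ 0) (hB : ∀ a ≤ N, ℓ (a, 0) ≠ 1)
    (hR : ∀ b ≤ N, ℓ (N, b) ≠ 2) (hT : ∀ a ≤ N, ℓ (a, N) ≠ 2) :
    ∑ a ∈ range N, ∑ b ∈ range N,
      (bdL (ind 0 1 ℓ) a b + bdU (ind 0 1 ℓ) a b) = 1 := by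
  rw [tele]
  have e1 : ∀ x y : Fin 3, x ≠ 2 → y ≠ 2 →
      ((if x = 0 then (1 : ZMod 2) else 0) * (if y = 1 then 1 else 0)
        + (if x = 1 then 1 else 0) * (if y = 0 then 1 else 0))
      = (if x = 1 then 1 else 0) + (if y = 1 then 1 else 0) := by decide
  have e2 : ∀ x y : Fin 3, x ≠ 0 → y ≠ 0 →
      ((if x = 0 then (1 : ZMod 2) else 0) * (if y = 1 then 1 else 0)
        + (if x = 1 then 1 else 0) * (if y = 0 then 1 else 0)) = 0 := by decide
  have e3 : ∀ x y : Fin 3, x ≠ 1 → y ≠ 1 →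
      ((if x = 0 then (1 : ZMod 2) else 0) * (if y = 1 then 1 else 0)
        + (if x = 1 then 1 else 0) * (if y = 0 then 1 else 0)) = 0 := by decide
  have s1 : ∑ a ∈ range N, (ind 0 1 ℓ (a, 0) (a + 1, 0) + ind 0 1 ℓ (a, N) (a + 1, N))
      = ∑ a ∈ range N, ((if ℓ (a, N) = 1 then 1 else 0)
          + (if ℓ (a + 1, N) = 1 then 1 else 0)) := by
    apply sum_congr rfl
    intro a ha
    have ha' := mem_range.1 ha
    unfold ind
    rw [e3 _ _ (hB a (by omega)) (hB (a + 1) (by omega)),
      e1 _ _ (hT a (by omega)) (hT (a + 1) (by omega)), zero_add]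
  have s2 : ∑ b ∈ range N, (ind 0 1 ℓ (0, b) (0, b + 1) + ind 0 1 ℓ (N, b) (N, b + 1))
      = ∑ b ∈ range N, ((if ℓ (N, b) = 1 then 1 else 0)
          + (if ℓ (N, b + 1) = 1 then 1 else 0)) := by
    apply sum_congr rfl
    intro b hb
    have hb' := mem_range.1 hb
    unfold ind
    rw [e2 _ _ (hL b (by omega)) (hL (b + 1) (by omega)),
      e1 _ _ (hR b (by omega)) (hR (b + 1) (by omega)), zero_add]
  rw [s1, s2, tele_range (fun a => if ℓ (a, N) = 1 then 1 else 0),
    tele_range (fun b => if ℓ (N, b) = 1 then 1 else 0)]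
  have c1 : ℓ (0, N) = 1 := by
    have h1 := hL N le_rfl
    have h2 := hT 0 (Nat.zero_le _)
    revert h1 h2
    generalize ℓ (0, N) = x
    revert x
    decide
  have c2 : ℓ (N, 0) = 0 := by
    have h1 := hB N le_rfl
    have h2 := hR 0 (Nat.zero_le _)
    revert h1 h2
    generalize ℓ (N, 0) = x
    revert x
    decide
  have c3 := zmod2_add_self (if ℓ (N, N) = 1 then (1 : ZMod 2) else 0)
  simp only [c1, c2, if_true]
  have : (if (0 : Fin 3) = 1 then (1 : ZMod 2) else 0) = 0 := by decide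
  rw [this]
  linear_combination c3

/-- the three vertices of the triangle with index `(a, b, s)`. -/
def vert (a b : ℕ) (s : Bool) : Fin 3 → ℕ × ℕ :=
  if s then ![(a + 1, b + 1), (a + 1, b), (a, b + 1)] else ![(a, b), (a + 1, b), (a, b + 1)]

/-- boundary sum of the triangle `(a,b,s)` -/
def bd (f : ℕ × ℕ → ℕ × ℕ → ZMod 2) (a b : ℕ) (s : Bool) : ZMod 2 :=
  if s then bdU f a b else bdL f a b

lemma bd_congr {f g : ℕ × ℕ → ℕ × ℕ → ZMod 2} {a b : ℕ} {s : Bool}
    (h : ∀ j₁ j₂, f (vert a b s j₁) (vert a b s j₂) = g (vert a b s j₁) (vert a b s j₂)) :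
    bd f a b s = bd g a b s := by
  cases s
  · have h01 := h 0 1
    have h02 := h 0 2
    have h12 := h 1 2
    simp only [vert, Bool.false_eq_true, if_false, Matrix.cons_val_zero, Matrix.cons_val_one,
      Matrix.cons_val] at h01 h02 h12
    simp only [bd, Bool.false_eq_true, if_false, bdL, h01, h02, h12]
  · have h20 := h 2 0
    have h10 := h 1 0
    have h12 := h 1 2
    simp only [vert, if_true, Matrix.cons_val_zero, Matrix.cons_val_one,
      Matrix.cons_val] at h20 h10 h12
    simp only [bd, if_true, bdU, h20, h10, h12]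

lemma bd_zero {f : ℕ × ℕ → ℕ × ℕ → ZMod 2} {a b : ℕ} {s : Bool}
    (h : ∀ j₁ j₂, f (vert a b s j₁) (vert a b s j₂) = 0) :
    bd f a b s = 0 := by
  rw [bd_congr (g := fun _ _ => 0) h]
  cases s <;> simp [bd, bdL, bdU]

lemma bd_add (f g : ℕ × ℕ → ℕ × ℕ → ZMod 2) (a b : ℕ) (s : Bool) :
    bd (fun v w => f v w + g v w) a b s = bd f a b s + bd g a b s := by
  cases s <;> simp only [bd, bdL, bdU, if_true, Bool.false_eq_true, if_false] <;> ring

lemma bd_sum {κ : Type*} (S : Finset κ) (f : κ → ℕ × ℕ → ℕ × ℕ → ZMod 2) (a b : ℕ) (s : Bool) :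
    bd (fun v w => ∑ k ∈ S, f k v w) a b s = ∑ k ∈ S, bd (f k) a b s := by
  classical
  induction S using Finset.induction_on with
  | empty => simp only [sum_empty]; exact bd_zero (fun _ _ => rfl)
  | insert k S hk ih =>
    rw [sum_insert hk, ← ih, ← bd_add]
    simp only [sum_insert hk]

lemma bd_ind_rainbow (ℓ : ℕ × ℕ → Fin 3) (a b : ℕ) (s : Bool)
    (h : bd (ind 0 1 ℓ) a b s ≠ 0) : ∀ k : Fin 3, ∃ j, ℓ (vert a b s j) = k := by
  have key : ∀ x y z : Fin 3,
      ((((if x = 0 then (1 : ZMod 2) else 0) * (if y = 1 then 1 else 0)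
        + (if x = 1 then 1 else 0) * (if y = 0 then 1 else 0)) +
      ((if x = 0 then (1 : ZMod 2) else 0) * (if z = 1 then 1 else 0)
        + (if x = 1 then 1 else 0) * (if z = 0 then 1 else 0)) +
      ((if y = 0 then (1 : ZMod 2) else 0) * (if z = 1 then 1 else 0)
        + (if y = 1 then 1 else 0) * (if z = 0 then 1 else 0))) ≠ 0) →
      ∀ k : Fin 3, x = k ∨ y = k ∨ z = k := by decide
  have key' : ∀ x y z : Fin 3,
      ((((if z = 0 then (1 : ZMod 2) else 0) * (if x = 1 then 1 else 0)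
        + (if z = 1 then 1 else 0) * (if x = 0 then 1 else 0)) +
      ((if y = 0 then (1 : ZMod 2) else 0) * (if x = 1 then 1 else 0)
        + (if y = 1 then 1 else 0) * (if x = 0 then 1 else 0)) +
      ((if y = 0 then (1 : ZMod 2) else 0) * (if z = 1 then 1 else 0)
        + (if y = 1 then 1 else 0) * (if z = 0 then 1 else 0))) ≠ 0) →
      ∀ k : Fin 3, x = k ∨ y = k ∨ z = k := by decide
  intro k
  cases s
  · rcases key (ℓ (a, b)) (ℓ (a + 1, b)) (ℓ (a, b + 1)) h k with h | h | h
    · exact ⟨0, h⟩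
    · exact ⟨1, h⟩
    · exact ⟨2, h⟩
  · rcases key' (ℓ (a + 1, b + 1)) (ℓ (a + 1, b)) (ℓ (a, b + 1)) h k with h | h | h
    · exact ⟨0, h⟩
    · exact ⟨1, h⟩
    · exact ⟨2, h⟩

lemma tele' (f : ℕ × ℕ → ℕ × ℕ → ZMod 2) (N : ℕ) :
    ∑ a ∈ range N, ∑ b ∈ range N, ∑ s : Bool, bd f a b s
      = ∑ a ∈ range N, (f (a, 0) (a + 1, 0) + f (a, N) (a + 1, N))
        + ∑ b ∈ range N, (f (0, b) (0, b + 1) + f (N, b) (N, b + 1)) := by
  rw [← tele]
  apply sum_congr rfl; intro a _
  apply sum_congr rfl; intro b _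
  simp only [Fintype.sum_bool, bd, if_true, Bool.false_eq_true, if_false]
  rw [add_comm]

/-- All the geometric input of the parity argument. -/
theorem grid_contradiction {ι : Type*} [Fintype ι] [DecidableEq ι] {n : ℕ} (N : ℕ)
    (c : ℕ × ℕ → ι) (ℓ : ℕ × ℕ → Fin 3)
    (hL : ∀ b ≤ N, ℓ (0, b) ≠ 0) (hB : ∀ a ≤ N, ℓ (a, 0) ≠ 1)
    (hR : ∀ b ≤ N, ℓ (N, b) ≠ 2) (hT : ∀ a ≤ N, ℓ (a, N) ≠ 2)
    -- clusters : `near l v` says that the vertex `v` is near the cluster `l`
    (near : Fin n → ℕ × ℕ → Prop) (lam : Fin n → ι → Fin 3) (E : Fin n → ι → ι → Prop)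
    -- every rainbow triangle has a vertex near some cluster
    (hrain : ∀ a < N, ∀ b < N, ∀ s : Bool,
      (∀ k : Fin 3, ∃ j, ℓ (vert a b s j) = k) → ∃ l j, near l (vert a b s j))
    -- near vertices are interior
    (hint : ∀ l v, near l v → 1 ≤ v.1 ∧ v.1 < N ∧ 1 ≤ v.2 ∧ v.2 < N)
    -- a triangle is near at most one cluster
    (huniq : ∀ a < N, ∀ b < N, ∀ s : Bool, ∀ l l' j j',
      near l (vert a b s j) → near l' (vert a b s j') → l = l')
    -- near a cluster, labels are a function of the colour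
    (hlam : ∀ a < N, ∀ b < N, ∀ s : Bool, ∀ l j j', near l (vert a b s j) →
      ℓ (vert a b s j') = lam l (c (vert a b s j')))
    -- on edges without near vertices, of triangles with a near vertex, the colours
    -- are equal or adjacent in `E l`
    (hE : ∀ a < N, ∀ b < N, ∀ s : Bool, ∀ l j j₁ j₂, near l (vert a b s j) →
      ¬ near l (vert a b s j₁) → ¬ near l (vert a b s j₂) →
      c (vert a b s j₁) ≠ c (vert a b s j₂) → E l (c (vert a b s j₁)) (c (vert a b s j₂)))
    -- `E l` has no cycle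
    (hac : ∀ l, ∀ m : ι → ι → ZMod 2, (∀ i, m i i = 0) → (∀ i j, m i j = m j i) →
      (∀ i j, m i j ≠ 0 → E l i j ∨ E l j i) → (∀ i, ∑ j, m i j = 0) → ∀ i j, m i j = 0) :
    False := by
  classical
  have htot : ∑ a ∈ range N, ∑ b ∈ range N, ∑ s : Bool, bd (ind 0 1 ℓ) a b s = 1 := by
    rw [tele', ← tele]
    exact sperner N ℓ hL hB hR hT
  -- split over the clusters
  have hsplit : ∀ a < N, ∀ b < N, ∀ s : Bool, bd (ind 0 1 ℓ) a b s
      = ∑ l : Fin n, if (∃ j, near l (vert a b s j)) then bd (ind 0 1 ℓ) a b s else 0 := by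
    intro a ha b hb s
    by_cases h0 : bd (ind 0 1 ℓ) a b s = 0
    · simp [h0]
    · obtain ⟨l, j, hlj⟩ := hrain a ha b hb s (bd_ind_rainbow ℓ a b s h0)
      rw [sum_eq_single l]
      · rw [if_pos ⟨j, hlj⟩]
      · intro l' _ hl'
        rw [if_neg]
        rintro ⟨j', hj'⟩
        exact hl' (huniq a ha b hb s l' l j' j hj' hlj)
      · intro h; exact absurd (mem_univ l) h
  -- each cluster contributes zero
  have hzero : ∀ l : Fin n, ∑ a ∈ range N, ∑ b ∈ range N, ∑ s : Bool,
      (if (∃ j, near l (vert a b s j)) then bd (ind 0 1 ℓ) a b s else 0) = 0 := by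
    intro l
    -- the colour-pair counts
    set nn : ι → ι → ZMod 2 := fun i j => ∑ a ∈ range N, ∑ b ∈ range N, ∑ s : Bool,
      (if (∃ j, near l (vert a b s j)) then bd (ind i j c) a b s else 0) with hnn
    have hm : ∀ i j, (if i = j then 0 else nn i j) = 0 := by
      apply hac l (fun i j => if i = j then 0 else nn i j)
      · intro i; simp
      · intro i j
        have : ind i j c = ind j i c := by
          funext v w; unfold ind; ring
        by_cases hij : i = j
        · subst hij; rfl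
        · simp only [if_neg hij, if_neg (Ne.symm hij), hnn, this]
      · intro i j hij
        by_cases hij' : i = j
        · simp [hij'] at hij
        simp only [if_neg hij'] at hij
        by_contra hE'
        push Not at hE'
        apply hij
        -- replace `ind i j c` by `g`
        set g : ℕ × ℕ → ℕ × ℕ → ZMod 2 := fun v w =>
          if near l v ∨ near l w then ind i j c v w else 0 with hg
        have : ∀ a < N, ∀ b < N, ∀ s : Bool,
            (if (∃ j, near l (vert a b s j)) then bd (ind i j c) a b s else 0) = bd g a b s := by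
          intro a ha b hb s
          by_cases hT : ∃ j, near l (vert a b s j)
          · rw [if_pos hT]
            obtain ⟨j₀, hj₀⟩ := hT
            apply bd_congr
            intro j₁ j₂
            by_cases hn : near l (vert a b s j₁) ∨ near l (vert a b s j₂)
            · simp only [hg, if_pos hn]
            · simp only [hg, if_neg hn]
              push Not at hn
              unfold ind
              by_cases hc : c (vert a b s j₁) = c (vert a b s j₂)
              · rw [hc]
                by_cases h1 : c (vert a b s j₂) = i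
                · have h2 : c (vert a b s j₂) ≠ j := fun h => hij' (h1.symm.trans h)
                  simp [h1, if_neg hij']
                · simp [if_neg h1]
              · have hEE := hE a ha b hb s l j₀ j₁ j₂ hj₀ hn.1 hn.2 hc
                by_cases h1 : c (vert a b s j₁) = i
                · have h2 : c (vert a b s j₂) ≠ j := by
                    intro h2
                    rw [h1, h2] at hEE
                    exact hE'.1 hEE
                  simp [h1, h2, if_neg hij']
                · by_cases h3 : c (vert a b s j₁) = j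
                  · have h4 : c (vert a b s j₂) ≠ i := by
                      intro h4
                      rw [h3, h4] at hEE
                      exact hE'.2 hEE
                    simp [if_neg h1, h4]
                  · simp [if_neg h1, if_neg h3]
          · rw [if_neg hT]
            symm
            apply bd_zero
            intro j₁ j₂
            push Not at hT
            simp [hg, hT j₁, hT j₂]
        calc nn i j = ∑ a ∈ range N, ∑ b ∈ range N, ∑ s : Bool, bd g a b s := by
              simp only [hnn]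
              apply sum_congr rfl; intro a ha
              apply sum_congr rfl; intro b hb
              apply sum_congr rfl; intro s _
              exact this a (mem_range.1 ha) b (mem_range.1 hb) s
          _ = 0 := by
              rw [tele']
              have z1 : ∀ v, (v.1 = 0 ∨ v.1 = N ∨ v.2 = 0 ∨ v.2 = N) → ¬ near l v := by
                intro v hv hnv
                have := hint l v hnv
                omega
              rw [sum_eq_zero, sum_eq_zero, add_zero]
              · intro b _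
                simp [hg, z1 (0, b) (by simp), z1 (0, b + 1) (by simp), z1 (N, b) (by simp),
                  z1 (N, b + 1) (by simp)]
              · intro a _
                simp [hg, z1 (a, 0) (by simp), z1 (a + 1, 0) (by simp), z1 (a, N) (by simp),
                  z1 (a + 1, N) (by simp)]
      · intro i
        have e1 : ∀ j, (if i = j then 0 else nn i j)
            = ∑ a ∈ range N, ∑ b ∈ range N, ∑ s : Bool,
              (if (∃ j, near l (vert a b s j)) then
                (if i = j then 0 else bd (ind i j c) a b s) else 0) := by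
          intro j
          by_cases hij : i = j
          · simp [hij]
          · simp only [if_neg hij, hnn]
        simp only [e1]
        rw [sum_comm]
        apply sum_eq_zero; intro a _
        rw [sum_comm]
        apply sum_eq_zero; intro b _
        rw [sum_comm]
        apply sum_eq_zero; intro s _
        by_cases hT : ∃ j, near l (vert a b s j)
        · simp only [if_pos hT]
          have e2 : ∀ j, (if i = j then 0 else bd (ind i j c) a b s)
              = bd (fun v w => if i = j then 0 else ind i j c v w) a b s := by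
            intro j
            by_cases hij : i = j
            · simp only [if_pos hij]
              exact (bd_zero (fun _ _ => rfl)).symm
            · simp only [if_neg hij]
          simp only [e2]
          rw [← bd_sum]
          have e3 : ∀ v w, (∑ j : ι, if i = j then 0 else ind i j c v w)
              = (if c v = i then (1 : ZMod 2) else 0) + (if c w = i then 1 else 0) := by
            intro v w
            unfold ind
            by_cases hv : c v = i
            · by_cases hw : c w = i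
              · have : ∀ j, (if i = j then (0 : ZMod 2) else
                    (if c v = i then 1 else 0) * (if c w = j then 1 else 0)
                    + (if c v = j then 1 else 0) * (if c w = i then 1 else 0)) = 0 := by
                  intro j
                  by_cases hij : i = j
                  · simp [hij]
                  · simp [if_neg hij, hv, hw]
                rw [sum_eq_zero (fun j _ => this j)]
                simp only [hv, hw, if_true]
                decide
              · rw [sum_eq_single (c w)]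
                · simp [hv, hw, Ne.symm hw]
                · intro j _ hj
                  by_cases hij : i = j
                  · simp [hij]
                  · simp [if_neg hij, hw, Ne.symm hj]
                · intro h; exact absurd (mem_univ _) h
            · by_cases hw : c w = i
              · rw [sum_eq_single (c v)]
                · simp [hv, hw, Ne.symm hv]
                · intro j _ hj
                  by_cases hij : i = j
                  · simp [hij]
                  · simp [if_neg hij, hv, Ne.symm hj]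
                · intro h; exact absurd (mem_univ _) h
              · have : ∀ j, (if i = j then (0 : ZMod 2) else
                    (if c v = i then 1 else 0) * (if c w = j then 1 else 0)
                    + (if c v = j then 1 else 0) * (if c w = i then 1 else 0)) = 0 := by
                  intro j
                  simp [hv, hw]
                rw [sum_eq_zero (fun j _ => this j)]
                simp only [hv, hw, if_false, add_zero]
          simp only [e3]
          cases s <;> simp only [bd, bdL, bdU, if_true, Bool.false_eq_true, if_false]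
          · generalize (if c (a, b) = i then (1 : ZMod 2) else 0) = x
            generalize (if c (a + 1, b) = i then (1 : ZMod 2) else 0) = y
            generalize (if c (a, b + 1) = i then (1 : ZMod 2) else 0) = z
            revert x y z
            decide
          · generalize (if c (a + 1, b + 1) = i then (1 : ZMod 2) else 0) = x
            generalize (if c (a + 1, b) = i then (1 : ZMod 2) else 0) = y
            generalize (if c (a, b + 1) = i then (1 : ZMod 2) else 0) = z
            revert x y z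
            decide
        · simp [if_neg hT]
    -- express the label count by the colour counts
    have hexp : ∀ a < N, ∀ b < N, ∀ s : Bool,
        (if (∃ j, near l (vert a b s j)) then bd (ind 0 1 ℓ) a b s else 0)
        = ∑ i : ι, ∑ j : ι, (if lam l i = 0 ∧ lam l j = 1 then
            (if (∃ j, near l (vert a b s j)) then bd (ind i j c) a b s else 0) else 0) := by
      intro a ha b hb s
      by_cases hT : ∃ j, near l (vert a b s j)
      · simp only [if_pos hT]
        obtain ⟨j₀, hj₀⟩ := hT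
        have e4 : ∀ i j, (if lam l i = 0 ∧ lam l j = 1 then bd (ind i j c) a b s else 0)
            = bd (fun v w => if lam l i = 0 ∧ lam l j = 1 then ind i j c v w else 0) a b s := by
          intro i j
          by_cases h : lam l i = 0 ∧ lam l j = 1
          · simp only [if_pos h]
          · simp only [if_neg h]
            exact (bd_zero (fun _ _ => rfl)).symm
        simp only [e4]
        simp only [← bd_sum]
        apply bd_congr
        intro j₁ j₂
        have hl1 := hlam a ha b hb s l j₀ j₁ hj₀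
        have hl2 := hlam a ha b hb s l j₀ j₂ hj₀
        set v := vert a b s j₁
        set w := vert a b s j₂
        unfold ind
        rw [hl1, hl2]
        have e5 : ∀ i j, (if lam l i = 0 ∧ lam l j = 1 then
            ((if c v = i then (1 : ZMod 2) else 0) * (if c w = j then 1 else 0)
              + (if c v = j then 1 else 0) * (if c w = i then 1 else 0)) else 0)
            = (if c v = i then (if lam l i = 0 then 1 else 0) else 0)
                * (if c w = j then (if lam l j = 1 then 1 else 0) else 0)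
              + (if c w = i then (if lam l i = 0 then 1 else 0) else 0)
                * (if c v = j then (if lam l j = 1 then 1 else 0) else 0) := by
          intro i j
          by_cases h1 : lam l i = 0 <;> by_cases h2 : lam l j = 1 <;> simp [h1, h2]
          by_cases h3 : c w = i <;> by_cases h4 : c v = j <;> simp [h3, h4]
        simp only [e5, sum_add_distrib]
        rw [← sum_mul_sum, ← sum_mul_sum]
        simp only [sum_ite_eq, mem_univ, if_true]
        ring
      · simp [if_neg hT]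
    calc ∑ a ∈ range N, ∑ b ∈ range N, ∑ s : Bool,
        (if (∃ j, near l (vert a b s j)) then bd (ind 0 1 ℓ) a b s else 0)
        = ∑ a ∈ range N, ∑ b ∈ range N, ∑ s : Bool,
          ∑ i : ι, ∑ j : ι, (if lam l i = 0 ∧ lam l j = 1 then
            (if (∃ j, near l (vert a b s j)) then bd (ind i j c) a b s else 0) else 0) := by
          apply sum_congr rfl; intro a ha
          apply sum_congr rfl; intro b hb
          apply sum_congr rfl; intro s _
          exact hexp a (mem_range.1 ha) b (mem_range.1 hb) s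
      _ = ∑ i : ι, ∑ j : ι, (if lam l i = 0 ∧ lam l j = 1 then nn i j else 0) := by
          have r1 : ∀ (F : ℕ → ℕ → Bool → ι → ι → ZMod 2),
              ∑ a ∈ range N, ∑ b ∈ range N, ∑ s : Bool, ∑ i : ι, ∑ j : ι, F a b s i j
              = ∑ i : ι, ∑ j : ι, ∑ a ∈ range N, ∑ b ∈ range N, ∑ s : Bool, F a b s i j := by
            intro F
            have : ∀ a b, ∑ s : Bool, ∑ i : ι, ∑ j : ι, F a b s i j
                = ∑ i : ι, ∑ j : ι, ∑ s : Bool, F a b s i j := by
              intro a b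
              rw [sum_comm]
              apply sum_congr rfl; intro i _
              rw [sum_comm]
            simp only [this]
            have : ∀ a, ∑ b ∈ range N, ∑ i : ι, ∑ j : ι, ∑ s : Bool, F a b s i j
                = ∑ i : ι, ∑ j : ι, ∑ b ∈ range N, ∑ s : Bool, F a b s i j := by
              intro a
              rw [sum_comm]
              apply sum_congr rfl; intro i _
              rw [sum_comm]
            simp only [this]
            rw [sum_comm]
            apply sum_congr rfl; intro i _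
            rw [sum_comm]
          rw [r1]
          apply sum_congr rfl; intro i _
          apply sum_congr rfl; intro j _
          by_cases h : lam l i = 0 ∧ lam l j = 1
          · simp only [if_pos h, hnn]
          · simp only [if_neg h, sum_const_zero]
      _ = 0 := by
          apply sum_eq_zero; intro i _
          apply sum_eq_zero; intro j _
          by_cases h : lam l i = 0 ∧ lam l j = 1
          · rw [if_pos h]
            have hij : i ≠ j := by
              rintro rfl
              rw [h.1] at h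
              exact absurd h.2 (by decide)
            have := hm i j
            rwa [if_neg hij] at this
          · rw [if_neg h]
  have : ∑ a ∈ range N, ∑ b ∈ range N, ∑ s : Bool, bd (ind 0 1 ℓ) a b s = 0 := by
    calc ∑ a ∈ range N, ∑ b ∈ range N, ∑ s : Bool, bd (ind 0 1 ℓ) a b s
        = ∑ a ∈ range N, ∑ b ∈ range N, ∑ s : Bool, ∑ l : Fin n,
            (if (∃ j, near l (vert a b s j)) then bd (ind 0 1 ℓ) a b s else 0) := by
          apply sum_congr rfl; intro a ha
          apply sum_congr rfl; intro b hb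
          apply sum_congr rfl; intro s _
          exact hsplit a (mem_range.1 ha) b (mem_range.1 hb) s
      _ = ∑ l : Fin n, ∑ a ∈ range N, ∑ b ∈ range N, ∑ s : Bool,
            (if (∃ j, near l (vert a b s j)) then bd (ind 0 1 ℓ) a b s else 0) := by
          have : ∀ a b, ∑ s : Bool, ∑ l : Fin n,
              (if (∃ j, near l (vert a b s j)) then bd (ind 0 1 ℓ) a b s else 0)
              = ∑ l : Fin n, ∑ s : Bool,
              (if (∃ j, near l (vert a b s j)) then bd (ind 0 1 ℓ) a b s else 0) := by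
            intro a b; rw [sum_comm]
          simp only [this]
          have : ∀ a, ∑ b ∈ range N, ∑ l : Fin n, ∑ s : Bool,
              (if (∃ j, near l (vert a b s j)) then bd (ind 0 1 ℓ) a b s else 0)
              = ∑ l : Fin n, ∑ b ∈ range N, ∑ s : Bool,
              (if (∃ j, near l (vert a b s j)) then bd (ind 0 1 ℓ) a b s else 0) := by
            intro a; rw [sum_comm]
          simp only [this]
          rw [sum_comm]
      _ = 0 := sum_eq_zero (fun l _ => hzero l)
  rw [this] at htot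
  exact absurd htot (by decide)

end Crest.Agent.R40.Top
end

-- ▼ part R40/Top772
section

/-!
# R40 / T3, block TOP (helper772): existence of an essential point.
-/

namespace Crest.Agent.R40.Top

open Metric Set Filter Topology

variable {ι : Type*} [Fintype ι] [DecidableEq ι]

/-- points whose colour set is exactly `{i, j}` -/
def Pair (F : ι → Set ℂ) (i j : ι) : Set ℂ := {y | ∀ k, y ∈ F k ↔ (k = i ∨ k = j)}

/-- points with at least three colours -/
def Tri (F : ι → Set ℂ) : Set ℂ :=
  {x | ∃ i j k, i ≠ j ∧ i ≠ k ∧ j ≠ k ∧ x ∈ F i ∧ x ∈ F j ∧ x ∈ F k}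

/-- crossing principle: arbitrarily near every point of `F i` there is a centre whose unit
circle misses `F i`. -/
def Sep (F : ι → Set ℂ) : Prop :=
  ∀ i, ∀ p ∈ F i, ∀ δ > 0, ∃ p', dist p p' < δ ∧ ∀ q ∈ F i, dist q p' ≠ 1

omit [DecidableEq ι] in
lemma usc (F : ι → Set ℂ) (hF : ∀ i, IsClosed (F i)) (p : ℂ) :
    ∃ r > 0, ∀ q, dist q p < r → ∀ i, q ∈ F i → p ∈ F i := by
  have : ∀ᶠ q in 𝓝 p, ∀ i, q ∈ F i → p ∈ F i := by
    rw [Filter.eventually_all]
    intro i
    by_cases hp : p ∈ F i
    · exact Filter.Eventually.of_forall (fun _ _ => hp)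
    · have h1 : (F i)ᶜ ∈ 𝓝 p := (hF i).isOpen_compl.mem_nhds hp
      filter_upwards [h1] with q hq hq'
      exact absurd hq' hq
  obtain ⟨r, hr, h⟩ := Metric.eventually_nhds_iff.1 this
  exact ⟨r, hr, fun q hq => h hq⟩

/-! ## chains -/

/-- one step of an `ε`-chain inside `A` -/
def Step (A : Set ℂ) (ε : ℝ) (p q : ℂ) : Prop := p ∈ A ∧ q ∈ A ∧ dist p q ≤ ε

/-- `ε`-chain connected inside `A` -/
def Conn (A : Set ℂ) (ε : ℝ) (p q : ℂ) : Prop := Relation.ReflTransGen (Step A ε) p q

lemma Step.symm {A : Set ℂ} {ε : ℝ} {p q : ℂ} (h : Step A ε p q) : Step A ε q p :=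
  ⟨h.2.1, h.1, by rw [dist_comm]; exact h.2.2⟩

lemma Conn.symm {A : Set ℂ} {ε : ℝ} {p q : ℂ} (h : Conn A ε p q) : Conn A ε q p := by
  induction h with
  | refl => exact Relation.ReflTransGen.refl
  | tail _ hbc ih => exact Relation.ReflTransGen.head hbc.symm ih

lemma Conn.mono {A : Set ℂ} {ε ε' : ℝ} (h : ε ≤ ε') {p q : ℂ} (hc : Conn A ε p q) :
    Conn A ε' p q := by
  induction hc with
  | refl => exact Relation.ReflTransGen.refl
  | tail _ hbc ih => exact Relation.ReflTransGen.tail ih ⟨hbc.1, hbc.2.1, hbc.2.2.trans h⟩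

lemma Conn.mem {A : Set ℂ} {ε : ℝ} {p q : ℂ} (hc : Conn A ε p q) (hp : p ∈ A) : q ∈ A := by
  induction hc with
  | refl => exact hp
  | tail _ hbc _ => exact hbc.2.1

/-- chains stay within `9/8` of their start: local version -/
lemma chain_local {A : Set ℂ} (hA : IsCompact A)
    (hsep : ∀ p ∈ A, ∀ δ > 0, ∃ p', dist p p' < δ ∧ ∀ q ∈ A, dist q p' ≠ 1) (p : ℂ) :
    ∃ r > 0, ∃ ε > 0, ∀ q₀, dist q₀ p < r → ∀ q, Conn A ε q₀ q → dist q₀ q ≤ 9 / 8 := by
  by_cases hp : p ∈ A
  · obtain ⟨p', hpp', hp'⟩ := hsep p hp (1 / 32) (by norm_num)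
    -- positive distance from the circle
    have hne : A.Nonempty := ⟨p, hp⟩
    have hcont : ContinuousOn (fun q : ℂ => |dist q p' - 1|) A := by fun_prop
    obtain ⟨q₁, hq₁, hmin⟩ := hA.exists_isMinOn hne hcont
    have hpos : 0 < |dist q₁ p' - 1| := by
      rw [abs_pos, sub_ne_zero]
      exact hp' q₁ hq₁
    refine ⟨1 / 32, by norm_num, |dist q₁ p' - 1|, hpos, ?_⟩
    intro q₀ hq₀ q hc
    have h0 : dist q₀ p' < 1 / 16 := by
      calc dist q₀ p' ≤ dist q₀ p + dist p p' := dist_triangle _ _ _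
        _ < 1 / 32 + 1 / 32 := by linarith
        _ = 1 / 16 := by norm_num
    have key : dist q p' < 1 := by
      induction hc with
      | refl => linarith
      | @tail b c _ hbc ih =>
        have h1 : |dist q₁ p' - 1| ≤ |dist b p' - 1| := hmin hbc.1
        have h2 : |dist q₁ p' - 1| ≤ |dist c p' - 1| := hmin hbc.2.1
        have h3 := hbc.2.2
        by_contra hcon
        push Not at hcon
        rw [abs_of_neg (by linarith : dist b p' - 1 < 0)] at h1
        rw [abs_of_nonneg (by linarith : 0 ≤ dist c p' - 1)] at h2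
        have h4 : dist c p' ≤ dist b c + dist b p' := by
          have := dist_triangle c b p'
          rw [dist_comm c b] at this
          exact this
        linarith
    calc dist q₀ q ≤ dist q₀ p' + dist p' q := dist_triangle _ _ _
      _ ≤ 1 / 16 + 1 := by rw [dist_comm p' q]; linarith
      _ ≤ 9 / 8 := by norm_num
  · obtain ⟨r, hr, hr'⟩ := Metric.isOpen_iff.1 hA.isClosed.isOpen_compl p hp
    refine ⟨r, hr, 1, one_pos, ?_⟩
    intro q₀ hq₀ q hc
    have hq₀' : q₀ ∉ A := hr' hq₀
    have : q = q₀ := by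
      rcases Relation.ReflTransGen.cases_head hc with h | ⟨b, hb, _⟩
      · exact h.symm
      · exact absurd hb.1 hq₀'
    rw [this, dist_self]
    norm_num

/-- chains stay within `9/8` of their start: global version -/
lemma chain_global {A K : Set ℂ} (hA : IsCompact A) (hK : IsCompact K)
    (hsep : ∀ p ∈ A, ∀ δ > 0, ∃ p', dist p p' < δ ∧ ∀ q ∈ A, dist q p' ≠ 1) :
    ∃ ε > 0, ∀ q₀ ∈ K, ∀ q, Conn A ε q₀ q → dist q₀ q ≤ 9 / 8 := by
  apply hK.induction_on (p := fun S => ∃ ε > 0, ∀ q₀ ∈ S, ∀ q, Conn A ε q₀ q → dist q₀ q ≤ 9 / 8)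
  · exact ⟨1, one_pos, fun q₀ h => absurd h (notMem_empty _)⟩
  · rintro s t hst ⟨ε, hε, h⟩
    exact ⟨ε, hε, fun q₀ hq₀ => h q₀ (hst hq₀)⟩
  · rintro s t ⟨ε, hε, h⟩ ⟨ε', hε', h'⟩
    refine ⟨min ε ε', lt_min hε hε', ?_⟩
    rintro q₀ (hq₀ | hq₀) q hc
    · exact h q₀ hq₀ q (hc.mono (min_le_left _ _))
    · exact h' q₀ hq₀ q (hc.mono (min_le_right _ _))
  · intro p _
    obtain ⟨r, hr, ε, hε, h⟩ := chain_local hA hsep p
    exact ⟨ball p r, mem_nhdsWithin_of_mem_nhds (ball_mem_nhds p hr), ε, hε,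
      fun q₀ hq₀ => h q₀ hq₀⟩

/-! ## the square and labels -/

/-- the square `[0,10]²` -/
def K : Set ℂ := {z | 0 ≤ z.re ∧ z.re ≤ 10 ∧ 0 ≤ z.im ∧ z.im ≤ 10}

lemma isCompact_K : IsCompact K := by
  have : K = (Icc (0 : ℝ) 10) ×ℂ (Icc (0 : ℝ) 10) := by
    ext z
    simp only [K, mem_ofPred_eq, Complex.mem_reProdIm, mem_Icc]
    tauto
  rw [this]
  exact isCompact_Icc.reProdIm isCompact_Icc

/-- the three sides -/
def H (k : Fin 3) : Set ℂ :=
  if k = 0 then {z | z.re ≤ 1} else if k = 1 then {z | z.im ≤ 1} else {z | 9 ≤ z.re ∨ 9 ≤ z.im}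

open Classical in
/-- the label of a component -/
noncomputable def lab (A : Set ℂ) (ε : ℝ) (p : ℂ) : Fin 3 :=
  if (∀ q, Conn A ε p q → q ∉ H 0) then 0 else if (∀ q, Conn A ε p q → q ∉ H 1) then 1 else 2

lemma lab_congr {A : Set ℂ} {ε : ℝ} {p q : ℂ} (h : Step A ε p q) : lab A ε p = lab A ε q := by
  have h1 : ∀ r, Conn A ε p r ↔ Conn A ε q r := by
    intro r
    constructor
    · intro h2; exact Relation.ReflTransGen.head h.symm h2
    · intro h2; exact Relation.ReflTransGen.head h h2
  have e0 : (∀ q', Conn A ε p q' → q' ∉ H 0) ↔ (∀ q', Conn A ε q q' → q' ∉ H 0) :=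
    forall_congr' fun r => imp_congr (h1 r) Iff.rfl
  have e1 : (∀ q', Conn A ε p q' → q' ∉ H 1) ↔ (∀ q', Conn A ε q q' → q' ∉ H 1) :=
    forall_congr' fun r => imp_congr (h1 r) Iff.rfl
  unfold lab
  by_cases a0 : (∀ q', Conn A ε p q' → q' ∉ H 0)
  · rw [if_pos a0, if_pos (e0.1 a0)]
  · rw [if_neg a0, if_neg (fun h => a0 (e0.2 h))]
    by_cases a1 : (∀ q', Conn A ε p q' → q' ∉ H 1)
    · rw [if_pos a1, if_pos (e1.1 a1)]
    · rw [if_neg a1, if_neg (fun h => a1 (e1.2 h))]

lemma lab_ne {A : Set ℂ} {ε : ℝ}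
    (hdiam : ∀ q₀ ∈ K, ∀ q, Conn A ε q₀ q → dist q₀ q ≤ 9 / 8) {p : ℂ} (hp : p ∈ K)
    (k : Fin 3) (hk : p ∈ H k) : lab A ε p ≠ k := by
  intro hlab
  unfold lab at hlab
  fin_cases k
  · split_ifs at hlab with h1 h2
    · exact h1 p Relation.ReflTransGen.refl hk
    · exact absurd hlab (by decide)
    · exact absurd hlab (by decide)
  · split_ifs at hlab with h1 h2
    · exact absurd hlab (by decide)
    · exact h2 p Relation.ReflTransGen.refl hk
    · exact absurd hlab (by decide)
  · split_ifs at hlab with h1 h2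
    · exact absurd hlab (by decide)
    · exact absurd hlab (by decide)
    · push Not at h1 h2
      obtain ⟨q, hq, hq0⟩ := h1
      obtain ⟨q', hq', hq1⟩ := h2
      have d1 := hdiam p hp q hq
      have d2 := hdiam p hp q' hq'
      have e1 : |p.re - q.re| ≤ 9 / 8 := by
        calc |p.re - q.re| = |(p - q).re| := by simp
          _ ≤ ‖p - q‖ := Complex.abs_re_le_norm _
          _ = dist p q := (dist_eq_norm _ _).symm
          _ ≤ 9 / 8 := d1
      have e2 : |p.im - q'.im| ≤ 9 / 8 := by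
        calc |p.im - q'.im| = |(p - q').im| := by simp
          _ ≤ ‖p - q'‖ := Complex.abs_im_le_norm _
          _ = dist p q' := (dist_eq_norm _ _).symm
          _ ≤ 9 / 8 := d2
      simp [H] at hk hq0 hq1
      rw [abs_le] at e1 e2
      rcases hk with hk | hk <;> linarith

/-! ## compactness lemmas -/

omit [DecidableEq ι] in
/-- Lemma A: near three colours there is a triple point. -/
lemma lemmaA (F : ι → Set ℂ) (hF : ∀ i, IsClosed (F i)) (δ : ℝ) (hδ : 0 < δ) :
    ∃ η > 0, ∀ p ∈ K, ∀ i j k, i ≠ j → i ≠ k → j ≠ k →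
      (∃ q ∈ F i, dist q p ≤ η) → (∃ q ∈ F j, dist q p ≤ η) → (∃ q ∈ F k, dist q p ≤ η) →
      ∃ z ∈ Tri F ∩ K, dist p z < δ := by
  apply isCompact_K.induction_on (p := fun S => ∃ η > 0, ∀ p ∈ S, ∀ i j k, i ≠ j → i ≠ k → j ≠ k →
      (∃ q ∈ F i, dist q p ≤ η) → (∃ q ∈ F j, dist q p ≤ η) → (∃ q ∈ F k, dist q p ≤ η) →
      ∃ z ∈ Tri F ∩ K, dist p z < δ)
  · exact ⟨1, one_pos, fun q₀ h => absurd h (notMem_empty _)⟩
  · rintro s t hst ⟨ε, hε, h⟩
    exact ⟨ε, hε, fun q₀ hq₀ => h q₀ (hst hq₀)⟩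
  · rintro s t ⟨ε, hε, h⟩ ⟨ε', hε', h'⟩
    refine ⟨min ε ε', lt_min hε hε', ?_⟩
    rintro p (hp | hp) i j k hij hik hjk ⟨q1, h1, d1⟩ ⟨q2, h2, d2⟩ ⟨q3, h3, d3⟩
    · exact h p hp i j k hij hik hjk ⟨q1, h1, d1.trans (min_le_left _ _)⟩
        ⟨q2, h2, d2.trans (min_le_left _ _)⟩ ⟨q3, h3, d3.trans (min_le_left _ _)⟩
    · exact h' p hp i j k hij hik hjk ⟨q1, h1, d1.trans (min_le_right _ _)⟩
        ⟨q2, h2, d2.trans (min_le_right _ _)⟩ ⟨q3, h3, d3.trans (min_le_right _ _)⟩
  · intro p₀ hp₀
    obtain ⟨r, hr, hr'⟩ := usc F hF p₀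
    by_cases hT : p₀ ∈ Tri F
    · refine ⟨ball p₀ δ, mem_nhdsWithin_of_mem_nhds (ball_mem_nhds p₀ hδ), 1, one_pos, ?_⟩
      intro p hp i j k _ _ _ _ _ _
      exact ⟨p₀, ⟨hT, hp₀⟩, hp⟩
    · refine ⟨ball p₀ (r / 2), mem_nhdsWithin_of_mem_nhds (ball_mem_nhds p₀ (by linarith)),
        r / 3, by linarith, ?_⟩
      rintro p hp i j k hij hik hjk ⟨q1, h1, d1⟩ ⟨q2, h2, d2⟩ ⟨q3, h3, d3⟩
      exfalso
      have hp' : dist p p₀ < r / 2 := hp
      have aux : ∀ q, dist q p ≤ r / 3 → dist q p₀ < r := by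
        intro q hq
        have := dist_triangle q p p₀
        linarith
      exact hT ⟨i, j, k, hij, hik, hjk, hr' q1 (aux q1 d1) i h1, hr' q2 (aux q2 d2) j h2,
        hr' q3 (aux q3 d3) k h3⟩

/-- Lemma B: away from the triple points, two colours give an exact pair. -/
lemma lemmaB (F : ι → Set ℂ) (hF : ∀ i, IsClosed (F i)) (δ δ' : ℝ) (hδ : 0 < δ) (hδ' : 0 < δ') :
    ∃ η > 0, ∀ p ∈ K, (∀ z ∈ Tri F ∩ K, δ ≤ dist p z) → ∀ i j, i ≠ j →
      (∃ q ∈ F i, dist q p ≤ η) → (∃ q ∈ F j, dist q p ≤ η) →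
      ∃ y ∈ Pair F i j, dist y p < δ' := by
  apply isCompact_K.induction_on (p := fun S => ∃ η > 0, ∀ p ∈ S,
      (∀ z ∈ Tri F ∩ K, δ ≤ dist p z) → ∀ i j, i ≠ j →
      (∃ q ∈ F i, dist q p ≤ η) → (∃ q ∈ F j, dist q p ≤ η) →
      ∃ y ∈ Pair F i j, dist y p < δ')
  · exact ⟨1, one_pos, fun q₀ h => absurd h (notMem_empty _)⟩
  · rintro s t hst ⟨ε, hε, h⟩
    exact ⟨ε, hε, fun q₀ hq₀ => h q₀ (hst hq₀)⟩
  · rintro s t ⟨ε, hε, h⟩ ⟨ε', hε', h'⟩
    refine ⟨min ε ε', lt_min hε hε', ?_⟩
    rintro p (hp | hp) hz i j hij ⟨q1, h1, d1⟩ ⟨q2, h2, d2⟩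
    · exact h p hp hz i j hij ⟨q1, h1, d1.trans (min_le_left _ _)⟩
        ⟨q2, h2, d2.trans (min_le_left _ _)⟩
    · exact h' p hp hz i j hij ⟨q1, h1, d1.trans (min_le_right _ _)⟩
        ⟨q2, h2, d2.trans (min_le_right _ _)⟩
  · intro p₀ hp₀
    obtain ⟨r, hr, hr'⟩ := usc F hF p₀
    by_cases hT : p₀ ∈ Tri F
    · refine ⟨ball p₀ δ, mem_nhdsWithin_of_mem_nhds (ball_mem_nhds p₀ hδ), 1, one_pos, ?_⟩
      intro p hp hz
      have := hz p₀ ⟨hT, hp₀⟩
      have hp' : dist p p₀ < δ := hp
      linarith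
    · refine ⟨ball p₀ (min (r / 2) δ'), mem_nhdsWithin_of_mem_nhds
        (ball_mem_nhds p₀ (lt_min (by linarith) hδ')), r / 3, by linarith, ?_⟩
      rintro p hp _ i j hij ⟨q1, h1, d1⟩ ⟨q2, h2, d2⟩
      have hp' : dist p p₀ < min (r / 2) δ' := hp
      have hp1 := lt_of_lt_of_le hp' (min_le_left _ _)
      have hp2 := lt_of_lt_of_le hp' (min_le_right _ _)
      have aux : ∀ q, dist q p ≤ r / 3 → dist q p₀ < r := by
        intro q hq
        have := dist_triangle q p p₀
        linarith
      have hi := hr' q1 (aux q1 d1) i h1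
      have hj := hr' q2 (aux q2 d2) j h2
      refine ⟨p₀, ?_, by rw [dist_comm]; exact hp2⟩
      intro k
      constructor
      · intro hk
        by_contra hcon
        push Not at hcon
        exact hT ⟨i, j, k, hij, Ne.symm hcon.1, Ne.symm hcon.2, hi, hj, hk⟩
      · rintro (rfl | rfl)
        · exact hi
        · exact hj

/-! ## clusters -/

/-- finite clopen partition of a compact totally disconnected set into small pieces -/
lemma clusters (T : Set ℂ) (hT : IsCompact T) (htd : IsTotallyDisconnected T) (r : ℂ → ℝ)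
    (hr : ∀ x ∈ T, 0 < r x) :
    ∃ (n : ℕ) (A : Fin n → Set ℂ) (x : Fin n → ℂ), (∀ l, x l ∈ T) ∧ (∀ l, IsCompact (A l)) ∧
      (∀ l, A l ⊆ ball (x l) (r (x l))) ∧ (∀ l, A l ⊆ T) ∧ (∀ z ∈ T, ∃ l, z ∈ A l) ∧
      (∀ l l', l ≠ l' → Disjoint (A l) (A l')) := by
  have : CompactSpace T := isCompact_iff_compactSpace.1 hT
  have : TotallyDisconnectedSpace T := totallyDisconnectedSpace_subtype_iff.2 htd
  -- small clopen neighbourhoods
  have h1 : ∀ t : T, ∃ V : Set T, IsClopen V ∧ t ∈ V ∧ ∀ z ∈ V, (z : ℂ) ∈ ball (t : ℂ) (r t) := by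
    intro t
    have hopen : IsOpen {z : T | (z : ℂ) ∈ ball (t : ℂ) (r t)} :=
      isOpen_ball.preimage continuous_subtype_val
    obtain ⟨V, hV, htV, hVs⟩ := compact_exists_isClopen_in_isOpen hopen
      (show t ∈ {z : T | (z : ℂ) ∈ ball (t : ℂ) (r t)} from mem_ball_self (hr t t.2))
    exact ⟨V, hV, htV, fun z hz => hVs hz⟩
  choose V hV htV hVs using h1
  obtain ⟨s, hs⟩ := isCompact_univ.elim_nhds_subcover V (fun t _ => (hV t).isOpen.mem_nhds (htV t))
  -- enumerate
  set n := s.card with hn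
  set e : Fin n ≃ s := s.equivFin.symm with he
  refine ⟨n, fun l => Subtype.val '' (V (e l) \ ⋃ l' : {l' : Fin n // l' < l}, V (e l')),
    fun l => ((e l : T) : ℂ), ?_, ?_, ?_, ?_, ?_, ?_⟩
  · intro l; exact (e l : T).2
  · intro l
    apply IsCompact.image _ continuous_subtype_val
    apply IsClosed.isCompact
    apply IsClosed.sdiff (hV _).isClosed
    exact isOpen_iUnion (fun l' => (hV _).isOpen)
  · rintro l _ ⟨z, hz, rfl⟩
    exact hVs _ z hz.1
  · rintro l _ ⟨z, hz, rfl⟩
    exact z.2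
  · intro z hz
    have hz' : (⟨z, hz⟩ : T) ∈ ⋃ t ∈ s, V t := hs.2 (mem_univ _)
    simp only [mem_iUnion] at hz'
    obtain ⟨t, hts, hzt⟩ := hz'
    -- least index
    have hex : ∃ l : Fin n, (⟨z, hz⟩ : T) ∈ V (e l) := by
      refine ⟨e.symm ⟨t, hts⟩, ?_⟩
      simpa using hzt
    classical
    obtain ⟨l, hl, hmin⟩ : ∃ l : Fin n, (⟨z, hz⟩ : T) ∈ V (e l) ∧
        ∀ l' : Fin n, l' < l → (⟨z, hz⟩ : T) ∉ V (e l') := by
      let S := Finset.univ.filter (fun l : Fin n => (⟨z, hz⟩ : T) ∈ V (e l))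
      have hS : S.Nonempty := by
        obtain ⟨l, hl⟩ := hex
        exact ⟨l, by simp [S, hl]⟩
      refine ⟨S.min' hS, ?_, ?_⟩
      · have := S.min'_mem hS
        simp only [S, Finset.mem_filter, Finset.mem_univ, true_and] at this
        exact this
      · intro l' hl' hcon
        have : l' ∈ S := by simp [S, hcon]
        exact absurd (S.min'_le l' this) (not_le.2 hl')
    refine ⟨l, ⟨z, hz⟩, ⟨hl, ?_⟩, rfl⟩
    simp only [mem_iUnion, not_exists]
    rintro ⟨l', hl'⟩
    exact hmin l' hl'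
  · intro l l' hll'
    rw [Set.disjoint_left]
    rintro _ ⟨z, hz, rfl⟩ ⟨z', hz', hzz⟩
    have : z' = z := Subtype.val_injective hzz
    subst this
    rcases lt_or_gt_of_ne hll' with h | h
    · exact hz'.2 (mem_iUnion.2 ⟨⟨l, h⟩, hz.1⟩)
    · exact hz.2 (mem_iUnion.2 ⟨⟨l', h⟩, hz'.1⟩)

/-! ## the grid in the plane -/

/-- grid point -/
noncomputable def P (h : ℝ) (v : ℕ × ℕ) : ℂ := ⟨h * v.1, h * v.2⟩

lemma P_mem_K {N : ℕ} (hN : 0 < N) {v : ℕ × ℕ} (h1 : v.1 ≤ N) (h2 : v.2 ≤ N) :
    P (10 / N) v ∈ K := by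
  have hN' : (0 : ℝ) < N := by exact_mod_cast hN
  have h1' : (v.1 : ℝ) ≤ N := by exact_mod_cast h1
  have h2' : (v.2 : ℝ) ≤ N := by exact_mod_cast h2
  have e1 : 10 / (N : ℝ) * v.1 ≤ 10 := by
    rw [div_mul_eq_mul_div, div_le_iff₀ hN']
    nlinarith
  have e2 : 10 / (N : ℝ) * v.2 ≤ 10 := by
    rw [div_mul_eq_mul_div, div_le_iff₀ hN']
    nlinarith
  refine ⟨?_, e1, ?_, e2⟩
  · show 0 ≤ 10 / (N : ℝ) * v.1
    positivity
  · show 0 ≤ 10 / (N : ℝ) * v.2
    positivity

lemma vert_bound (a b : ℕ) (s : Bool) (j : Fin 3) :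
    a ≤ (vert a b s j).1 ∧ (vert a b s j).1 ≤ a + 1 ∧ b ≤ (vert a b s j).2 ∧
      (vert a b s j).2 ≤ b + 1 := by
  cases s <;> fin_cases j <;> simp [vert]

lemma dist_P_vert {h : ℝ} (hh : 0 ≤ h) (a b : ℕ) (s : Bool) (j j' : Fin 3) :
    dist (P h (vert a b s j)) (P h (vert a b s j')) ≤ 2 * h := by
  obtain ⟨h1, h2, h3, h4⟩ := vert_bound a b s j
  obtain ⟨h1', h2', h3', h4'⟩ := vert_bound a b s j'
  set v := vert a b s j
  set w := vert a b s j'
  have e1 : |(v.1 : ℝ) - w.1| ≤ 1 := by
    have a1 : (a : ℝ) ≤ v.1 := by exact_mod_cast h1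
    have a2 : (v.1 : ℝ) ≤ a + 1 := by exact_mod_cast h2
    have a3 : (a : ℝ) ≤ w.1 := by exact_mod_cast h1'
    have a4 : (w.1 : ℝ) ≤ a + 1 := by exact_mod_cast h2'
    rw [abs_le]; constructor <;> linarith
  have e2 : |(v.2 : ℝ) - w.2| ≤ 1 := by
    have a1 : (b : ℝ) ≤ v.2 := by exact_mod_cast h3
    have a2 : (v.2 : ℝ) ≤ b + 1 := by exact_mod_cast h4
    have a3 : (b : ℝ) ≤ w.2 := by exact_mod_cast h3'
    have a4 : (w.2 : ℝ) ≤ b + 1 := by exact_mod_cast h4'
    rw [abs_le]; constructor <;> linarith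
  rw [dist_eq_norm]
  have e3 := Complex.norm_le_abs_re_add_abs_im (P h v - P h w)
  have e4 : (P h v - P h w).re = h * (v.1 - w.1) := by simp [P]; ring
  have e5 : (P h v - P h w).im = h * (v.2 - w.2) := by simp [P]; ring
  rw [e4, e5, abs_mul, abs_mul, abs_of_nonneg hh] at e3
  nlinarith

lemma exists_pos_le {κ : Type*} [Finite κ] (f : κ → ℝ) (hf : ∀ i, 0 < f i) :
    ∃ ε > 0, ∀ i, ε ≤ f i := by
  rcases isEmpty_or_nonempty κ with h | h
  · exact ⟨1, one_pos, fun i => isEmptyElim i⟩
  · obtain ⟨i₀, h⟩ := Finite.exists_min f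
    exact ⟨f i₀, hf i₀, h⟩

omit [DecidableEq ι] in
lemma isClosed_Tri (F : ι → Set ℂ) (hF : ∀ i, IsClosed (F i)) : IsClosed (Tri F) := by
  have : Tri F = ⋃ (t : {t : ι × ι × ι // t.1 ≠ t.2.1 ∧ t.1 ≠ t.2.2 ∧ t.2.1 ≠ t.2.2}),
      (F t.1.1 ∩ F t.1.2.1 ∩ F t.1.2.2) := by
    ext x
    simp only [Tri, mem_ofPred_eq, mem_iUnion, mem_inter_iff]
    constructor
    · rintro ⟨i, j, k, h1, h2, h3, hi, hj, hk⟩
      exact ⟨⟨(i, j, k), h1, h2, h3⟩, ⟨hi, hj⟩, hk⟩
    · rintro ⟨⟨⟨i, j, k⟩, h1, h2, h3⟩, ⟨hi, hj⟩, hk⟩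
      exact ⟨i, j, k, h1, h2, h3, hi, hj, hk⟩
  rw [this]
  exact isClosed_iUnion_of_finite (fun t => ((hF _).inter (hF _)).inter (hF _))

omit [Fintype ι] [DecidableEq ι] in
lemma Pair_comm (F : ι → Set ℂ) (i j : ι) : Pair F i j = Pair F j i := by
  ext y
  simp only [Pair, mem_ofPred_eq]
  constructor
  · intro h k; rw [h k, or_comm]
  · intro h k; rw [h k, or_comm]

omit [DecidableEq ι] in
/-- stability radius for exact pairs -/
lemma stab (F : ι → Set ℂ) (x : ℂ) :
    ∃ r > 0, ∀ i j, ∀ y ∈ Pair F i j, dist y x < 4 * r → x ∈ closure (Pair F i j) := by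
  have h1 : ∀ t : ι × ι, ∃ r > 0, ∀ y ∈ Pair F t.1 t.2, dist y x < 4 * r →
      x ∈ closure (Pair F t.1 t.2) := by
    intro t
    by_cases hx : x ∈ closure (Pair F t.1 t.2)
    · exact ⟨1, one_pos, fun _ _ _ => hx⟩
    · obtain ⟨r, hr, hr'⟩ := Metric.isOpen_iff.1 isClosed_closure.isOpen_compl x hx
      refine ⟨r / 4, by linarith, ?_⟩
      intro y hy hyx
      exfalso
      exact hr' (show y ∈ ball x r by rw [mem_ball]; linarith) (subset_closure hy)
  choose f hf hf' using h1
  obtain ⟨r, hr, hr'⟩ := exists_pos_le f hf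
  refine ⟨r, hr, ?_⟩
  intro i j y hy hyx
  exact hf' (i, j) y hy (by have := hr' (i, j); linarith)

/-- **Existence of an essential point.** -/
theorem exists_cycle_point (F : ι → Set ℂ) (hF : ∀ i, IsClosed (F i))
    (hcov : ∀ x, ∃ i, x ∈ F i) (hsep : Sep F) (htd : IsTotallyDisconnected (Tri F)) :
    ∃ x, ∃ m : ι → ι → ZMod 2, (∀ i, m i i = 0) ∧ (∀ i j, m i j = m j i) ∧
      (∀ i j, m i j ≠ 0 → x ∈ closure (Pair F i j)) ∧ (∀ i, ∑ j, m i j = 0) ∧
      ∃ i j, m i j ≠ 0 := by
  classical
  by_contra hcon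
  have hac : ∀ x, ∀ m : ι → ι → ZMod 2, (∀ i, m i i = 0) → (∀ i j, m i j = m j i) →
      (∀ i j, m i j ≠ 0 → x ∈ closure (Pair F i j)) → (∀ i, ∑ j, m i j = 0) →
      ∀ i j, m i j = 0 := by
    intro x m h1 h2 h3 h4 i j
    by_contra h5
    exact hcon ⟨x, m, h1, h2, h3, h4, i, j, h5⟩
  -- ε
  have hAc : ∀ i, IsCompact (F i ∩ K) := fun i => isCompact_K.inter_left (hF i)
  have hsepA : ∀ i, ∀ p ∈ F i ∩ K, ∀ δ > 0, ∃ p', dist p p' < δ ∧
      ∀ q ∈ F i ∩ K, dist q p' ≠ 1 := by
    intro i p hp δ hδ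
    obtain ⟨p', h1, h2⟩ := hsep i p hp.1 δ hδ
    exact ⟨p', h1, fun q hq => h2 q hq.1⟩
  choose ε₁ hε₁ hε₁' using fun i => chain_global (hAc i) isCompact_K (hsepA i)
  obtain ⟨ε₂, hε₂, hε₂'⟩ := exists_pos_le ε₁ hε₁
  set ε := min ε₂ 1 with hεdef
  have hε : 0 < ε := lt_min hε₂ one_pos
  have hε1 : ε ≤ 1 := min_le_right _ _
  have hdiam : ∀ i, ∀ q₀ ∈ K, ∀ q, Conn (F i ∩ K) ε q₀ q → dist q₀ q ≤ 9 / 8 := by
    intro i q₀ hq₀ q hc
    exact hε₁' i q₀ hq₀ q (hc.mono ((min_le_left _ _).trans (hε₂' i)))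
  -- clusters
  have hTc : IsCompact (Tri F ∩ K) := isCompact_K.inter_left (isClosed_Tri F hF)
  have hTd : IsTotallyDisconnected (Tri F ∩ K) :=
    fun t ht hpre => htd t (ht.trans inter_subset_left) hpre
  choose r₁ hr₁ hr₁' using stab F
  obtain ⟨n, A, x, hxT, hAcomp, hAball, hAT, hAcov, hAdisj⟩ :=
    clusters (Tri F ∩ K) hTc hTd (fun x => min (r₁ x) (ε / 100))
      (fun x _ => lt_min (hr₁ x) (by linarith))
  -- ρ
  have hsepρ : ∀ t : {t : Fin n × Fin n // t.1 ≠ t.2}, ∃ ρ > 0,
      ∀ z ∈ A t.1.1, ∀ z' ∈ A t.1.2, 8 * ρ ≤ dist z z' := by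
    rintro ⟨⟨l, l'⟩, hll'⟩
    obtain ⟨ρ, hρ, hρ'⟩ := Metric.exists_pos_forall_lt_edist (hAcomp l) (hAcomp l').isClosed
      (hAdisj l l' hll')
    refine ⟨ρ / 8, by positivity, ?_⟩
    intro z hz z' hz'
    have h1 := hρ' z hz z' hz'
    rw [edist_nndist, ENNReal.coe_lt_coe] at h1
    have h2 : (ρ : ℝ) < dist z z' := by
      rw [← coe_nndist]; exact_mod_cast h1
    linarith
  choose ρ₁ hρ₁ hρ₁' using hsepρ
  obtain ⟨ρ₂, hρ₂, hρ₂'⟩ := exists_pos_le ρ₁ hρ₁
  obtain ⟨ρ₃, hρ₃, hρ₃'⟩ := exists_pos_le (fun l : Fin n => min (r₁ (x l)) (ε / 100))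
    (fun l => lt_min (hr₁ _) (by linarith))
  set ρ := min (min ρ₂ ρ₃) (ε / 100) with hρdef
  have hρ : 0 < ρ := lt_min (lt_min hρ₂ hρ₃) (by linarith)
  have hρε : ρ ≤ ε / 100 := min_le_right _ _
  have hρr : ∀ l, ρ ≤ r₁ (x l) := fun l =>
    ((min_le_left _ _).trans (min_le_right _ _)).trans ((hρ₃' l).trans (min_le_left _ _))
  have hρd : ∀ l l', l ≠ l' → ∀ z ∈ A l, ∀ z' ∈ A l', 8 * ρ ≤ dist z z' := by
    intro l l' hll' z hz z' hz'
    have h1 := hρ₁' ⟨(l, l'), hll'⟩ z hz z' hz'
    have h2 : ρ ≤ ρ₁ ⟨(l, l'), hll'⟩ :=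
      ((min_le_left _ _).trans (min_le_left _ _)).trans (hρ₂' _)
    linarith
  have hAsmall : ∀ l, ∀ z ∈ A l, dist z (x l) < ε / 100 ∧ dist z (x l) < r₁ (x l) := by
    intro l z hz
    have := hAball l hz
    rw [mem_ball, lt_min_iff] at this
    exact ⟨this.2, this.1⟩
  -- mesh
  obtain ⟨ηA, hηA, hηA'⟩ := lemmaA F hF ρ hρ
  obtain ⟨ηB, hηB, hηB'⟩ := lemmaB F hF ρ ρ hρ hρ
  obtain ⟨N, hN⟩ := exists_nat_gt (20 / min (min ηA ηB) (ρ / 4))
  have hmpos : 0 < min (min ηA ηB) (ρ / 4) := lt_min (lt_min hηA hηB) (by linarith)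
  have hNpos' : (0 : ℝ) < N := lt_trans (by positivity) hN
  have hNpos : 0 < N := by exact_mod_cast hNpos'
  set h : ℝ := 10 / N with hh
  have hhpos : 0 < h := by positivity
  have hhN : h * N = 10 := by rw [hh]; field_simp
  have h2h : 2 * h ≤ min (min ηA ηB) (ρ / 4) := by
    rw [div_lt_iff₀ hmpos] at hN
    have : 2 * h = 20 / N := by rw [hh]; ring
    rw [this, div_le_iff₀ hNpos']
    linarith
  have hhA : 2 * h ≤ ηA := h2h.trans ((min_le_left _ _).trans (min_le_left _ _))
  have hhB : 2 * h ≤ ηB := h2h.trans ((min_le_left _ _).trans (min_le_right _ _))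
  have hhρ : 2 * h ≤ ρ / 4 := h2h.trans (min_le_right _ _)
  -- colours and labels
  choose col hcol using hcov
  set c : ℕ × ℕ → ι := fun v => col (P h v) with hc
  set ℓ : ℕ × ℕ → Fin 3 := fun v => lab (F (c v) ∩ K) ε (P h v) with hℓ
  have hcF : ∀ v, P h v ∈ F (c v) := fun v => hcol _
  have hPK : ∀ v : ℕ × ℕ, v.1 ≤ N → v.2 ≤ N → P h v ∈ K := fun v h1 h2 => P_mem_K hNpos h1 h2
  have hvK : ∀ a < N, ∀ b < N, ∀ s j, P h (vert a b s j) ∈ K := by
    intro a ha b hb s j
    obtain ⟨h1, h2, h3, h4⟩ := vert_bound a b s j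
    exact hPK _ (by omega) (by omega)
  have hlabne : ∀ v : ℕ × ℕ, v.1 ≤ N → v.2 ≤ N → ∀ k, P h v ∈ H k → ℓ v ≠ k := by
    intro v h1 h2 k hk
    exact lab_ne (hdiam (c v)) (hPK v h1 h2) k hk
  refine grid_contradiction N c ℓ ?_ ?_ ?_ ?_
    (fun l v => (∃ z ∈ A l, dist (P h v) z < ρ) ∧
      (∃ z ∈ A l, 1 / 2 ≤ z.re ∧ z.re ≤ 19 / 2 ∧ 1 / 2 ≤ z.im ∧ z.im ≤ 19 / 2))
    (fun l i => if hx : ∃ q, q ∈ F i ∩ K ∧ ∃ z ∈ A l, dist q z < 2 * ρ then
      lab (F i ∩ K) ε hx.choose else 0)
    (fun l i j => x l ∈ closure (Pair F i j)) ?_ ?_ ?_ ?_ ?_ ?_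
  · -- left
    intro b hb
    apply hlabne (0, b) (Nat.zero_le _) hb
    simp [H, P]
  · -- bottom
    intro a ha
    apply hlabne (a, 0) ha (Nat.zero_le _)
    simp [H, P]
  · -- right
    intro b hb
    apply hlabne (N, b) le_rfl hb
    simp only [H, P]
    left
    show (9 : ℝ) ≤ h * N
    rw [hhN]; norm_num
  · -- top
    intro a ha
    apply hlabne (a, N) ha le_rfl
    simp only [H, P]
    right
    show (9 : ℝ) ≤ h * N
    rw [hhN]; norm_num
  · -- rainbow triangles are near a cluster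
    intro a ha b hb s hrb
    obtain ⟨j0, hj0⟩ := hrb 0
    obtain ⟨j1, hj1⟩ := hrb 1
    obtain ⟨j2, hj2⟩ := hrb 2
    have hdd : ∀ j j', dist (P h (vert a b s j)) (P h (vert a b s j')) ≤ 2 * h :=
      fun j j' => dist_P_vert hhpos.le a b s j j'
    -- the three colours are distinct
    have hcol_ne : ∀ j j', ℓ (vert a b s j) ≠ ℓ (vert a b s j') →
        c (vert a b s j) ≠ c (vert a b s j') := by
      intro j j' hne heq
      apply hne
      show lab (F (c (vert a b s j)) ∩ K) ε _ = lab (F (c (vert a b s j')) ∩ K) ε _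
      rw [heq]
      apply lab_congr
      refine ⟨⟨?_, hvK a ha b hb s j⟩, ⟨hcF _, hvK a ha b hb s j'⟩, ?_⟩
      · rw [← heq]; exact hcF _
      · have := hdd j j'
        linarith
    have c01 : c (vert a b s j0) ≠ c (vert a b s j1) := by
      apply hcol_ne; rw [hj0, hj1]; decide
    have c02 : c (vert a b s j0) ≠ c (vert a b s j2) := by
      apply hcol_ne; rw [hj0, hj2]; decide
    have c12 : c (vert a b s j1) ≠ c (vert a b s j2) := by
      apply hcol_ne; rw [hj1, hj2]; decide
    obtain ⟨z, hz, hdz⟩ := hηA' (P h (vert a b s j0)) (hvK a ha b hb s j0) _ _ _ c01 c02 c12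
      ⟨_, hcF _, (hdd _ _).trans hhA⟩ ⟨_, hcF _, (hdd _ _).trans hhA⟩ ⟨_, hcF _, (hdd _ _).trans hhA⟩
    obtain ⟨l, hl⟩ := hAcov z hz
    refine ⟨l, j0, ⟨z, hl, hdz⟩, z, hl, ?_⟩
    -- position
    have hin : ∀ j k, ℓ (vert a b s j) = k → P h (vert a b s j) ∉ H k := by
      intro j k hjk hmem
      obtain ⟨h1, h2, h3, h4⟩ := vert_bound a b s j
      exact hlabne _ (by omega) (by omega) k hmem hjk
    have p0 := hin j0 0 hj0
    have p1 := hin j1 1 hj1
    have p2 := hin j2 2 hj2
    simp only [H, if_true, mem_ofPred_eq, not_le] at p0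
    simp [H] at p1
    simp [H] at p2
    have d0 := hdd j1 j0
    have d2 := hdd j2 j0
    have hre : ∀ p q : ℂ, |p.re - q.re| ≤ dist p q := by
      intro p q
      rw [dist_eq_norm]
      simpa using Complex.abs_re_le_norm (p - q)
    have him : ∀ p q : ℂ, |p.im - q.im| ≤ dist p q := by
      intro p q
      rw [dist_eq_norm]
      simpa using Complex.abs_im_le_norm (p - q)
    have b1 := abs_le.1 (hre (P h (vert a b s j0)) z)
    have b2 := abs_le.1 (him (P h (vert a b s j0)) z)
    have b3 := abs_le.1 (him (P h (vert a b s j1)) (P h (vert a b s j0)))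
    have b4 := abs_le.1 (him (P h (vert a b s j2)) (P h (vert a b s j0)))
    have b5 := abs_le.1 (hre (P h (vert a b s j2)) (P h (vert a b s j0)))
    refine ⟨?_, ?_, ?_, ?_⟩ <;> linarith [b1.1, b1.2, b2.1, b2.2, b3.1, b3.2, b4.1, b4.2, b5.1, b5.2,
      p2.1, p2.2]
  · -- near vertices are interior
    rintro l v ⟨⟨z, hz, hdz⟩, z', hz', h1, h2, h3, h4⟩
    have e1 := (hAsmall l z hz).1
    have e2 := (hAsmall l z' hz').1
    have e3 : dist (P h v) z' < 1 / 10 := by
      have t1 := dist_triangle (P h v) z z'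
      have t2 := dist_triangle_right z z' (x l)
      linarith
    have b1 : |(P h v).re - z'.re| ≤ dist (P h v) z' := by
      rw [dist_eq_norm]
      simpa using Complex.abs_re_le_norm (P h v - z')
    have b2 : |(P h v).im - z'.im| ≤ dist (P h v) z' := by
      rw [dist_eq_norm]
      simpa using Complex.abs_im_le_norm (P h v - z')
    have f1 : (P h v).re = h * v.1 := rfl
    have f2 : (P h v).im = h * v.2 := rfl
    rw [f1] at b1
    rw [f2] at b2
    obtain ⟨b1l, b1r⟩ := abs_le.1 b1
    obtain ⟨b2l, b2r⟩ := abs_le.1 b2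
    refine ⟨?_, ?_, ?_, ?_⟩
    · by_contra hv
      have : v.1 = 0 := by omega
      rw [this] at b1l
      simp at b1l
      linarith
    · by_contra hv
      push Not at hv
      have : (N : ℝ) ≤ v.1 := by exact_mod_cast hv
      have : h * N ≤ h * v.1 := by gcongr
      linarith
    · by_contra hv
      have : v.2 = 0 := by omega
      rw [this] at b2l
      simp at b2l
      linarith
    · by_contra hv
      push Not at hv
      have : (N : ℝ) ≤ v.2 := by exact_mod_cast hv
      have : h * N ≤ h * v.2 := by gcongr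
      linarith
  · -- uniqueness
    rintro a ha b hb s l l' j j' ⟨⟨z, hz, hdz⟩, -⟩ ⟨⟨z', hz', hdz'⟩, -⟩
    by_contra hll'
    have h1 := hρd l l' hll' z hz z' hz'
    have h2 := dist_P_vert hhpos.le a b s j j'
    have h3 := dist_triangle z (P h (vert a b s j)) z'
    have h4 := dist_triangle (P h (vert a b s j)) (P h (vert a b s j')) z'
    rw [dist_comm z (P h (vert a b s j))] at h3
    linarith
  · -- labels are a function of the colour
    rintro a ha b hb s l j j' ⟨⟨z, hz, hdz⟩, -⟩
    have hex : ∃ q, q ∈ F (c (vert a b s j')) ∩ K ∧ ∃ z ∈ A l, dist q z < 2 * ρ := by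
      refine ⟨P h (vert a b s j'), ⟨hcF _, hvK a ha b hb s j'⟩, z, hz, ?_⟩
      have h2 := dist_P_vert hhpos.le a b s j' j
      have h3 := dist_triangle (P h (vert a b s j')) (P h (vert a b s j)) z
      linarith
    rw [dif_pos hex]
    obtain ⟨hq, z', hz', hdz'⟩ := hex.choose_spec
    show lab _ ε _ = lab _ ε _
    apply lab_congr
    refine ⟨⟨hcF _, hvK a ha b hb s j'⟩, hq, ?_⟩
    have h2 := dist_P_vert hhpos.le a b s j' j
    have h3 := dist_triangle (P h (vert a b s j')) (P h (vert a b s j)) z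
    have h4 := dist_triangle (P h (vert a b s j')) z hex.choose
    have h5 := dist_triangle z z' hex.choose
    have h6 := dist_triangle_right z z' (x l)
    have e1 := (hAsmall l z hz).1
    have e2 := (hAsmall l z' hz').1
    rw [dist_comm z' hex.choose] at h5
    linarith
  · -- edges
    rintro a ha b hb s l j j₁ j₂ ⟨⟨z, hz, hdz⟩, hrel⟩ hn1 hn2 hcc
    have hd1 := dist_P_vert hhpos.le a b s j₁ j
    have hd3 := dist_triangle (P h (vert a b s j₁)) (P h (vert a b s j)) z
    have hfar : ∀ z' ∈ Tri F ∩ K, ρ ≤ dist (P h (vert a b s j₁)) z' := by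
      intro z' hz'
      obtain ⟨l', hl'⟩ := hAcov z' hz'
      by_cases hll' : l' = l
      · subst hll'
        by_contra hcon'
        push Not at hcon'
        exact hn1 ⟨⟨z', hl', hcon'⟩, hrel⟩
      · have h1 := hρd l' l hll' z' hl' z hz
        have h2 := dist_triangle z' (P h (vert a b s j₁)) z
        rw [dist_comm z' (P h (vert a b s j₁))] at h2
        linarith
    obtain ⟨y, hy, hdy⟩ := hηB' (P h (vert a b s j₁)) (hvK a ha b hb s j₁) hfar _ _ hcc
      ⟨P h (vert a b s j₁), hcF _, by rw [dist_self]; exact hηB.le⟩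
      ⟨P h (vert a b s j₂), hcF _, (dist_P_vert hhpos.le a b s j₂ j₁).trans hhB⟩
    apply hr₁' (x l) _ _ y hy
    have e1 := (hAsmall l z hz).2
    have e2 := hρr l
    have t1 := dist_triangle y (P h (vert a b s j₁)) (x l)
    have t2 := dist_triangle (P h (vert a b s j₁)) z (x l)
    linarith
  · -- acyclicity
    intro l m h1 h2 h3 h4
    apply hac (x l) m h1 h2 _ h4
    intro i j hij
    rcases h3 i j hij with h | h
    · exact h
    · rw [Pair_comm]; exact h



end Crest.Agent.R40.Top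
end

-- ▼ part R40/T3Exist
section

/-!
# R40 / T3 : existence of a point with a cycle of accumulating exact pairs (helper772)
-/

set_option autoImplicit false

open Set Metric Topology Filter

namespace Crest.Agent.R40.T3

/-- in an even symmetric mod-2 function every edge can be continued -/
lemma exists_second {m : Fin 5 → Fin 5 → ZMod 2} (hsymm : ∀ i j, m i j = m j i)
    (heven : ∀ i, ∑ j, m i j = 0) {i j : Fin 5} (hij : m i j ≠ 0) : ∃ k, k ≠ i ∧ m j k ≠ 0 := by
  by_contra hcon
  push Not at hcon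
  have h1 := heven j
  rw [Finset.sum_eq_single i (fun k _ hk => hcon k hk)
    (fun h => absurd (Finset.mem_univ i) h)] at h1
  exact hij (by rw [hsymm]; exact h1)

lemma cycle_of_even {m : Fin 5 → Fin 5 → ZMod 2} (hd : ∀ i, m i i = 0)
    (hsymm : ∀ i j, m i j = m j i) (heven : ∀ i, ∑ j, m i j = 0) {i j : Fin 5}
    (hij : m i j ≠ 0) :
    Tri (fun a b => m a b ≠ 0) ∨ Quad (fun a b => m a b ≠ 0) ∨ Pent (fun a b => m a b ≠ 0) := by
  have hne : ∀ {a b : Fin 5}, m a b ≠ 0 → a ≠ b := by
    rintro a b h rfl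
    exact h (hd a)
  have hij' := hne hij
  obtain ⟨k, hki, hjk⟩ := exists_second hsymm heven hij
  have hjk' := hne hjk
  obtain ⟨l, hlj, hkl⟩ := exists_second hsymm heven hjk
  have hkl' := hne hkl
  by_cases hli : l = i
  · subst hli
    left
    exact ⟨l, j, k, hij', hki.symm, hjk', hij, hjk, hkl⟩
  obtain ⟨p, hpk, hlp⟩ := exists_second hsymm heven hkl
  have hlp' := hne hlp
  by_cases hpi : p = i
  · subst hpi
    right; left
    exact ⟨p, j, k, l, hij', hki.symm, Ne.symm hli, hjk', Ne.symm hlj, hkl', hij, hjk, hkl, hlp⟩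
  by_cases hpj : p = j
  · subst hpj
    left
    exact ⟨p, k, l, hjk', Ne.symm hlj, hkl', hjk, hkl, hlp⟩
  obtain ⟨q, hql, hpq⟩ := exists_second hsymm heven hlp
  have hpq' := hne hpq
  have hq : q = i ∨ q = j ∨ q = k := by
    revert hij' hjk' hkl' hlp' hpq' hki hlj hli hpk hpi hpj hql
    clear hij hjk hkl hlp hpq hne heven hsymm hd
    revert i j k l p q
    decide
  rcases hq with rfl | rfl | rfl
  · right; right
    exact ⟨q, j, k, l, p, hij', hki.symm, Ne.symm hli, Ne.symm hpi, hjk', Ne.symm hlj,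
      Ne.symm hpj, hkl', Ne.symm hpk, hlp', hij, hjk, hkl, hlp, hpq⟩
  · right; left
    exact ⟨q, k, l, p, hjk', Ne.symm hlj, Ne.symm hpj, hkl', Ne.symm hpk, hlp', hjk, hkl, hlp, hpq⟩
  · left
    exact ⟨q, l, p, hkl', Ne.symm hpk, hlp', hkl, hlp, hpq⟩

variable {U : Fin 5 → Set ℂ}

/-- **Existence** (`hex` of `T3_false_of`). -/
theorem exists_cycle (h : Cov U) : ∃ x, Tri (Acc U x) ∨ Quad (Acc U x) ∨ Pent (Acc U x) := by
  have hsep : Top.Sep (F U) := by
    intro i p hp δ hδ
    obtain ⟨p', hp', hd⟩ := Metric.mem_closure_iff.1 hp δ hδ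
    refine ⟨p', hd, ?_⟩
    intro q hq
    exact h.dist_ne_of_mem hq hp'
  have hsub : Top.Tri (F U) ⊆ Th U := by
    rintro x ⟨i, j, k, hij, hik, hjk, hi, hj, hk⟩
    have h1 : ({i, j, k} : Finset (Fin 5)) ⊆ J U x := by
      intro a ha
      simp only [Finset.mem_insert, Finset.mem_singleton] at ha
      rcases ha with rfl | rfl | rfl
      · exact mem_J.2 hi
      · exact mem_J.2 hj
      · exact mem_J.2 hk
    have h2 := Finset.card_le_card h1
    rw [Finset.card_insert_of_notMem (by simp [hij, hik]),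
      Finset.card_insert_of_notMem (by simpa using hjk), Finset.card_singleton] at h2
    exact h2
  have htd : IsTotallyDisconnected (Top.Tri (F U)) := by
    intro t ht hpre
    exact h.isTotallyDisconnected_Th t (ht.trans hsub) hpre
  obtain ⟨x, m, hd, hsymm, hsupp, heven, i, j, hij⟩ :=
    Top.exists_cycle_point (F U) (fun i => isClosed_F i) h.cover hsep htd
  have hacc : ∀ a b, m a b ≠ 0 → Acc U x a b := by
    intro a b hab
    have h1 := mem_closure_iff_frequently.1 (hsupp a b hab)
    refine h1.mono ?_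
    intro z hz
    ext k
    rw [mem_J, hz k]
    simp
  refine ⟨x, ?_⟩
  rcases cycle_of_even hd hsymm heven hij with h3 | h4 | h5
  · left
    obtain ⟨a, b, c, h1, h2, h3, e1, e2, e3⟩ := h3
    exact ⟨a, b, c, h1, h2, h3, hacc _ _ e1, hacc _ _ e2, hacc _ _ e3⟩
  · right; left
    obtain ⟨a, b, c, d, h1, h2, h3, h4, h5, h6, e1, e2, e3, e4⟩ := h4
    exact ⟨a, b, c, d, h1, h2, h3, h4, h5, h6, hacc _ _ e1, hacc _ _ e2, hacc _ _ e3, hacc _ _ e4⟩
  · right; right
    obtain ⟨a, b, c, d, e, h1, h2, h3, h4, h5, h6, h7, h8, h9, h10, e1, e2, e3, e4, e5⟩ := h5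
    exact ⟨a, b, c, d, e, h1, h2, h3, h4, h5, h6, h7, h8, h9, h10, hacc _ _ e1, hacc _ _ e2,
      hacc _ _ e3, hacc _ _ e4, hacc _ _ e5⟩

end Crest.Agent.R40.T3
end

-- ▼ part R40/T3CaseIIb
section

set_option autoImplicit false

open Set Metric Topology Filter

namespace Crest.Agent.R40.T3CaseII

open Crest.Agent.R40.T3

variable {U : Fin 5 → Set ℂ}

/-- the palette system at a point with all five colours, from (D) and (G1) -/
theorem sys_of (h : Cov U) {x : ℂ} (hx : J U x = Finset.univ)
    (hD : ∀ (c : Fin 5) (v d : ℝ), 0 < d →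
      (∀ a b : ℝ, |a - v| < d → |b - v| < d → a ≠ b → x + uv a - uv b ∈ U c) →
      ∀ s : ℝ, x + uv s ∉ F U c)
    (hG1 : ∀ i j : Fin 5, Dense (Sol U i x ∪ Sol U j x) → ¬ Acc U x i j) :
    Sys (fun t => J U (x + uv t)) (GenW U x) (Acc U x) := by
  have hgen : ∀ t ∈ GenW U x, t + Real.pi ∈ GenW U x := by
    intro t ht
    have := genW_shift ht 3
    have e : t + ((3 : ℤ) : ℝ) * (Real.pi / 3) = t + Real.pi := by push_cast; ring
    rwa [e] at this
  have hcard : ∀ t ∈ GenW U x, (J U (x + uv t)).card = 2 := by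
    intro t ht
    have h1 := h.genC_card (genW_subset_genC ht)
    have h2 : 0 < (J U (x + uv t)).card := Finset.card_pos.2 (h.J_nonempty _)
    have h3 : (J U (x + uv t)).card ≠ 1 := by
      intro hc
      obtain ⟨k, hk⟩ := Finset.card_eq_one.1 hc
      have := h.single_not_mem (hk.subset) (dist_add_uv x t)
      exact this (by rw [hx]; simp)
    omega
  refine ⟨dense_GenW.nonempty, ?_, hcard, ?_, ?_, ?_, ?_, ?_⟩
  · intro t ht
    have := genW_shift ht 1
    simpa using this
  · intro t ht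
    have := h.word_disjoint ht 0
    simpa using this
  · intro t
    simp only [uv_add_two_pi]
  · intro t ht a ha b hb hab
    refine h.not_acc ?_ (dist_add_uv x t)
    -- the palette is exactly `{a, b}`
    have h1 : ({a, b} : Finset (Fin 5)) ⊆ J U (x + uv t) := by
      intro i hi
      simp only [Finset.mem_insert, Finset.mem_singleton] at hi
      rcases hi with rfl | rfl
      · exact ha
      · exact hb
    have h2 : J U (x + uv t) = {a, b} := by
      refine (Finset.eq_of_subset_of_card_le h1 ?_).symm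
      rw [hcard t ht, Finset.card_pair hab]
    exact h2.subset
  · -- (P5) and (D)
    intro t ht c hd hc1 hc2 s _
    have hother : ∀ k, k ≠ c → k ∈ J U (x + uv t) ∨ k ∈ J U (x + uv (t + Real.pi)) := by
      intro k hk
      by_contra hcon
      push Not at hcon
      have h1 : J U (x + uv t) ∪ J U (x + uv (t + Real.pi)) ⊆ (Finset.univ.erase c).erase k := by
        intro l hl
        rw [Finset.mem_erase, Finset.mem_erase]
        refine ⟨?_, ?_, Finset.mem_univ _⟩
        · rintro rfl
          rcases Finset.mem_union.1 hl with hl | hl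
          · exact hcon.1 hl
          · exact hcon.2 hl
        · rintro rfl
          rcases Finset.mem_union.1 hl with hl | hl
          · exact hc1 hl
          · exact hc2 hl
      have h2 := Finset.card_le_card h1
      rw [Finset.card_union_of_disjoint hd, hcard t ht, hcard _ (hgen t ht),
        Finset.card_erase_of_mem (Finset.mem_erase.2 ⟨hk, Finset.mem_univ _⟩),
        Finset.card_erase_of_mem (Finset.mem_univ _)] at h2
      simp at h2
    have hev1 : ∀ᶠ a in 𝓝 t, ∀ k ∈ J U (x + uv t), a ∈ Sol U k x := by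
      rw [Filter.eventually_all_finset]
      intro k hk
      exact isOpen_Sol.mem_nhds ((mem_Sol_iff (genW_subset_genC ht)).2 hk)
    have hev2 : ∀ᶠ b in 𝓝 t, ∀ k ∈ J U (x + uv (t + Real.pi)), b + Real.pi ∈ Sol U k x := by
      rw [Filter.eventually_all_finset]
      intro k hk
      have h1 : t + Real.pi ∈ Sol U k x := (mem_Sol_iff (genW_subset_genC (hgen t ht))).2 hk
      have hcont : Continuous (fun b : ℝ => b + Real.pi) := by fun_prop
      exact hcont.continuousAt.eventually (isOpen_Sol.mem_nhds h1)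
    obtain ⟨d₁, hd₁, hb₁⟩ := Metric.eventually_nhds_iff.1 (hev1.and hev2)
    set d := min d₁ 1 with hdd
    have hd0 : 0 < d := lt_min hd₁ one_pos
    have hfin := hD c t d hd0 ?_ s
    · intro hs
      exact hfin (mem_J.1 hs)
    · intro a b ha hb hab
      have ha' : dist a t < d₁ := by
        rw [Real.dist_eq]; exact lt_of_lt_of_le ha (min_le_left _ _)
      have hb' : dist b t < d₁ := by
        rw [Real.dist_eq]; exact lt_of_lt_of_le hb (min_le_left _ _)
      have hsin : Real.sin (a - b) ≠ 0 := by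
        have h1 : |a - t| < 1 := lt_of_lt_of_le ha (min_le_right _ _)
        have h2 : |b - t| < 1 := lt_of_lt_of_le hb (min_le_right _ _)
        rw [abs_lt] at h1 h2
        have hpi := Real.pi_gt_three
        rcases lt_or_gt_of_ne (sub_ne_zero.2 hab) with h3 | h3
        · exact (Real.sin_neg_of_neg_of_neg_pi_lt h3 (by linarith [h1.1, h2.2])).ne
        · exact (Real.sin_pos_of_pos_of_lt_pi h3 (by linarith [h1.2, h2.1])).ne'
      apply h.mem_of_J_subset
      intro k hk
      rw [Finset.mem_singleton]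
      by_contra hkc
      obtain ⟨hk1, hk2⟩ := h.P5 hsin (mem_J.1 hk)
      rcases hother k hkc with h3 | h3
      · exact hk1 ((hb₁ ha').1 k h3)
      · exact hk2 ((hb₁ hb').2 k h3)
  · -- (G1)
    intro a b hab
    apply hG1
    refine (dense_GenW (U := U) (x := x)).mono ?_
    intro t ht
    rcases hab t ht with h1 | h1
    · exact Or.inl ((mem_Sol_iff (genW_subset_genC ht)).2 h1)
    · exact Or.inr ((mem_Sol_iff (genW_subset_genC ht)).2 h1)

/-- Case II from (D) and (G1). -/
theorem caseII_of (h : Cov U) {x : ℂ} (hx : J U x = Finset.univ)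
    (hD : ∀ (c : Fin 5) (v d : ℝ), 0 < d →
      (∀ a b : ℝ, |a - v| < d → |b - v| < d → a ≠ b → x + uv a - uv b ∈ U c) →
      ∀ s : ℝ, x + uv s ∉ F U c)
    (hG1 : ∀ i j : Fin 5, Dense (Sol U i x ∪ Sol U j x) → ¬ Acc U x i j) :
    ¬ Quad (Acc U x) ∧ ¬ Pent (Acc U x) := by
  have hs := sys_of h hx hD hG1
  constructor
  · rintro ⟨a, b, c, d, hab, hac, had, hbc, hbd, hcd, h1, h2, h3, h4⟩
    exact hs.no_C4 (fun _ _ h => h.symm) (by simp [*]) h1 h2 h3 h4
  · rintro ⟨a, b, c, d, e, hab, hac, had, hae, hbc, hbd, hbe, hcd, hce, hde, h1, h2, h3, h4, h5⟩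
    exact hs.no_C5 (fun _ _ h => h.symm) (by simp [*]) h1 h2 h3 h4 h5

end Crest.Agent.R40.T3CaseII
end

-- ▼ part R40/T3CaseII

set_option autoImplicit false

open Set Metric Topology Filter

namespace Crest.Agent.R40.T3

/-- **Case II**: at a point with all five colours, the graph of accumulating exact pairs has no cycle of
length four and no cycle of length five. -/
theorem caseII {U : Fin 5 → Set ℂ} (h : Cov U) (x : ℂ) (hx : J U x = Finset.univ) :
    ¬ Quad (Acc U x) ∧ ¬ Pent (Acc U x) := by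
  refine T3CaseII.caseII_of h hx ?_ ?_
  · intro c v d hd hW s
    exact h.D hd hW s
  · intro i j hd
    refine h.G1' hd ?_
    intro hij
    rw [hx] at hij
    have h1 := Finset.card_le_two (a := i) (b := j)
    rw [← hij] at h1
    simp at h1

end Crest.Agent.R40.T3
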