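import Mathlib

-- ▼ part R40/T3Base
section

/-!
# R40 / T3 : base calculus for families of regular open unit-avoiding sets with dense union

`Cov U` : five regular open sets, unit-avoiding, with dense union.  `F U i = closure (U i)`.
-/

set_option autoImplicit false

open Set Metric Topology Filter

namespace Crest.Agent.R40.T3

/-- Five regular open unit-avoiding subsets of the plane with dense union. (No disjointness.) -/
structure Cov (U : Fin 5 → Set ℂ) : Prop where
  isOpen : ∀ i, IsOpen (U i)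
  regular : ∀ i, interior (closure (U i)) = U i
  avoid : ∀ i, ∀ x ∈ U i, ∀ y ∈ U i, dist x y ≠ 1
  dense : Dense (⋃ i, U i)

/-- The closed colour classes. -/
def F (U : Fin 5 → Set ℂ) (i : Fin 5) : Set ℂ := closure (U i)

/-- The palette of a point. -/
noncomputable def J (U : Fin 5 → Set ℂ) (x : ℂ) : Finset (Fin 5) :=
  open Classical in Finset.univ.filter (fun i => x ∈ F U i)

section
variable {U : Fin 5 → Set ℂ}

@[simp] lemma mem_J {x : ℂ} {i : Fin 5} : i ∈ J U x ↔ x ∈ F U i := by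
  classical
  simp [J]

lemma isClosed_F (i : Fin 5) : IsClosed (F U i) := isClosed_closure

lemma subset_F (i : Fin 5) : U i ⊆ F U i := subset_closure

/-- `J` is upper semicontinuous. -/
lemma J_usc (x : ℂ) : ∀ᶠ y in 𝓝 x, J U y ⊆ J U x := by
  have h1 : ∀ i : Fin 5, ∀ᶠ y in 𝓝 x, i ∉ J U x → y ∉ F U i := by
    intro i
    by_cases hi : i ∈ J U x
    · exact Eventually.of_forall (fun y hy => absurd hi hy)
    · have : (F U i)ᶜ ∈ 𝓝 x :=
        (isClosed_F i).isOpen_compl.mem_nhds (by simpa using hi)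
      filter_upwards [this] with y hy _
      exact hy
  filter_upwards [eventually_all.2 h1] with y hy i hi
  by_contra hn
  exact hy i hn (mem_J.1 hi)

namespace Cov

variable (h : Cov U)
include h

lemma interior_F (i : Fin 5) : interior (F U i) = U i := h.regular i

lemma cover (x : ℂ) : ∃ i, x ∈ F U i := by
  have h1 : x ∈ closure (⋃ i, U i) := h.dense x
  rw [closure_iUnion_of_finite] at h1
  simpa [F] using h1

lemma J_nonempty (x : ℂ) : (J U x).Nonempty := by
  obtain ⟨i, hi⟩ := h.cover x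
  exact ⟨i, mem_J.2 hi⟩

/-- A point all of whose neighbours lie in `F i` belongs to `U i`. -/
lemma mem_of_eventually {i : Fin 5} {x : ℂ} (hx : ∀ᶠ y in 𝓝 x, y ∈ F U i) : x ∈ U i := by
  rw [← h.interior_F i, mem_interior_iff_mem_nhds]
  exact hx

/-- A point with a one-element palette lies in the open set. -/
lemma mem_of_J_subset {i : Fin 5} {x : ℂ} (hx : J U x ⊆ {i}) : x ∈ U i := by
  apply h.mem_of_eventually
  filter_upwards [J_usc (U := U) x] with y hy
  obtain ⟨j, hj⟩ := h.cover y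
  have := hx (hy (mem_J.2 hj))
  rw [Finset.mem_singleton] at this
  rwa [← this]

/-- (F1) -/
lemma dist_ne_of_mem {i : Fin 5} {x y : ℂ} (hx : x ∈ F U i) (hy : y ∈ U i) : dist x y ≠ 1 := by
  intro hd
  have h1 : IsOpen {z : ℂ | z + (y - x) ∈ U i} :=
    (h.isOpen i).preimage (by fun_prop)
  have h2 : x ∈ {z : ℂ | z + (y - x) ∈ U i} := by simpa using hy
  obtain ⟨z, hz1, hz2⟩ := mem_closure_iff.1 hx _ h1 h2
  refine h.avoid i z hz2 _ hz1 ?_
  have : dist z (z + (y - x)) = dist x y := by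
    rw [dist_eq_norm, dist_eq_norm]
    have : z - (z + (y - x)) = x - y := by ring
    rw [this]
  rw [this, hd]

/-- (F2) crossing principle: a connected subset of `F i` is never crossed by the unit circle about
a point of `F i`. -/
lemma not_cross {i : Fin 5} {Q : Set ℂ} (hQ : IsPreconnected Q) (hQF : Q ⊆ F U i) {z : ℂ}
    (hz : z ∈ F U i) {q q' : ℂ} (hq : q ∈ Q) (hq' : q' ∈ Q) (h1 : dist q z < 1)
    (h2 : 1 < dist q' z) : False := by
  have ho : IsOpen {z' : ℂ | dist q z' < 1 ∧ 1 < dist q' z'} :=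
    (isOpen_lt (continuous_const.dist continuous_id) continuous_const).inter
      (isOpen_lt continuous_const (continuous_const.dist continuous_id))
  obtain ⟨z', ⟨hz1, hz2⟩, hz3⟩ := mem_closure_iff.1 hz _ ho ⟨h1, h2⟩
  have h3 : (1 : ℝ) ∈ (fun w : ℂ => dist w z') '' Q := by
    have := hQ.image (fun w : ℂ => dist w z') (by fun_prop)
    have hord := this.ordConnected
    exact hord.out (mem_image_of_mem _ hq) (mem_image_of_mem _ hq') ⟨hz1.le, hz2.le⟩
  obtain ⟨w, hw, hw1⟩ := h3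
  exact h.dist_ne_of_mem (hQF hw) hz3 hw1

/-- (F3) connected subsets of `F i` have diameter at most one. -/
lemma dist_le_one {i : Fin 5} {Q : Set ℂ} (hQ : IsPreconnected Q) (hQF : Q ⊆ F U i) {p q : ℂ}
    (hp : p ∈ Q) (hq : q ∈ Q) : dist p q ≤ 1 := by
  by_contra hlt
  push Not at hlt
  exact h.not_cross hQ hQF (hQF hq) hq hp (by simp) hlt

end Cov

/-- The rotated point `y + e^{iθ} p`. -/
noncomputable def rot (y p : ℂ) (θ : ℝ) : ℂ := y + Complex.exp (θ * Complex.I) * p

lemma rot_zero (y p : ℂ) : rot y p 0 = y + p := by simp [rot]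

lemma continuous_rot (y p : ℂ) : Continuous (rot y p) := by
  unfold rot
  fun_prop

lemma norm_exp_mul (θ : ℝ) (p : ℂ) : ‖Complex.exp (θ * Complex.I) * p‖ = ‖p‖ := by
  rw [norm_mul, Complex.norm_exp_ofReal_mul_I, one_mul]

lemma dist_rot_center (y p : ℂ) (θ : ℝ) : dist (rot y p θ) y = ‖p‖ := by
  rw [dist_eq_norm, rot, add_sub_cancel_left, norm_exp_mul]


/-- Squared distance from a rotated point to a fixed point. -/
lemma normSq_rot_sub (y p q : ℂ) (θ : ℝ) :
    Complex.normSq (rot y p θ - q) =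
      Complex.normSq p + Complex.normSq (q - y)
        - 2 * (Real.cos θ * (p * (starRingEnd ℂ) (q - y)).re
          - Real.sin θ * (p * (starRingEnd ℂ) (q - y)).im) := by
  have h1 : rot y p θ - q = Complex.exp (θ * Complex.I) * p - (q - y) := by
    rw [rot]; ring
  rw [h1, Complex.exp_mul_I, Complex.normSq_sub]
  have h2 : Complex.normSq ((Complex.cos θ + Complex.sin θ * Complex.I) * p)
      = Complex.normSq p := by
    rw [map_mul]
    have : Complex.normSq (Complex.cos θ + Complex.sin θ * Complex.I) = 1 := by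
      rw [← Complex.ofReal_cos, ← Complex.ofReal_sin, Complex.normSq_add_mul_I]
      exact Real.cos_sq_add_sin_sq θ
    rw [this, one_mul]
  rw [h2]
  have h3 : ((Complex.cos θ + Complex.sin θ * Complex.I) * p * (starRingEnd ℂ) (q - y)).re
      = (Real.cos θ * (p * (starRingEnd ℂ) (q - y)).re
          - Real.sin θ * (p * (starRingEnd ℂ) (q - y)).im) := by
    rw [mul_assoc, ← Complex.ofReal_cos, ← Complex.ofReal_sin]
    simp only [Complex.mul_re, Complex.add_re, Complex.add_im, Complex.mul_im,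
      Complex.ofReal_re, Complex.ofReal_im, Complex.I_re, Complex.I_im]
    ring
  rw [h3]

lemma dist_sq_eq_normSq (a b : ℂ) : dist a b ^ 2 = Complex.normSq (a - b) := by
  rw [dist_eq_norm, Complex.sq_norm]

end

section
variable {U : Fin 5 → Set ℂ}

namespace Cov
variable (h : Cov U)
include h

/-- (L0) pair lemma. -/
lemma pair_lemma {a b : Fin 5} {p q : ℂ} (hpa : p ∈ F U a) (hpb : p ∈ F U b)
    (hp : ∀ᶠ z in 𝓝 p, z ∈ F U a ∨ z ∈ F U b) (hpq : dist q p = 1)
    (hq : ∀ᶠ z in 𝓝 q, z ∈ F U a ∨ z ∈ F U b) : False := by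
  set e : ℂ := q - p with he
  have hne : ‖e‖ = 1 := by rw [he, ← dist_eq_norm, hpq]
  have hnse : Complex.normSq e = 1 := by rw [← Complex.sq_norm, hne, one_pow]
  -- the arc
  have hq' : ∀ᶠ z in 𝓝 q, ∀ᶠ w in 𝓝 z, w ∈ F U a ∨ w ∈ F U b := hq.eventually_nhds
  have h0 : rot p e 0 = q := by rw [rot_zero, he]; ring
  have hc : Tendsto (rot p e) (𝓝 0) (𝓝 q) := by
    have := (continuous_rot p e).tendsto 0
    rwa [h0] at this
  have harc := hc.eventually hq'
  obtain ⟨δ, hδ, hδ'⟩ := Metric.eventually_nhds_iff.1 harc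
  have key : ∀ (a b : Fin 5), p ∈ F U b → (∀ s : ℂ, (∀ᶠ w in 𝓝 s, w ∈ F U a ∨ w ∈ F U b) →
      dist s p = 1 → s ∈ F U a) := by
    intro a b hb s hs hsp
    by_contra hsa
    have h1 : (F U a)ᶜ ∈ 𝓝 s := (isClosed_F a).isOpen_compl.mem_nhds hsa
    have h2 : s ∈ U b := by
      apply h.mem_of_eventually
      filter_upwards [hs, h1] with w hw1 hw2
      rcases hw1 with hw1 | hw1
      · exact absurd hw1 hw2
      · exact hw1
    exact h.dist_ne_of_mem hb h2 (by rw [dist_comm]; exact hsp)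
  have hQa : rot p e '' Ioo (-δ) δ ⊆ F U a := by
    rintro _ ⟨θ, hθ, rfl⟩
    refine key a b hpb _ (hδ' ?_) ?_
    · rw [Real.dist_eq, sub_zero, abs_lt]; exact hθ
    · rw [dist_rot_center, hne]
  have hQb : rot p e '' Ioo (-δ) δ ⊆ F U b := by
    rintro _ ⟨θ, hθ, rfl⟩
    refine key b a hpa _ ?_ ?_
    · have := hδ' (y := θ) (by rw [Real.dist_eq, sub_zero, abs_lt]; exact hθ)
      filter_upwards [this] with w hw using hw.symm
    · rw [dist_rot_center, hne]
  have hQ : IsPreconnected (rot p e '' Ioo (-δ) δ) :=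
    isPreconnected_Ioo.image _ (continuous_rot p e).continuousOn
  -- the point `z`
  set θ₁ : ℝ := min (δ / 2) 1 with hθ₁
  have hθ₁0 : 0 < θ₁ := lt_min (by linarith) one_pos
  have hθ₁δ : θ₁ < δ := lt_of_le_of_lt (min_le_left _ _) (by linarith)
  have hsin : 0 < Real.sin θ₁ :=
    Real.sin_pos_of_pos_of_lt_pi hθ₁0 (lt_of_le_of_lt (min_le_right _ _) (by
      linarith [Real.pi_gt_three]))
  have hz : Tendsto (fun t : ℝ => p + (t : ℂ) * Complex.I * e) (𝓝[>] 0) (𝓝 p) := by
    have : Tendsto (fun t : ℝ => p + (t : ℂ) * Complex.I * e) (𝓝 0) (𝓝 p) := by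
      have hcont : Continuous (fun t : ℝ => p + (t : ℂ) * Complex.I * e) := by fun_prop
      have := hcont.tendsto 0
      simpa using this
    exact this.mono_left nhdsWithin_le_nhds
  have hev := hz.eventually hp
  have hev2 : ∀ᶠ t : ℝ in 𝓝[>] 0, t < 2 * Real.sin θ₁ :=
    nhdsWithin_le_nhds (eventually_lt_nhds (by positivity))
  have hev3 : ∀ᶠ t : ℝ in 𝓝[>] 0, 0 < t := self_mem_nhdsWithin
  obtain ⟨t, ht1, ht2, ht3⟩ := (hev.and (hev2.and hev3)).exists
  set z : ℂ := p + (t : ℂ) * Complex.I * e with hzdef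
  have hform : ∀ θ : ℝ, dist (rot p e θ) z ^ 2 = 1 + t ^ 2 - 2 * t * Real.sin θ := by
    intro θ
    rw [dist_sq_eq_normSq, normSq_rot_sub]
    have h1 : z - p = (t : ℂ) * Complex.I * e := by rw [hzdef]; ring
    rw [h1]
    have h2 : e * (starRingEnd ℂ) ((t : ℂ) * Complex.I * e) = -((t : ℂ) * Complex.I) := by
      have : e * (starRingEnd ℂ) e = 1 := by
        rw [Complex.mul_conj, hnse]; simp
      simp only [map_mul, Complex.conj_ofReal, Complex.conj_I]
      calc e * ((t : ℂ) * -Complex.I * (starRingEnd ℂ) e)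
          = -((t : ℂ) * Complex.I) * (e * (starRingEnd ℂ) e) := by ring
        _ = _ := by rw [this, mul_one]
    rw [h2]
    simp only [map_mul, hnse, Complex.normSq_I, Complex.normSq_ofReal, Complex.neg_re,
      Complex.neg_im, Complex.mul_re, Complex.mul_im, Complex.ofReal_re, Complex.ofReal_im,
      Complex.I_re, Complex.I_im]
    ring
  have hd0 : 1 < dist (rot p e 0) z := by
    have := hform 0
    rw [Real.sin_zero] at this
    nlinarith [dist_nonneg (x := rot p e 0) (y := z), sq_nonneg t]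
  have hd1 : dist (rot p e θ₁) z < 1 := by
    have := hform θ₁
    nlinarith [dist_nonneg (x := rot p e θ₁) (y := z)]
  have hm0 : rot p e 0 ∈ rot p e '' Ioo (-δ) δ :=
    ⟨0, ⟨by linarith, hδ⟩, rfl⟩
  have hm1 : rot p e θ₁ ∈ rot p e '' Ioo (-δ) δ :=
    ⟨θ₁, ⟨by linarith, hθ₁δ⟩, rfl⟩
  rcases ht1 with hza | hzb
  · exact h.not_cross hQ hQa hza hm1 hm0 hd1 hd0
  · exact h.not_cross hQ hQb hzb hm1 hm0 hd1 hd0

end Cov
end

section
variable {U : Fin 5 → Set ℂ}

lemma exists_compl_pair : ∀ a b c : Fin 5, a ≠ b → a ≠ c → b ≠ c →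
    ∃ d e : Fin 5, ∀ i : Fin 5, i = a ∨ i = b ∨ i = c ∨ i = d ∨ i = e := by decide

/-- distance between two rotated copies with the same radius -/
lemma dist_rot_rot_angle (y p : ℂ) (θ φ : ℝ) :
    dist (rot y p θ) (rot y p φ) = 2 * |Real.sin ((θ - φ) / 2)| * ‖p‖ := by
  have h0 : 0 ≤ 2 * |Real.sin ((θ - φ) / 2)| * ‖p‖ := by positivity
  rw [← abs_of_nonneg h0, ← abs_of_nonneg (dist_nonneg (x := rot y p θ) (y := rot y p φ))]
  rw [← sq_eq_sq_iff_abs_eq_abs, dist_sq_eq_normSq, normSq_rot_sub]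
  have h1 : rot y p φ - y = Complex.exp (φ * Complex.I) * p := by rw [rot]; ring
  rw [h1]
  have h2 : Complex.normSq (Complex.exp (φ * Complex.I) * p) = Complex.normSq p := by
    rw [← Complex.sq_norm, norm_exp_mul, Complex.sq_norm]
  have h3 : p * (starRingEnd ℂ) (Complex.exp (φ * Complex.I) * p)
      = (Complex.normSq p : ℂ) * ((Real.cos φ : ℂ) - (Real.sin φ : ℂ) * Complex.I) := by
    have : (starRingEnd ℂ) (Complex.exp (φ * Complex.I)) =
        (Real.cos φ : ℂ) - (Real.sin φ : ℂ) * Complex.I := by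
      rw [Complex.exp_mul_I, ← Complex.ofReal_cos, ← Complex.ofReal_sin]
      simp only [map_add, map_mul, Complex.conj_ofReal, Complex.conj_I]
      ring
    rw [map_mul, this, ← Complex.mul_conj]
    ring
  rw [h2, h3]
  have hre : ((Complex.normSq p : ℂ) * ((Real.cos φ : ℂ) - (Real.sin φ : ℂ) * Complex.I)).re
      = Complex.normSq p * Real.cos φ := by
    simp [-Complex.ofReal_cos, -Complex.ofReal_sin]
  have him : ((Complex.normSq p : ℂ) * ((Real.cos φ : ℂ) - (Real.sin φ : ℂ) * Complex.I)).im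
      = - (Complex.normSq p * Real.sin φ) := by
    simp [-Complex.ofReal_cos, -Complex.ofReal_sin]
  rw [hre, him]
  have h4 : Real.cos θ * Real.cos φ + Real.sin θ * Real.sin φ = 1 - 2 * Real.sin ((θ - φ) / 2) ^ 2 := by
    rw [← Real.cos_sub]
    have := Real.cos_sq_add_sin_sq ((θ - φ) / 2)
    have h5 := Real.cos_two_mul ((θ - φ) / 2)
    have h6 : 2 * ((θ - φ) / 2) = θ - φ := by ring
    rw [h6] at h5
    linarith
  have h7 : (2 * |Real.sin ((θ - φ) / 2)| * ‖p‖) ^ 2
      = 4 * Real.sin ((θ - φ) / 2) ^ 2 * Complex.normSq p := by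
    rw [mul_pow, mul_pow, sq_abs, Complex.sq_norm]; ring
  rw [h7]
  linear_combination (-2 * Complex.normSq p) * h4

namespace Cov
variable (h : Cov U)
include h

/-- (F4) a triple intersection contains no nondegenerate connected set. -/
lemma no_triple_connected {a b c : Fin 5} (hab : a ≠ b) (hac : a ≠ c) (hbc : b ≠ c)
    {Q : Set ℂ} (hQ : IsPreconnected Q) (hQa : Q ⊆ F U a) (hQb : Q ⊆ F U b) (hQc : Q ⊆ F U c)
    {q q' : ℂ} (hq : q ∈ Q) (hq' : q' ∈ Q) : q = q' := by
  by_contra hne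
  set δ : ℝ := dist q q' with hδ
  have hδ0 : 0 < δ := dist_pos.2 hne
  have hδ1 : δ ≤ 1 := h.dist_le_one hQ hQa hq hq'
  set m : ℂ := (q + q') / 2 with hm
  set e : ℂ := (q' - q) / (δ : ℂ) with he
  have hδc : (δ : ℂ) ≠ 0 := by exact_mod_cast hδ0.ne'
  have hne1 : ‖e‖ = 1 := by
    rw [he, norm_div, ← dist_eq_norm, dist_comm, ← hδ, Complex.norm_real, Real.norm_eq_abs,
      abs_of_pos hδ0, div_self hδ0.ne']
  have hns : Complex.normSq e = 1 := by rw [← Complex.sq_norm, hne1, one_pow]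
  have hec : e * (starRingEnd ℂ) e = 1 := by rw [Complex.mul_conj, hns]; simp
  have hqe : q' - q = (δ : ℂ) * e := by rw [he]; field_simp
  have hq'm : q' - m = ((δ / 2 : ℝ) : ℂ) * e := by
    have : q' - m = (q' - q) / 2 := by rw [hm]; ring
    rw [this, hqe]; push_cast; ring
  have hqm : q - m = ((-(δ / 2) : ℝ) : ℂ) * e := by
    have : q - m = - ((q' - q) / 2) := by rw [hm]; ring
    rw [this, hqe]; push_cast; ring
  have hmulr : ∀ r : ℝ, e * (starRingEnd ℂ) ((r : ℂ) * e) = (r : ℂ) := by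
    intro r
    rw [map_mul, Complex.conj_ofReal]
    calc e * ((r : ℂ) * (starRingEnd ℂ) e) = (r : ℂ) * (e * (starRingEnd ℂ) e) := by ring
      _ = _ := by rw [hec, mul_one]
  have hcos : ∀ φ ∈ Icc (-(Real.pi / 3)) (Real.pi / 3), 1 / 2 ≤ Real.cos φ := by
    intro φ hφ
    rw [← Real.cos_abs, ← Real.cos_pi_div_three]
    apply Real.cos_le_cos_of_nonneg_of_le_pi (abs_nonneg _)
    · linarith [Real.pi_pos]
    · exact abs_le.2 hφ
  have hd' : ∀ φ ∈ Icc (-(Real.pi / 3)) (Real.pi / 3), dist q' (rot m e φ) < 1 := by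
    intro φ hφ
    have h1 := hcos φ hφ
    have h2 : dist (rot m e φ) q' ^ 2 = 1 + δ ^ 2 / 4 - δ * Real.cos φ := by
      rw [dist_sq_eq_normSq, normSq_rot_sub, hq'm, hmulr, map_mul, hns, Complex.normSq_ofReal]
      simp only [Complex.ofReal_re, Complex.ofReal_im]
      ring
    rw [dist_comm]
    nlinarith [dist_nonneg (x := rot m e φ) (y := q')]
  have hd : ∀ φ ∈ Icc (-(Real.pi / 3)) (Real.pi / 3), 1 < dist q (rot m e φ) := by
    intro φ hφ
    have h1 := hcos φ hφ
    have h2 : dist (rot m e φ) q ^ 2 = 1 + δ ^ 2 / 4 + δ * Real.cos φ := by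
      rw [dist_sq_eq_normSq, normSq_rot_sub, hqm, hmulr, map_mul, hns, Complex.normSq_ofReal]
      simp only [Complex.ofReal_re, Complex.ofReal_im]
      ring
    rw [dist_comm]
    nlinarith [dist_nonneg (x := rot m e φ) (y := q)]
  obtain ⟨d, e', hde⟩ := exists_compl_pair a b c hab hac hbc
  have hnot : ∀ i : Fin 5, Q ⊆ F U i → ∀ φ ∈ Icc (-(Real.pi / 3)) (Real.pi / 3),
      rot m e φ ∉ F U i := by
    intro i hi φ hφ hz
    exact h.not_cross hQ hi hz hq' hq (hd' φ hφ) (hd φ hφ)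
  have hmem : ∀ φ ∈ Icc (-(Real.pi / 3)) (Real.pi / 3),
      ∀ᶠ w in 𝓝 (rot m e φ), w ∈ F U d ∨ w ∈ F U e' := by
    intro φ hφ
    filter_upwards [(isClosed_F a).isOpen_compl.mem_nhds (hnot a hQa φ hφ),
      (isClosed_F b).isOpen_compl.mem_nhds (hnot b hQb φ hφ),
      (isClosed_F c).isOpen_compl.mem_nhds (hnot c hQc φ hφ)] with w hwa hwb hwc
    obtain ⟨i, hi⟩ := h.cover w
    rcases hde i with rfl | rfl | rfl | rfl | rfl
    · exact absurd hi hwa
    · exact absurd hi hwb
    · exact absurd hi hwc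
    · exact Or.inl hi
    · exact Or.inr hi
  have hsin : Real.sin (Real.pi / 6) = 1 / 2 := Real.sin_pi_div_six
  have hstep : ∀ φ ψ : ℝ, |φ - ψ| = Real.pi / 3 → dist (rot m e φ) (rot m e ψ) = 1 := by
    intro φ ψ hφψ
    rw [dist_rot_rot_angle, hne1, mul_one]
    have : |Real.sin ((φ - ψ) / 2)| = 1 / 2 := by
      rcases abs_cases (φ - ψ) with ⟨h1, _⟩ | ⟨h1, _⟩
      · have : (φ - ψ) / 2 = Real.pi / 6 := by linarith
        rw [this, hsin]; norm_num
      · have : (φ - ψ) / 2 = -(Real.pi / 6) := by linarith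
        rw [this, Real.sin_neg, hsin]; norm_num
    rw [this]; norm_num
  have hpi := Real.pi_pos
  have hnotboth : ∀ φ ∈ Icc (-(Real.pi / 3)) (Real.pi / 3),
      ¬ (rot m e φ ∈ F U d ∧ rot m e φ ∈ F U e') := by
    rintro φ hφ ⟨h1, h2⟩
    rcases le_or_gt φ 0 with h0 | h0
    · have hφ' : φ + Real.pi / 3 ∈ Icc (-(Real.pi / 3)) (Real.pi / 3) :=
        ⟨by linarith [hφ.1], by linarith⟩
      refine h.pair_lemma h1 h2 (hmem φ hφ) (hstep _ _ ?_) (hmem _ hφ')
      rw [add_sub_cancel_left, abs_of_pos (by positivity)]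
    · have hφ' : φ - Real.pi / 3 ∈ Icc (-(Real.pi / 3)) (Real.pi / 3) :=
        ⟨by linarith, by linarith [hφ.2]⟩
      refine h.pair_lemma h1 h2 (hmem φ hφ) (hstep _ _ ?_) (hmem _ hφ')
      rw [sub_sub_cancel_left, abs_neg, abs_of_pos (by positivity)]
  have hA : IsPreconnected (rot m e '' Icc (-(Real.pi / 3)) (Real.pi / 3)) :=
    isPreconnected_Icc.image _ (continuous_rot m e).continuousOn
  have h0mem : (0 : ℝ) ∈ Icc (-(Real.pi / 3)) (Real.pi / 3) := ⟨by linarith, by positivity⟩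
  have h1mem : (Real.pi / 3) ∈ Icc (-(Real.pi / 3)) (Real.pi / 3) := ⟨by linarith, le_rfl⟩
  have h01 : dist (rot m e 0) (rot m e (Real.pi / 3)) = 1 := by
    apply hstep; rw [zero_sub, abs_neg, abs_of_pos (by positivity)]
  have hfin : ∀ s t : Fin 5, (∀ φ ∈ Icc (-(Real.pi / 3)) (Real.pi / 3),
      ¬ (rot m e φ ∈ F U s ∧ rot m e φ ∈ F U t)) →
      (∀ φ ∈ Icc (-(Real.pi / 3)) (Real.pi / 3),
        ∀ᶠ w in 𝓝 (rot m e φ), w ∈ F U s ∨ w ∈ F U t) →
      rot m e '' Icc (-(Real.pi / 3)) (Real.pi / 3) ⊆ F U s → False := by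
    intro s t hst hmem' hsub
    have h2 : rot m e 0 ∈ U s := by
      apply h.mem_of_eventually
      have h3 : rot m e 0 ∉ F U t := fun h4 => hst 0 h0mem ⟨hsub ⟨0, h0mem, rfl⟩, h4⟩
      filter_upwards [hmem' 0 h0mem, (isClosed_F t).isOpen_compl.mem_nhds h3] with w hw1 hw2
      rcases hw1 with hw1 | hw1
      · exact hw1
      · exact absurd hw1 hw2
    have h3 : rot m e (Real.pi / 3) ∈ F U s := hsub ⟨_, h1mem, rfl⟩
    exact h.dist_ne_of_mem h3 h2 (by rw [dist_comm]; exact h01)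
  rw [isPreconnected_iff_subset_of_disjoint_closed] at hA
  have hcov : rot m e '' Icc (-(Real.pi / 3)) (Real.pi / 3) ⊆ F U d ∪ F U e' := by
    rintro _ ⟨φ, hφ, rfl⟩
    exact (hmem φ hφ).self_of_nhds
  rcases hA _ _ (isClosed_F d) (isClosed_F e') hcov (by
    ext w
    simp only [mem_inter_iff, mem_empty_iff_false, iff_false]
    rintro ⟨⟨φ, hφ, rfl⟩, h1, h2⟩
    exact hnotboth φ hφ ⟨h1, h2⟩) with h1 | h1
  · exact hfin d e' hnotboth hmem h1
  · exact hfin e' d (fun φ hφ h2 => hnotboth φ hφ h2.symm)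
      (fun φ hφ => (hmem φ hφ).mono fun w hw => hw.symm) h1

end Cov
end

end Crest.Agent.R40.T3
end

-- ▼ part R40/T3Tot

/-!
# R40 / T3 : `{|J| ≥ 3}` is closed and totally disconnected
-/

set_option autoImplicit false

open Set Metric Topology Filter

namespace Crest.Agent.R40.T3

/-- Boundary bumping in a proper metric space. -/
lemma boundary_bump {X : Type*} [MetricSpace X] [ProperSpace X] {Q : Set X} (hQc : IsClosed Q)
    (hQ : IsPreconnected Q) {q q' : X} (hq : q ∈ Q) (hq' : q' ∈ Q) {r : ℝ}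
    (hr' : r < dist q' q) (hr : 0 < r) :
    ∃ C : Set X, IsPreconnected C ∧ C ⊆ Q ∩ closedBall q r ∧ q ∈ C ∧ ∃ c ∈ C, dist c q = r := by
  classical
  set K : Set X := Q ∩ closedBall q r with hK
  have hKc : IsCompact K := (isCompact_closedBall q r).inter_left hQc
  have : CompactSpace K := isCompact_iff_compactSpace.1 hKc
  have hqK : q ∈ K := ⟨hq, mem_closedBall_self hr.le⟩
  by_contra hcon
  push Not at hcon
  -- the component of `q`
  set x0 : K := ⟨q, hqK⟩ with hx0
  have hcomp := hcon (Subtype.val '' connectedComponent x0)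
    (isPreconnected_connectedComponent.image _ continuous_subtype_val.continuousOn)
    (by rintro _ ⟨y, _, rfl⟩; exact y.2) ⟨x0, mem_connectedComponent, rfl⟩
  have hclop := connectedComponent_eq_iInter_isClopen x0
  -- a clopen set avoiding the sphere
  have hex : ∃ s : { s : Set K // IsClopen s ∧ x0 ∈ s }, (s : Set K) ⊆ {y : K | dist (y : X) q ≠ r} := by
    have : Nonempty { s : Set K // IsClopen s ∧ x0 ∈ s } := ⟨⟨univ, isClopen_univ, mem_univ _⟩⟩
    apply exists_subset_nhds_of_compactSpace (V := fun s : { s : Set K // IsClopen s ∧ x0 ∈ s } => (s : Set K))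
    · rintro ⟨s, hs, hs'⟩ ⟨t, ht, ht'⟩
      exact ⟨⟨s ∩ t, hs.inter ht, hs', ht'⟩, inter_subset_left, inter_subset_right⟩
    · rintro ⟨s, hs, hs'⟩
      exact hs.isClosed
    · intro y hy
      have hy' : y ∈ connectedComponent x0 := by
        rw [hclop]; exact hy
      have h1 : dist (y : X) q ≠ r := hcomp _ ⟨y, hy', rfl⟩
      have ho : IsOpen {y : K | dist (y : X) q ≠ r} :=
        isOpen_ne_fun (by fun_prop) continuous_const
      exact ho.mem_nhds h1
  obtain ⟨⟨V, hV, hV0⟩, hVs⟩ := hex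
  simp only at hVs
  set V' : Set X := Subtype.val '' V with hV'
  have hV'c : IsClosed V' := by
    have : IsCompact V := hV.isClosed.isCompact
    exact (this.image continuous_subtype_val).isClosed
  have hWc : IsClosed (Subtype.val '' (Vᶜ : Set K)) := by
    have : IsCompact (Vᶜ : Set K) := hV.compl.isClosed.isCompact
    exact (this.image continuous_subtype_val).isClosed
  have hRc : IsClosed (Q ∩ {x | r ≤ dist x q}) :=
    hQc.inter (isClosed_le continuous_const (by fun_prop))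
  rw [isPreconnected_iff_subset_of_disjoint_closed] at hQ
  have hsub := hQ V' ((Q ∩ {x | r ≤ dist x q}) ∪ (Subtype.val '' (Vᶜ : Set K))) hV'c
    (hRc.union hWc) (by
      intro x hx
      by_cases hxr : r ≤ dist x q
      · exact Or.inr (Or.inl ⟨hx, hxr⟩)
      · push Not at hxr
        have hxK : x ∈ K := ⟨hx, mem_closedBall.2 hxr.le⟩
        by_cases hxV : (⟨x, hxK⟩ : K) ∈ V
        · exact Or.inl ⟨_, hxV, rfl⟩
        · exact Or.inr (Or.inr ⟨_, hxV, rfl⟩)) (by
      ext x
      simp only [mem_inter_iff, mem_empty_iff_false, iff_false]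
      rintro ⟨_, ⟨y, hy, rfl⟩, h2 | ⟨w, hw, hwy⟩⟩
      · have h3 := hVs hy
        simp only [mem_ofPred_eq] at h3
        have h4 : dist (y : X) q ≤ r := y.2.2
        exact h3 (le_antisymm h4 h2.2)
      · have : w = y := Subtype.ext hwy
        exact hw (this ▸ hy))
  rcases hsub with h1 | h1
  · obtain ⟨y, hy, hyq⟩ := h1 hq'
    have : dist (y : X) q ≤ r := y.2.2
    rw [hyq] at this
    linarith
  · rcases h1 hq with h2 | ⟨w, hw, hwq⟩
    · have := h2.2
      simp only [mem_ofPred_eq, dist_self] at this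
      linarith
    · have : w = x0 := Subtype.ext hwq
      exact hw (this ▸ hV0)

section
variable {U : Fin 5 → Set ℂ}

/-- The set of points with at least three colours. -/
def Th (U : Fin 5 → Set ℂ) : Set ℂ := {x | 3 ≤ (J U x).card}

lemma isClosed_Th : IsClosed (Th U) := by
  rw [← isOpen_compl_iff, isOpen_iff_mem_nhds]
  intro x hx
  have hx' : (J U x).card < 3 := by simpa [Th] using hx
  filter_upwards [J_usc (U := U) x] with y hy
  simp only [Th, mem_compl_iff, mem_ofPred_eq, not_le]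
  exact lt_of_le_of_lt (Finset.card_le_card hy) hx'

/-- Local constancy of palettes at suitable points of any nonempty set. -/
lemma exists_local_const {X ι : Type*} [TopologicalSpace X] (P : Finset ι) (γ : ι → X → ℂ)
    (hγ : ∀ k ∈ P, Continuous (γ k)) {O : Set X} (hO : O.Nonempty) :
    ∃ x₀ ∈ O, ∀ᶠ x in 𝓝[O] x₀, ∀ k ∈ P, J U (γ k x) = J U (γ k x₀) := by
  classical
  obtain ⟨x₀, hx₀, hmin⟩ :=
    exists_minimalFor_of_wellFoundedLT (fun x => x ∈ O) (fun x => ∑ k ∈ P, (J U (γ k x)).card) hO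
  refine ⟨x₀, hx₀, ?_⟩
  have h1 : ∀ᶠ x in 𝓝[O] x₀, ∀ k ∈ P, J U (γ k x) ⊆ J U (γ k x₀) := by
    have h2 : ∀ᶠ x in 𝓝 x₀, ∀ k ∈ P, J U (γ k x) ⊆ J U (γ k x₀) := by
      rw [Filter.eventually_all_finset]
      intro k hk
      exact ((hγ k hk).tendsto x₀).eventually (J_usc (U := U) (γ k x₀))
    exact nhdsWithin_le_nhds h2
  filter_upwards [h1, self_mem_nhdsWithin] with x hx hxO k hk
  have hle : ∀ j ∈ P, (J U (γ j x)).card ≤ (J U (γ j x₀)).card :=
    fun j hj => Finset.card_le_card (hx j hj)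
  have hsum : ∑ j ∈ P, (J U (γ j x₀)).card ≤ ∑ j ∈ P, (J U (γ j x)).card :=
    hmin hxO (Finset.sum_le_sum hle)
  have heq := (Finset.sum_eq_sum_iff_of_le hle).1 (le_antisymm (Finset.sum_le_sum hle) hsum) k hk
  exact Finset.eq_of_subset_of_card_le (hx k hk) heq.ge

namespace Cov
variable (h : Cov U)
include h

theorem isTotallyDisconnected_Th : IsTotallyDisconnected (Th U) := by
  intro t ht htp q hq q' hq'
  by_contra hne
  set Q : Set ℂ := closure t with hQ
  have hQp : IsPreconnected Q := htp.closure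
  have hQT : Q ⊆ Th U := closure_minimal ht isClosed_Th
  have hqQ : q ∈ Q := subset_closure hq
  have hq'Q : q' ∈ Q := subset_closure hq'
  obtain ⟨q1, hq1, hev⟩ := exists_local_const (U := U) (X := ℂ) {()} (fun _ => id)
    (fun _ _ => continuous_id) (O := Q) ⟨q, hqQ⟩
  have hev' : ∀ᶠ x in 𝓝[Q] q1, J U x = J U q1 := by
    filter_upwards [hev] with x hx using hx () (by simp)
  obtain ⟨ρ, hρ, hρ'⟩ := Metric.mem_nhdsWithin_iff.1 hev'
  -- another point
  obtain ⟨q2, hq2, hne2⟩ : ∃ q2 ∈ Q, q2 ≠ q1 := by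
    by_cases h1 : q = q1
    · exact ⟨q', hq'Q, fun h2 => hne (h1.trans h2.symm)⟩
    · exact ⟨q, hqQ, h1⟩
  set r : ℝ := min (ρ / 2) (dist q2 q1 / 2) with hr
  have hd : 0 < dist q2 q1 := dist_pos.2 hne2
  have hr0 : 0 < r := lt_min (by linarith) (by linarith)
  have hr1 : r < ρ := lt_of_le_of_lt (min_le_left _ _) (by linarith)
  have hr2 : r < dist q2 q1 := lt_of_le_of_lt (min_le_right _ _) (by linarith)
  obtain ⟨C, hC, hCs, hC1, c, hc, hcd⟩ := boundary_bump isClosed_closure hQp hq1 hq2 hr2 hr0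
  have hJ : ∀ x ∈ C, J U x = J U q1 := by
    intro x hx
    refine hρ' ⟨?_, (hCs hx).1⟩
    exact mem_ball.2 (lt_of_le_of_lt (mem_closedBall.1 (hCs hx).2) hr1)
  have h3 : 3 ≤ (J U q1).card := hQT hq1
  obtain ⟨T, hT, hT3⟩ := Finset.exists_subset_card_eq h3
  obtain ⟨a, b, d, hab, had, hbd, rfl⟩ := Finset.card_eq_three.1 hT3
  have hsub : ∀ i ∈ ({a, b, d} : Finset (Fin 5)), C ⊆ F U i := by
    intro i hi x hx
    rw [← mem_J, hJ x hx]
    exact hT hi
  have := h.no_triple_connected hab had hbd hC (hsub a (by simp)) (hsub b (by simp))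
    (hsub d (by simp)) hc hC1
  rw [this, dist_self] at hcd
  linarith

end Cov
end

end Crest.Agent.R40.T3
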