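import Mathlib
import Crest.Agent.R40.T3Pal
import Crest.Agent.R40.TopoB620

/-!
# R40: topological facts for `Cov` (helper620)

* `td_Th` : the set `Th U = {|J| ≥ 3}` does not separate (with `Cov.isTotallyDisconnected_Th`).
* `Cov.subset_U_of_no_pair` : an open preconnected set without points of `|J| = 2` lies in one
  `U k`.
* `Cov.subset_or_of_pairs` : two closed unions of colours.
* `polar_box` : small box at a point of a unit circle, with preconnected inner and outer parts.
-/

set_option autoImplicit false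

open Set Filter Topology Metric

namespace Crest.Agent.R40.Topo

open Crest.Agent.R40.T3

section
variable {U : Fin 5 → Set ℂ}



/-- `Th U` has empty interior: every nonempty open set contains points with `|J| ≤ 2` -/
lemma exists_notMem_Th (h : Cov U) {N : Set ℂ} (hN : IsOpen N) (hne : N.Nonempty) :
    ∃ z ∈ N, z ∉ Th U := by
  by_contra hcon
  push Not at hcon
  obtain ⟨x, hx⟩ := hne
  have h1 : x ∈ interior (Th U) := mem_interior.2 ⟨N, hcon, hN, hx⟩
  rw [td_interior h.isTotallyDisconnected_Th] at h1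
  exact h1

/-- the open sets `U k` cover the complement of the multi-coloured points -/
lemma mem_U_of_card_eq_one (h : Cov U) {x : ℂ} (hx : (J U x).card = 1) :
    ∃ k, J U x = {k} ∧ x ∈ U k := by
  obtain ⟨k, hk⟩ := Finset.card_eq_one.1 hx
  exact ⟨k, hk, h.mem_of_J_subset (by rw [hk])⟩

/-- two-set version: if `N` is covered by two closed sets and all points of the intersection in
`N` have at least three colours, one of them contains `N`. -/
theorem cover_Th (h : Cov U) {N H H' : Set ℂ} (hN : IsOpen N) (hNc : IsPreconnected N)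
    (hH : IsClosed H) (hH' : IsClosed H') (hcov : N ⊆ H ∪ H')
    (ht : ∀ z ∈ N, z ∈ H → z ∈ H' → 3 ≤ (J U z).card) : N ⊆ H ∨ N ⊆ H' :=
  td_cover hN hNc hH hH' hcov (td_mono h.isTotallyDisconnected_Th
    (fun z hz => ht z hz.2 hz.1.1 hz.1.2))

/-- the closed union of the colours in `P` -/
def HP (U : Fin 5 → Set ℂ) (P : Finset (Fin 5)) : Set ℂ := ⋃ k ∈ P, F U k

lemma isClosed_HP (P : Finset (Fin 5)) : IsClosed (HP U P) :=
  isClosed_biUnion_finset fun k _ => isClosed_F k

lemma mem_HP {P : Finset (Fin 5)} {x : ℂ} : x ∈ HP U P ↔ ∃ k ∈ P, k ∈ J U x := by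
  simp [HP]

/-- colour-partition version: `N` open preconnected, `P` a set of colours such that no point of
`N` has an exact palette `{i, j}` with `i ∈ P`, `j ∉ P`. Then all points of `N` have a colour in
`P`, or all points of `N` have a colour outside `P`. -/
theorem subset_HP_or (h : Cov U) {N : Set ℂ} (hN : IsOpen N) (hNc : IsPreconnected N)
    (P : Finset (Fin 5)) (hP : ∀ z ∈ N, ∀ i ∈ P, ∀ j, j ∉ P → J U z ≠ {i, j}) :
    N ⊆ HP U P ∨ N ⊆ HP U Pᶜ := by
  refine cover_Th h hN hNc (isClosed_HP P) (isClosed_HP Pᶜ) ?_ ?_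
  · intro z _
    obtain ⟨k, hk⟩ := h.J_nonempty z
    by_cases hkP : k ∈ P
    · exact Or.inl (mem_HP.2 ⟨k, hkP, hk⟩)
    · exact Or.inr (mem_HP.2 ⟨k, Finset.mem_compl.2 hkP, hk⟩)
  · intro z hz h1 h2
    obtain ⟨i, hi, hiJ⟩ := mem_HP.1 h1
    obtain ⟨j, hj, hjJ⟩ := mem_HP.1 h2
    rw [Finset.mem_compl] at hj
    have hij : i ≠ j := by rintro rfl; exact hj hi
    by_contra hcard
    push Not at hcard
    refine hP z hz i hi j hj ?_
    symm
    apply Finset.eq_of_subset_of_card_le
    · intro k hk
      simp only [Finset.mem_insert, Finset.mem_singleton] at hk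
      rcases hk with rfl | rfl
      · exact hiJ
      · exact hjJ
    · rw [Finset.card_pair hij]; omega

/-- an open preconnected set without points of `|J| = 2` lies in one `U k` -/
theorem subset_U_of_no_pair (h : Cov U) {N : Set ℂ} (hN : IsOpen N) (hNc : IsPreconnected N)
    (hne : N.Nonempty) (hcard : ∀ z ∈ N, (J U z).card ≠ 2) : ∃ k, N ⊆ U k := by
  obtain ⟨z, hz, hzT⟩ := exists_notMem_Th h hN hne
  have hz1 : (J U z).card = 1 := by
    have h1 := (Finset.card_pos.2 (h.J_nonempty z))
    have h2 := hcard z hz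
    rw [Th, mem_ofPred_eq, not_le] at hzT
    omega
  obtain ⟨k, hk, -⟩ := mem_U_of_card_eq_one h hz1
  refine ⟨k, ?_⟩
  have h1 : N ⊆ F U k := by
    rcases subset_HP_or h hN hNc {k} (fun w hw i hi j hj hJ => hcard w hw (by
      rw [hJ, Finset.card_pair]; rintro rfl; exact hj hi)) with h1 | h1
    · intro w hw
      obtain ⟨i, hi, hiJ⟩ := mem_HP.1 (h1 hw)
      rw [Finset.mem_singleton] at hi
      rw [← hi]
      exact mem_J.1 hiJ
    · exfalso
      obtain ⟨i, hi, hiJ⟩ := mem_HP.1 (h1 hz)
      rw [hk, Finset.mem_singleton] at hiJ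
      rw [hiJ] at hi
      simp at hi
  intro w hw
  refine h.mem_of_eventually ?_
  filter_upwards [hN.mem_nhds hw] with v hv using h1 hv

end

/-! ### the box at a point of a unit circle -/


end Crest.Agent.R40.Topo
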